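import Vale.Agent.P322.Defs

/-! Module C0: one-variable inequalities for the entropy `ent` against `vv`. -/

namespace Vale.Agent.P322
open Real Set

namespace AZero

theorem hasDerivAt_phi {x : ℝ} (h1 : -1 < x) (h2 : x < 1) : HasDerivAt phi (ath x) x := by
  have e1 : HasDerivAt (fun x : ℝ => 1 + x) 1 x := by simpa using (hasDerivAt_id x).const_add 1
  have e2 : HasDerivAt (fun x : ℝ => 1 - x) (-1) x := by simpa using (hasDerivAt_id x).const_sub 1
  have l1 := e1.log (by linarith : (1 + x) ≠ 0)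
  have l2 := e2.log (by linarith : (1 - x) ≠ 0)
  have := ((e1.mul l1).add (e2.mul l2)).div_const 2
  refine this.congr_deriv ?_
  have h3 : (1 + x) ≠ 0 := by linarith
  have h4 : (1 - x) ≠ 0 := by linarith
  unfold ath
  field_simp
  ring

theorem hasDerivAt_ath {x : ℝ} (h1 : -1 < x) (h2 : x < 1) :
    HasDerivAt ath (1 / (1 - x ^ 2)) x := by
  have e1 : HasDerivAt (fun x : ℝ => 1 + x) 1 x := by simpa using (hasDerivAt_id x).const_add 1
  have e2 : HasDerivAt (fun x : ℝ => 1 - x) (-1) x := by simpa using (hasDerivAt_id x).const_sub 1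
  have h3 : (1 + x) ≠ 0 := by linarith
  have h4 : (1 - x) ≠ 0 := by linarith
  have h5 : (1 - x ^ 2) ≠ 0 := by
    have : (1 - x ^ 2) = (1 + x) * (1 - x) := by ring
    rw [this]; exact mul_ne_zero h3 h4
  have l1 := e1.log h3
  have l2 := e2.log h4
  refine ((l1.sub l2).div_const 2).congr_deriv ?_
  rw [show (1 - x ^ 2) = (1 + x) * (1 - x) by ring]
  field_simp
  ring

theorem continuous_phi : Continuous phi := by
  unfold phi
  have h1 : Continuous fun x : ℝ => (1 + x) * Real.log (1 + x) :=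
    Real.continuous_mul_log.comp (continuous_const.add continuous_id)
  have h2 : Continuous fun x : ℝ => (1 - x) * Real.log (1 - x) :=
    Real.continuous_mul_log.comp (continuous_const.sub continuous_id)
  exact (h1.add h2).div_const 2

theorem continuous_ent : Continuous ent := continuous_const.sub continuous_phi

theorem phi_zero : phi 0 = 0 := by simp [phi]
theorem ath_zero : ath 0 = 0 := by simp [ath]
theorem phi_one : phi 1 = Real.log 2 := by simp [phi]; norm_num
theorem phi_neg (x : ℝ) : phi (-x) = phi x := by unfold phi; ring_nf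
theorem ath_neg (x : ℝ) : ath (-x) = -ath x := by unfold ath; ring_nf
theorem ent_neg (x : ℝ) : ent (-x) = ent x := by unfold ent; rw [phi_neg]
theorem vv_neg (x : ℝ) : vv (-x) = vv x := by unfold vv; ring

theorem log2_pos : 0 < Real.log 2 := Real.log_pos (by norm_num)

theorem cc_mul : cc * Real.log 2 = Real.log 2 - 1 / 2 := by
  have := log2_pos.ne'
  unfold cc; field_simp

theorem cc_pos : 0 < cc := by
  have h := Real.log_two_gt_d9
  have : 0 < cc * Real.log 2 := by rw [cc_mul]; linarith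
  exact pos_of_mul_pos_left this log2_pos.le

theorem cc_lt : cc < 1 := by
  unfold cc
  have : 0 < 1 / (2 * Real.log 2) := by have := log2_pos; positivity
  linarith

/-- a nonnegative derivative on the interior gives monotonicity on `[0,1]`. -/
theorem nonneg_of_deriv {f f' : ℝ → ℝ} {b : ℝ} (hc : ContinuousOn f (Icc 0 b)) (h0 : 0 ≤ f 0)
    (hd : ∀ x ∈ Ioo 0 b, HasDerivAt f (f' x) x) (hf : ∀ x ∈ Ioo 0 b, 0 ≤ f' x)
    {x : ℝ} (hx : x ∈ Icc 0 b) : 0 ≤ f x := by
  have hm : MonotoneOn f (Icc 0 b) := by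
    apply monotoneOn_of_deriv_nonneg (convex_Icc 0 b) hc
    · intro y hy
      rw [interior_Icc] at hy
      exact (hd y hy).differentiableAt.differentiableWithinAt
    · intro y hy
      rw [interior_Icc] at hy
      rw [(hd y hy).deriv]
      exact hf y hy
  exact h0.trans (hm ⟨le_rfl, hx.1.trans hx.2⟩ hx hx.1)

theorem ath_ge {m : ℝ} (h0 : 0 ≤ m) (h1 : m < 1) : m ≤ ath m := by
  have := nonneg_of_deriv (f := fun x => ath x - x) (f' := fun x => 1 / (1 - x ^ 2) - 1) (b := m)
    (by
      intro x hx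
      exact ((hasDerivAt_ath (by linarith [hx.1]) (by linarith [hx.2])).sub
        (hasDerivAt_id x)).continuousAt.continuousWithinAt)
    (by simp [ath_zero])
    (fun x hx => (hasDerivAt_ath (by linarith [hx.1]) (by linarith [hx.2])).sub (hasDerivAt_id x))
    (fun x hx => by
      have h2 : 0 < 1 - x ^ 2 := by nlinarith [hx.1, hx.2]
      have : 1 ≤ 1 / (1 - x ^ 2) := by
        rw [le_div_iff₀ h2]; nlinarith [hx.1, hx.2, sq_nonneg x]
      linarith) (x := m) ⟨h0, le_rfl⟩
  simpa using this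

/-- `m/(1-m^2) ≥ ath m`. -/
theorem ath_le {m : ℝ} (h0 : 0 ≤ m) (h1 : m < 1) : ath m ≤ m / (1 - m ^ 2) := by
  have hd : ∀ x : ℝ, 0 ≤ x → x < 1 → HasDerivAt (fun x => x / (1 - x ^ 2) - ath x)
      (2 * x ^ 2 / (1 - x ^ 2) ^ 2) x := by
    intro x hx hx1
    have h5 : (1 - x ^ 2) ≠ 0 := by nlinarith
    have e : HasDerivAt (fun x : ℝ => 1 - x ^ 2) (-(2 * x)) x := by
      simpa using (hasDerivAt_pow 2 x).const_sub 1
    refine (((hasDerivAt_id x).div e h5).sub (hasDerivAt_ath (by linarith) hx1)).congr_deriv ?_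
    simp only [id]
    field_simp
    ring
  have := nonneg_of_deriv (f := fun x => x / (1 - x ^ 2) - ath x) (b := m)
    (fun x hx => (hd x hx.1 (by linarith [hx.2])).continuousAt.continuousWithinAt)
    (by simp [ath_zero])
    (fun x hx => hd x hx.1.le (by linarith [hx.2]))
    (fun x hx => by positivity) (x := m) ⟨h0, le_rfl⟩
  linarith

/-- `2 phi m ≤ m ath m`. -/
theorem phi_le_ath {m : ℝ} (h0 : 0 ≤ m) (h1 : m < 1) : 2 * phi m ≤ m * ath m := by
  have hd : ∀ x : ℝ, 0 ≤ x → x < 1 → HasDerivAt (fun x => x * ath x - 2 * phi x)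
      (x / (1 - x ^ 2) - ath x) x := by
    intro x hx hx1
    refine (((hasDerivAt_id x).mul (hasDerivAt_ath (by linarith) hx1)).sub
      ((hasDerivAt_phi (by linarith) hx1).const_mul 2)).congr_deriv ?_
    simp only [id]
    ring
  have := nonneg_of_deriv (f := fun x => x * ath x - 2 * phi x) (b := m)
    (fun x hx => (hd x hx.1 (by linarith [hx.2])).continuousAt.continuousWithinAt)
    (by simp [ath_zero, phi_zero])
    (fun x hx => hd x hx.1.le (by linarith [hx.2]))
    (fun x hx => by
      have := ath_le hx.1.le (by linarith [hx.2] : x < 1)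
      linarith) (x := m) ⟨h0, le_rfl⟩
  linarith

/-- the antiderivative of `2 phi` vanishing at `0`. -/
noncomputable def hh (m : ℝ) : ℝ :=
  (1 + m) ^ 2 / 2 * Real.log (1 + m) - (1 - m) ^ 2 / 2 * Real.log (1 - m) - m

theorem hasDerivAt_hh {x : ℝ} (h1 : -1 < x) (h2 : x < 1) : HasDerivAt hh (2 * phi x) x := by
  have e1 : HasDerivAt (fun x : ℝ => 1 + x) 1 x := by simpa using (hasDerivAt_id x).const_add 1
  have e2 : HasDerivAt (fun x : ℝ => 1 - x) (-1) x := by simpa using (hasDerivAt_id x).const_sub 1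
  have h3 : (1 + x) ≠ 0 := by linarith
  have h4 : (1 - x) ≠ 0 := by linarith
  have l1 := e1.log h3
  have l2 := e2.log h4
  have p1 : HasDerivAt (fun x : ℝ => (1 + x) ^ 2 / 2) (1 + x) x :=
    ((e1.fun_pow 2).div_const 2).congr_deriv (by push_cast; ring)
  have p2 : HasDerivAt (fun x : ℝ => (1 - x) ^ 2 / 2) (-(1 - x)) x :=
    ((e2.fun_pow 2).div_const 2).congr_deriv (by push_cast; ring)
  refine (((p1.mul l1).sub (p2.mul l2)).sub (hasDerivAt_id x)).congr_deriv ?_
  unfold phi
  field_simp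
  ring

theorem continuous_hh : Continuous hh := by
  unfold hh
  have h1 : Continuous fun x : ℝ => (1 + x) * Real.log (1 + x) :=
    Real.continuous_mul_log.comp (continuous_const.add continuous_id)
  have h2 : Continuous fun x : ℝ => (1 - x) * Real.log (1 - x) :=
    Real.continuous_mul_log.comp (continuous_const.sub continuous_id)
  have h3 : Continuous fun x : ℝ => (1 + x) / 2 * ((1 + x) * Real.log (1 + x)) :=
    (by fun_prop : Continuous fun x : ℝ => (1 + x) / 2).mul h1
  have h4 : Continuous fun x : ℝ => (1 - x) / 2 * ((1 - x) * Real.log (1 - x)) :=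
    (by fun_prop : Continuous fun x : ℝ => (1 - x) / 2).mul h2
  have h5 : Continuous fun x : ℝ => (1 + x) / 2 * ((1 + x) * Real.log (1 + x)) -
      (1 - x) / 2 * ((1 - x) * Real.log (1 - x)) - x := (h3.sub h4).sub continuous_id
  refine h5.congr fun x => ?_
  ring

theorem hh_zero : hh 0 = 0 := by simp [hh]

theorem hh_one : hh 1 = 2 * Real.log 2 - 1 := by
  unfold hh; norm_num

/-- `3 hh m ≤ 2 m phi m`. -/
theorem hh_le_phi {m : ℝ} (h0 : 0 ≤ m) (h1 : m < 1) : 3 * hh m ≤ 2 * m * phi m := by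
  have hd : ∀ x : ℝ, 0 ≤ x → x < 1 → HasDerivAt (fun x => 2 * x * phi x - 3 * hh x)
      (2 * (x * ath x - 2 * phi x)) x := by
    intro x hx hx1
    have e : HasDerivAt (fun x : ℝ => 2 * x) 2 x := by simpa using (hasDerivAt_id x).const_mul 2
    refine ((e.mul (hasDerivAt_phi (by linarith) hx1)).sub
      ((hasDerivAt_hh (by linarith) hx1).const_mul 3)).congr_deriv ?_
    ring
  have := nonneg_of_deriv (f := fun x => 2 * x * phi x - 3 * hh x) (b := m)
    (fun x hx => (hd x hx.1 (by linarith [hx.2])).continuousAt.continuousWithinAt)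
    (by simp [phi_zero, hh_zero])
    (fun x hx => hd x hx.1.le (by linarith [hx.2]))
    (fun x hx => by
      have := phi_le_ath hx.1.le (by linarith [hx.2] : x < 1)
      linarith) (x := m) ⟨h0, le_rfl⟩
  linarith

theorem hh_le {m : ℝ} (h0 : 0 ≤ m) (h1 : m ≤ 1) : hh m ≤ (2 * Real.log 2 - 1) * m ^ 3 := by
  rcases h0.eq_or_lt with h | h0
  · subst h; simp [hh_zero]
  have hd : ∀ x : ℝ, 0 < x → x < 1 → HasDerivAt (fun x => hh x / x ^ 3)
      ((x ^ 2 * (2 * x * phi x - 3 * hh x)) / (x ^ 3) ^ 2) x := by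
    intro x hx0 hx1
    have h3 : x ^ 3 ≠ 0 := by positivity
    refine ((hasDerivAt_hh (by linarith) hx1).fun_div (hasDerivAt_pow 3 x) h3).congr_deriv ?_
    push_cast
    congr 1
    ring
  have hm : MonotoneOn (fun x => hh x / x ^ 3) (Icc m 1) := by
    apply monotoneOn_of_deriv_nonneg (convex_Icc m 1)
    · apply ContinuousOn.div continuous_hh.continuousOn (by fun_prop)
      intro x hx
      have : 0 < x := by linarith [hx.1]
      positivity
    · intro x hx
      rw [interior_Icc] at hx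
      exact (hd x (by linarith [hx.1]) hx.2).differentiableAt.differentiableWithinAt
    · intro x hx
      rw [interior_Icc] at hx
      have hx0 : 0 < x := by linarith [hx.1]
      rw [(hd x hx0 hx.2).deriv]
      have := hh_le_phi hx0.le hx.2
      apply div_nonneg _ (by positivity)
      apply mul_nonneg (by positivity); linarith
  have := hm ⟨le_rfl, h1⟩ ⟨h1, le_rfl⟩ h1
  simp only [hh_one] at this
  have h3 : 0 < m ^ 3 := by positivity
  rw [div_le_iff₀ h3] at this
  simpa using this

end AZero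

open AZero

/-- equivalent to: `ent m / (1-m^2) - (log 2)(1 + cc m^2)` is nondecreasing on `[0,1)`. -/
theorem A0_deriv {m : ℝ} (h0 : 0 ≤ m) (h1 : m < 1) :
    (2 * Real.log 2 - 1) * m * (1 - m ^ 2) ^ 2 ≤ 2 * m * ent m - (1 - m ^ 2) * ath m := by
  have h := hh_le h0 h1.le
  have hb : 0 ≤ (2 * Real.log 2 - 1) := by linarith [Real.log_two_gt_d9]
  have e : 2 * m * ent m - (1 - m ^ 2) * ath m = (2 * Real.log 2 - 1) * m - hh m := by
    unfold ent phi ath hh; ring
  rw [e]
  have h2 : 0 ≤ 1 - m ^ 2 := by nlinarith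
  have h3 : (1 - m ^ 2) ^ 2 ≤ 1 - m ^ 2 := by nlinarith [sq_nonneg m]
  have h4 : (2 * Real.log 2 - 1) * m * (1 - m ^ 2) ^ 2 ≤ (2 * Real.log 2 - 1) * m * (1 - m ^ 2) :=
    mul_le_mul_of_nonneg_left h3 (mul_nonneg hb h0)
  nlinarith

theorem phi_ge {m : ℝ} (h : |m| ≤ 1) : m ^ 2 / 2 ≤ phi m := by
  have key : ∀ x : ℝ, 0 ≤ x → x ≤ 1 → x ^ 2 / 2 ≤ phi x := by
    intro x hx hx1
    have := nonneg_of_deriv (f := fun x => phi x - x ^ 2 / 2) (f' := fun x => ath x - x) (b := 1)
      (by
        apply ContinuousOn.sub continuous_phi.continuousOn (by fun_prop))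
      (by simp [phi_zero])
      (fun x hx => by
        have e : HasDerivAt (fun x : ℝ => x ^ 2 / 2) x x := by
          simpa using (hasDerivAt_pow 2 x).div_const 2
        exact (hasDerivAt_phi (by linarith [hx.1]) hx.2).sub e)
      (fun x hx => by
        have := ath_ge hx.1.le hx.2
        linarith) (x := x) ⟨hx, hx1⟩
    linarith
  rcases le_total 0 m with h0 | h0
  · exact key m h0 (by rwa [abs_of_nonneg h0] at h)
  · have := key (-m) (by linarith) (by rwa [abs_of_nonpos h0] at h)
    rw [phi_neg] at this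
    simpa using this

theorem vv_le_ent {m : ℝ} (h : |m| ≤ 1) : vv m * Real.log 2 ≤ ent m := by
  have key : ∀ x : ℝ, 0 ≤ x → x ≤ 1 → vv x * Real.log 2 ≤ ent x := by
    intro x hx hx1
    rcases hx1.eq_or_lt with h1 | h1
    · subst h1
      simp [vv, ent, phi_one]
    have hm : MonotoneOn (fun x => ent x / (1 - x ^ 2) - Real.log 2 * (1 + cc * x ^ 2))
        (Icc 0 x) := by
      have hd : ∀ y ∈ Icc 0 x, HasDerivAt
          (fun x => ent x / (1 - x ^ 2) - Real.log 2 * (1 + cc * x ^ 2))
          ((2 * y * ent y - (1 - y ^ 2) * ath y) / (1 - y ^ 2) ^ 2 -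
            (2 * Real.log 2 - 1) * y) y := by
        intro y hy
        have h5 : (1 - y ^ 2) ≠ 0 := by nlinarith [hy.1, hy.2]
        have e : HasDerivAt (fun x : ℝ => 1 - x ^ 2) (-(2 * y)) y := by
          simpa using (hasDerivAt_pow 2 y).const_sub 1
        have e1 : HasDerivAt ent (-ath y) y :=
          (hasDerivAt_phi (by linarith [hy.1]) (by linarith [hy.2])).const_sub _
        have e2 : HasDerivAt (fun x : ℝ => Real.log 2 * (1 + cc * x ^ 2))
            (Real.log 2 * (cc * (2 * y))) y := by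
          simpa using (((hasDerivAt_pow 2 y).const_mul cc).const_add 1).const_mul (Real.log 2)
        refine ((e1.div e h5).sub e2).congr_deriv ?_
        have e3 : Real.log 2 * (cc * (2 * y)) = (2 * Real.log 2 - 1) * y := by
          have := cc_mul
          linear_combination (2 * y) * this
        rw [e3]
        congr 1
        congr 1
        ring
      apply monotoneOn_of_deriv_nonneg (convex_Icc 0 x)
      · exact fun y hy => (hd y hy).continuousAt.continuousWithinAt
      · exact fun y hy => (hd y (interior_subset hy)).differentiableAt.differentiableWithinAt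
      · intro y hy
        rw [(hd y (interior_subset hy)).deriv]
        have hy := interior_subset hy
        have h6 : 0 < (1 - y ^ 2) := by nlinarith [hy.1, hy.2]
        have := A0_deriv hy.1 (by linarith [hy.2])
        rw [sub_nonneg, le_div_iff₀ (by positivity)]
        exact this
    have := hm ⟨le_rfl, hx⟩ ⟨hx, le_rfl⟩ hx
    simp only [ent, phi_zero] at this
    have h6 : 0 < (1 - x ^ 2) := by nlinarith
    have h7 : Real.log 2 * (1 + cc * x ^ 2) ≤ ent x / (1 - x ^ 2) := by
      simp only [ent]; norm_num at this; linarith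
    rw [le_div_iff₀ h6] at h7
    unfold vv; linarith
  rcases le_total 0 m with h0 | h0
  · exact key m h0 (by rwa [abs_of_nonneg h0] at h)
  · have := key (-m) (by linarith) (by rwa [abs_of_nonpos h0] at h)
    rwa [vv_neg, ent_neg] at this

/-- used at the end (unbalanced functions): `(1 - v(m)) h(m) ≤ m²/2`. -/
theorem one_sub_vv_mul_ent {m : ℝ} (h : |m| ≤ 1) : (1 - vv m) * ent m ≤ m ^ 2 / 2 := by
  have hp := phi_ge h
  have hm : m ^ 2 ≤ 1 := by
    rw [← sq_abs]; nlinarith [abs_nonneg m]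
  have hc := cc_pos
  have hc1 := cc_lt
  have hcm := cc_mul
  have hl := log2_pos
  have e : 1 - vv m = m ^ 2 * ((1 - cc) + cc * m ^ 2) := by unfold vv; ring
  have hent : ent m ≤ Real.log 2 - m ^ 2 / 2 := by unfold ent; linarith
  have hm0 : 0 ≤ m ^ 2 := sq_nonneg m
  have h1 : 0 ≤ (1 - cc) + cc * m ^ 2 := by nlinarith
  have hL := Real.log_two_lt_d9
  have ha : (1 - cc) * Real.log 2 = 1 / 2 := by linarith
  have ha2 : 0.7 ≤ 1 - cc := by nlinarith
  have h2 : ((1 - cc) + cc * m ^ 2) * (Real.log 2 - m ^ 2 / 2) ≤ 1 / 2 := by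
    have e2 : ((1 - cc) + cc * m ^ 2) * (Real.log 2 - m ^ 2 / 2)
        = 1 / 2 + (Real.log 2 - 1 / 2 - (1 - cc) / 2) * m ^ 2 - cc * (m ^ 2) ^ 2 / 2 := by
      linear_combination (1 : ℝ) * ha + m ^ 2 * hcm
    rw [e2]
    have : (Real.log 2 - 1 / 2 - (1 - cc) / 2) * m ^ 2 ≤ 0 :=
      mul_nonpos_of_nonpos_of_nonneg (by linarith) hm0
    have : 0 ≤ cc * (m ^ 2) ^ 2 / 2 := by positivity
    linarith
  rw [e]
  calc m ^ 2 * ((1 - cc) + cc * m ^ 2) * ent m
      ≤ m ^ 2 * ((1 - cc) + cc * m ^ 2) * (Real.log 2 - m ^ 2 / 2) :=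
        mul_le_mul_of_nonneg_left hent (mul_nonneg hm0 h1)
    _ = m ^ 2 * (((1 - cc) + cc * m ^ 2) * (Real.log 2 - m ^ 2 / 2)) := by ring
    _ ≤ m ^ 2 * (1 / 2) := mul_le_mul_of_nonneg_left h2 hm0
    _ = m ^ 2 / 2 := by ring

end Vale.Agent.P322
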