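import Vale.Agent.P322.OneVar
import Vale.Agent.P322.AZero

/-! Module J: ODE comparison. -/

namespace Vale.Agent.P322
open Real

theorem compare_phi_continuous : Continuous phi := by
  unfold phi
  have h1 : Continuous fun x : ℝ => (1 + x) * Real.log (1 + x) :=
    Real.continuous_mul_log.comp (continuous_const.add continuous_id)
  have h2 : Continuous fun x : ℝ => (1 - x) * Real.log (1 - x) :=
    Real.continuous_mul_log.comp (continuous_const.sub continuous_id)
  exact (h1.add h2).div_const 2

theorem compare_phi_deriv {x : ℝ} (h1 : -1 < x) (h2 : x < 1) : HasDerivAt phi (ath x) x := by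
  have a : HasDerivAt (fun x : ℝ => 1 + x) 1 x := by
    simpa using (hasDerivAt_id x).const_add 1
  have b : HasDerivAt (fun x : ℝ => 1 - x) (-1) x := by
    simpa using (hasDerivAt_id x).const_sub 1
  have ha : (1 : ℝ) + x ≠ 0 := by linarith
  have hb : (1 : ℝ) - x ≠ 0 := by linarith
  have c := (a.mul (a.log ha)).add (b.mul (b.log hb))
  have d := c.div_const 2
  have e : HasDerivAt phi ((1 * Real.log (1 + x) + (1 + x) * (1 / (1 + x)) +
      (-1 * Real.log (1 - x) + (1 - x) * (-1 / (1 - x)))) / 2) x := d
  convert e using 1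
  unfold ath
  field_simp
  ring

theorem compare_ath_nonneg {x : ℝ} (h0 : 0 ≤ x) (h1 : x < 1) : 0 ≤ ath x := by
  unfold ath
  have : Real.log (1 - x) ≤ Real.log (1 + x) := Real.log_le_log (by linarith) (by linarith)
  linarith

theorem compare_phi_mono : MonotoneOn phi (Set.Icc 0 1) := by
  apply monotoneOn_of_deriv_nonneg (convex_Icc 0 1) compare_phi_continuous.continuousOn
  · intro x hx
    rw [interior_Icc] at hx
    exact (compare_phi_deriv (by linarith [hx.1]) hx.2).differentiableAt.differentiableWithinAt
  · intro x hx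
    rw [interior_Icc] at hx
    rw [(compare_phi_deriv (by linarith [hx.1]) hx.2).deriv]
    exact compare_ath_nonneg hx.1.le hx.2

theorem compare_phi_abs (m : ℝ) : phi |m| = phi m := by
  rcases abs_choice m with h | h
  · rw [h]
  · rw [h]
    unfold phi
    rw [sub_neg_eq_add, ← sub_eq_add_neg]
    ring

theorem compare_phi_one : phi 1 = Real.log 2 := by
  unfold phi
  norm_num

theorem compare_tanh_ath {x : ℝ} (h0 : 0 ≤ x) (h1 : x < 1) : Real.tanh (ath x) = x := by
  have hp : 0 < 1 + x := by linarith
  have hm : 0 < 1 - x := by linarith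
  have h2 : Real.exp (ath x) * Real.exp (ath x) = (1 + x) / (1 - x) := by
    rw [← Real.exp_add]
    unfold ath
    rw [show (Real.log (1 + x) - Real.log (1 - x)) / 2 + (Real.log (1 + x) - Real.log (1 - x)) / 2 =
      Real.log (1 + x) - Real.log (1 - x) by ring, Real.exp_sub, Real.exp_log hp, Real.exp_log hm]
  rw [Real.tanh_eq_sinh_div_cosh, Real.sinh_eq, Real.cosh_eq, Real.exp_neg]
  set e := Real.exp (ath x) with he
  have he0 : 0 < e := Real.exp_pos _
  have h3 : e * e * (1 - x) = 1 + x := by
    rw [h2]
    field_simp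
  rw [div_eq_iff (by positivity)]
  field_simp
  nlinarith

theorem compare_ent_deriv {t : ℝ} (ht : 0 < t) :
    HasDerivAt (fun s => ent (Real.exp (-s))) (Real.exp (-t) * ath (Real.exp (-t))) t := by
  have h1 : Real.exp (-t) < 1 := by
    rw [Real.exp_lt_one_iff]
    linarith
  have h2 : -1 < Real.exp (-t) := by linarith [Real.exp_pos (-t)]
  have a : HasDerivAt (fun s : ℝ => Real.exp (-s)) (-Real.exp (-t)) t := by
    have := (hasDerivAt_neg t).exp
    simpa using this
  have b := (compare_phi_deriv h2 h1).comp t a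
  have c := b.const_sub (Real.log 2)
  have d : HasDerivAt (fun s => ent (Real.exp (-s)))
      (-(ath (Real.exp (-t)) * -Real.exp (-t))) t := c
  convert d using 1
  ring

/-- a one-sided Gronwall statement: `p' ≥ -a p` wherever `p < 0`, `p 0 ≥ 0`, hence `p ≥ 0`. -/
theorem compare_nonneg {p p' : ℝ → ℝ} (hc : ContinuousOn p (Set.Ici 0)) (h0 : 0 ≤ p 0)
    (hd : ∀ t, 0 < t → HasDerivAt p (p' t) t)
    (hp : ∀ t, 0 < t → p t < 0 → 0 ≤ p' t) {t : ℝ} (ht : 0 ≤ t) : 0 ≤ p t := by
  by_contra hneg
  push Not at hneg
  -- last time at which p is nonnegative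
  set A : Set ℝ := {s | s ∈ Set.Icc 0 t ∧ 0 ≤ p s} with hA
  have hcI : ContinuousOn p (Set.Icc 0 t) := hc.mono Set.Icc_subset_Ici_self
  have hAclosed : IsClosed A := by
    have : A = Set.Icc 0 t ∩ p ⁻¹' (Set.Ici 0) := by
      ext s
      simp [hA]
    rw [this]
    exact hcI.preimage_isClosed_of_isClosed isClosed_Icc isClosed_Ici
  have hAcomp : IsCompact A := isCompact_Icc.of_isClosed_subset hAclosed fun s hs => hs.1
  have hne : A.Nonempty := ⟨0, ⟨le_refl 0, ht⟩, h0⟩
  obtain ⟨s, hs, hsmax⟩ := hAcomp.exists_isMaxOn hne continuousOn_id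
  have hst : s < t := by
    rcases lt_or_eq_of_le hs.1.2 with h | h
    · exact h
    · exfalso
      rw [h] at hs
      linarith [hs.2]
  have hneg' : ∀ r, s < r → r ≤ t → p r < 0 := by
    intro r h1 h2
    by_contra h3
    push Not at h3
    have : r ∈ A := ⟨⟨by linarith [hs.1.1], h2⟩, h3⟩
    have := hsmax this
    simp at this
    linarith
  have hmono : MonotoneOn p (Set.Icc s t) := by
    apply monotoneOn_of_deriv_nonneg (convex_Icc s t)
      (hcI.mono (Set.Icc_subset_Icc_left hs.1.1))
    · intro r hr
      rw [interior_Icc] at hr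
      exact (hd r (by linarith [hs.1.1, hr.1])).differentiableAt.differentiableWithinAt
    · intro r hr
      rw [interior_Icc] at hr
      have hr0 : 0 < r := by linarith [hs.1.1, hr.1]
      rw [(hd r hr0).deriv]
      exact hp r hr0 (hneg' r hr.1 hr.2.le)
  have := hmono ⟨le_refl s, hst.le⟩ ⟨hst.le, le_refl t⟩ hst.le
  linarith [hs.2]

theorem compare {U U' : ℝ → ℝ} {m : ℝ} (hm : |m| < 1)
    (hc : ContinuousOn U (Set.Ici 0)) (hU0 : U 0 ≤ Real.log 2)
    (hd : ∀ t, 0 < t → HasDerivAt U (U' t) t)
    (hU : ∀ t, 0 < t → ∀ z, 0 ≤ z →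
      2 * (U t - phi m) + vv m * GG z - mu z * (Real.log 2 - U t) ≤ -U' t)
    {t : ℝ} (ht : 0 ≤ t) :
    U t - phi m ≤ phi (Real.exp (-t)) := by
  have hv1 := vv_le_ent hm.le
  have hv2 := one_sub_vv_mul_ent hm.le
  have hphim := phi_ge hm.le
  have hent : ent m = Real.log 2 - phi m := rfl
  have hv3 : 0 ≤ 1 - vv m := by
    -- `1 - vv m ≥ 0`
    have hl : 0 < Real.log 2 := Real.log_pos (by norm_num)
    have hphi0 : 0 ≤ phi m := le_trans (by positivity) hphim
    by_contra hneg
    push Not at hneg
    have : Real.log 2 < vv m * Real.log 2 := by nlinarith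
    linarith
  -- first bound
  have hfirst : ∀ s, 0 ≤ s → vv m * ent (Real.exp (-s)) ≤ Real.log 2 - U s := by
    intro s hs
    have key := compare_nonneg (p := fun s => Real.log 2 - U s - vv m * ent (Real.exp (-s)))
      (p' := fun s => -U' s - vv m * (Real.exp (-s) * ath (Real.exp (-s))))
      ?_ ?_ ?_ ?_ hs
    · linarith
    · apply ContinuousOn.sub
      · exact continuousOn_const.sub hc
      · apply ContinuousOn.mul continuousOn_const
        apply Continuous.continuousOn
        unfold ent
        exact continuous_const.sub (compare_phi_continuous.comp (Real.continuous_exp.comp continuous_neg))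
    · simp only [neg_zero, Real.exp_zero]
      have : ent 1 = 0 := by
        unfold ent
        rw [compare_phi_one]
        ring
      rw [this]
      linarith
    · intro r hr
      exact ((hd r hr).const_sub (Real.log 2)).sub ((compare_ent_deriv hr).const_mul (vv m))
    · intro r hr hneg
      set ρ := Real.exp (-r) with hρ
      have hρ0 : 0 < ρ := Real.exp_pos _
      have hρ1 : ρ < 1 := by
        rw [hρ, Real.exp_lt_one_iff]
        linarith
      have hz : 0 ≤ ath ρ := compare_ath_nonneg hρ0.le hρ1
      have ht1 := compare_tanh_ath hρ0.le hρ1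
      have hom : om (ath ρ) = ent ρ := by
        rw [← ent_tanh, ht1]
      have hG : GG (ath ρ) = ρ * ath ρ - 2 * Real.log 2 + 2 * ent ρ + mu (ath ρ) * ent ρ := by
        unfold GG
        rw [ht1, hom]
        ring
      have hmu := mu_nonneg hz
      have h3 := hU r hr (ath ρ) hz
      rw [hG] at h3
      have h4 : 0 ≤ (2 + mu (ath ρ)) * (vv m * ent ρ - (Real.log 2 - U r)) :=
        mul_nonneg (by linarith) (by linarith)
      nlinarith
  have hbound : ∀ s, 0 ≤ s → U s - phi m ≤ (1 - vv m) * ent m - vv m * phi m +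
      vv m * phi (Real.exp (-s)) := by
    intro s hs
    have h1 := hfirst s hs
    have h2 : ent (Real.exp (-s)) = Real.log 2 - phi (Real.exp (-s)) := rfl
    rw [h2] at h1
    rw [hent]
    nlinarith
  rcases le_or_gt |m| (Real.exp (-t)) with hcase | hcase
  · have h1 := hbound t ht
    have hle1 : Real.exp (-t) ≤ 1 := by
      rw [Real.exp_le_one_iff]
      linarith
    have h2 : phi m ≤ phi (Real.exp (-t)) := by
      rw [← compare_phi_abs m]
      exact compare_phi_mono ⟨abs_nonneg m, hm.le⟩ ⟨(Real.exp_pos _).le, hle1⟩ hcase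
    have h3 : (1 - vv m) * phi m ≤ (1 - vv m) * phi (Real.exp (-t)) :=
      mul_le_mul_of_nonneg_left h2 hv3
    nlinarith
  · -- `ρ < |m|`
    have hmpos : 0 < |m| := lt_trans (Real.exp_pos _) hcase
    set t1 := -Real.log |m| with ht1
    have hexp : Real.exp (-t1) = |m| := by
      rw [ht1, neg_neg, Real.exp_log hmpos]
    have ht1pos : 0 < t1 := by
      rw [ht1]
      have := Real.log_neg hmpos hm
      linarith
    have ht1t : t1 ≤ t := by
      have h1 : -t < Real.log |m| := by
        rw [Real.lt_log_iff_exp_lt hmpos]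
        exact hcase
      rw [ht1]
      linarith
    have hw1 : U t1 - phi m ≤ m ^ 2 / 2 := by
      have h1 := hbound t1 ht1pos.le
      rw [hexp, compare_phi_abs] at h1
      linarith
    -- decay
    have hanti : AntitoneOn (fun s => (U s - phi m) * Real.exp (2 * s)) (Set.Icc t1 t) := by
      have hder : ∀ s, 0 < s → HasDerivAt (fun s => (U s - phi m) * Real.exp (2 * s))
          (U' s * Real.exp (2 * s) + (U s - phi m) * (Real.exp (2 * s) * 2)) s := by
        intro s hs
        have a := (hd s hs).sub_const (phi m)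
        have b : HasDerivAt (fun s : ℝ => Real.exp (2 * s)) (Real.exp (2 * s) * 2) s := by
          have := ((hasDerivAt_id s).const_mul 2).exp
          simpa using this
        exact a.mul b
      apply antitoneOn_of_deriv_nonpos (convex_Icc t1 t)
      · intro s hs
        exact (hder s (by linarith [hs.1])).continuousAt.continuousWithinAt
      · intro s hs
        rw [interior_Icc] at hs
        exact (hder s (by linarith [hs.1])).differentiableAt.differentiableWithinAt
      · intro s hs
        rw [interior_Icc] at hs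
        have hs0 : 0 < s := by linarith [hs.1]
        rw [(hder s hs0).deriv]
        have h3 := hU s hs0 0 (le_refl 0)
        rw [GG_zero, mu_zero] at h3
        have h4 := Real.exp_pos (2 * s)
        nlinarith
    have h5 := hanti ⟨le_refl t1, ht1t⟩ ⟨ht1t, le_refl t⟩ ht1t
    simp only at h5
    have h6 : (U t1 - phi m) * Real.exp (2 * t1) ≤ 1 / 2 := by
      have e1 : Real.exp (2 * t1) * (|m| * |m|) = 1 := by
        rw [← hexp, ← Real.exp_add, ← Real.exp_add]
        rw [show 2 * t1 + (-t1 + -t1) = 0 by ring, Real.exp_zero]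
      have e2 : |m| * |m| = m ^ 2 := by
        rw [abs_mul_abs_self]
        ring
      rw [e2] at e1
      have h7 := mul_le_mul_of_nonneg_right hw1 (Real.exp_pos (2 * t1)).le
      nlinarith
    have h8 : U t - phi m ≤ Real.exp (-t) ^ 2 / 2 := by
      have e3 : Real.exp (2 * t) * (Real.exp (-t) ^ 2) = 1 := by
        rw [sq, ← Real.exp_add, ← Real.exp_add, show 2 * t + (-t + -t) = 0 by ring, Real.exp_zero]
      have h9 : (U t - phi m) * Real.exp (2 * t) ≤ 1 / 2 := le_trans h5 h6
      have h10 := mul_le_mul_of_nonneg_right h9 (sq_nonneg (Real.exp (-t)))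
      have e4 : (U t - phi m) * Real.exp (2 * t) * Real.exp (-t) ^ 2 = U t - phi m := by
        rw [mul_assoc, e3, mul_one]
      rw [e4] at h10
      linarith
    refine h8.trans (phi_ge ?_)
    rw [abs_of_pos (Real.exp_pos _), Real.exp_le_one_iff]
    linarith

end Vale.Agent.P322
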