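import Vale.Agent.P322.Defs

/-! Cube, averages, Dirichlet-type form, noise operator. -/

namespace Vale.Agent.P322

abbrev Cube (n : ℕ) : Type := Fin n → ℤˣ

/-- the sign as a real number -/
noncomputable def sg (u : ℤˣ) : ℝ := ((u : ℤ) : ℝ)

noncomputable def avg {n : ℕ} (g : Cube n → ℝ) : ℝ := (∑ x, g x) / 2 ^ n

/-- flip the `i`-th sign -/
def flp {n : ℕ} (i : Fin n) (x : Cube n) : Cube n := Function.update x i (-x i)

noncomputable def DD {n : ℕ} (g : Cube n → ℝ) : ℝ :=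
  ∑ i, avg (fun x => KK (g x) (g (flp i x)))

noncomputable def TT {n : ℕ} (ρ : ℝ) (f : Cube n → ℝ) (x : Cube n) : ℝ :=
  ∑ y, (∏ i, (1 + ρ * sg (x i) * sg (y i)) / 2) * f y

end Vale.Agent.P322
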