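import Vale.Agent.P322.Defs

/-! Module B: the plane lemma. -/

namespace Vale.Agent.P322
open Real

namespace PlaneAux

noncomputable def RR (E x : ℝ) : ℝ := 1 + 2 * cosh E * x + x ^ 2

noncomputable def zt (E x : ℝ) : ℝ := RR E x * log (RR E x) / (4 * x ^ 2 * sinh E ^ 2)

noncomputable def sg (E x : ℝ) : ℝ := (1 / x ^ 2 - 1) / 4 * log (RR E x) + log x / 2

noncomputable def w1 (E x : ℝ) : ℝ :=
  RR E x * log (RR E x) / (4 * x * sinh E) - (cosh E + x) / (2 * sinh E) * log x - E / 2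

noncomputable def Tf (ζ σ E x : ℝ) : ℝ := w1 E x + ζ * E + σ * ((cosh E + x) / sinh E)

theorem RR_pos {E x : ℝ} (hx : 0 < x) : 0 < RR E x := by
  unfold RR
  have := cosh_pos E
  positivity

theorem RR_gt_one {E x : ℝ} (hx : 0 < x) : 1 < RR E x := by
  unfold RR
  have := cosh_pos E
  have h1 : 0 < 2 * cosh E * x := by positivity
  have h2 : 0 < x ^ 2 := by positivity
  linarith

theorem log_RR_pos {E x : ℝ} (hx : 0 < x) : 0 < log (RR E x) := log_pos (RR_gt_one hx)

/-- `log R ≥ 2(R-1)/(R+1)` -/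
theorem log_lower {R : ℝ} (hR : 1 ≤ R) : 2 * (R - 1) / (R + 1) ≤ log R := by
  have h := Real.le_log_one_add_of_nonneg (x := R - 1) (by linarith)
  have e1 : 1 + (R - 1) = R := by ring
  have e2 : R - 1 + 2 = R + 1 := by ring
  rwa [e1, e2] at h

theorem zt_nonneg {E x : ℝ} (hx : 0 < x) : 0 ≤ zt E x := by
  unfold zt
  have h1 := RR_pos (E := E) hx
  have h2 := log_RR_pos (E := E) hx
  positivity

theorem sg_one (E : ℝ) : sg E 1 = 0 := by
  simp [sg]

theorem RR_mono {E E' x : ℝ} (hx : 0 < x) (hE : 0 ≤ E) (h : E ≤ E') : RR E x ≤ RR E' x := by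
  unfold RR
  have : cosh E ≤ cosh E' := cosh_le_cosh.2 (by rwa [abs_of_nonneg hE, abs_of_nonneg (hE.trans h)])
  gcongr

theorem hasDerivAt_RR_x (E x : ℝ) : HasDerivAt (fun x => RR E x) (2 * cosh E + 2 * x) x := by
  unfold RR
  refine HasDerivAt.congr_deriv ((((hasDerivAt_id' x).const_mul (2 * cosh E)).const_add 1).fun_add
    (hasDerivAt_pow 2 x)) ?_
  simp

theorem hasDerivAt_RR_E (E x : ℝ) : HasDerivAt (fun E => RR E x) (2 * sinh E * x) E := by
  unfold RR
  exact ((((hasDerivAt_cosh E).const_mul 2).mul_const x).const_add 1).add_const (x ^ 2)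

theorem mono_of_hasDeriv {f f' : ℝ → ℝ} {a b : ℝ} (hab : a ≤ b)
    (h : ∀ t ∈ Set.Icc a b, HasDerivAt f (f' t) t) (h0 : ∀ t ∈ Set.Icc a b, 0 ≤ f' t) :
    f a ≤ f b := by
  have hm : MonotoneOn f (Set.Icc a b) := by
    apply monotoneOn_of_deriv_nonneg (convex_Icc a b)
    · exact fun t ht => (h t ht).continuousAt.continuousWithinAt
    · exact fun t ht => (h t (interior_subset ht)).differentiableAt.differentiableWithinAt
    · intro t ht
      rw [(h t (interior_subset ht)).deriv]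
      exact h0 t (interior_subset ht)
  exact hm (Set.left_mem_Icc.2 hab) (Set.right_mem_Icc.2 hab) hab

theorem anti_of_hasDeriv {f f' : ℝ → ℝ} {a b : ℝ} (hab : a ≤ b)
    (h : ∀ t ∈ Set.Icc a b, HasDerivAt f (f' t) t) (h0 : ∀ t ∈ Set.Icc a b, f' t ≤ 0) :
    f b ≤ f a := by
  have := mono_of_hasDeriv (f := fun t => - f t) (f' := fun t => - f' t) hab
    (fun t ht => (h t ht).fun_neg) (fun t ht => by linarith [h0 t ht])
  linarith

theorem hasDerivAt_zt_x {E x : ℝ} (hE : 0 < E) (hx : 0 < x) : HasDerivAt (fun x => zt E x)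
    ((x * (cosh E + x) - (1 + cosh E * x) * log (RR E x)) / (2 * x ^ 3 * sinh E ^ 2)) x := by
  have hS : 0 < sinh E := sinh_pos_iff.2 hE
  have hR := RR_pos (E := E) hx
  unfold zt
  have h1 := hasDerivAt_RR_x E x
  have h2 := h1.log hR.ne'
  have h3 : HasDerivAt (fun x : ℝ => 4 * x ^ 2 * sinh E ^ 2) (8 * x * sinh E ^ 2) x := by
    refine HasDerivAt.congr_deriv (((hasDerivAt_pow 2 x).const_mul 4).mul_const (sinh E ^ 2)) ?_
    push_cast; ring
  refine HasDerivAt.congr_deriv ((h1.fun_mul h2).fun_div h3 (by positivity)) ?_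
  have e : RR E x = 1 + 2 * cosh E * x + x ^ 2 := rfl
  field_simp
  rw [e]
  ring

theorem zt_anti_x {E x x' : ℝ} (hE : 0 < E) (hx : 0 < x) (hxx : x ≤ x') (hx1 : x' ≤ 1) :
    zt E x' ≤ zt E x := by
  have hS : 0 < sinh E := sinh_pos_iff.2 hE
  refine anti_of_hasDeriv (f := fun x => zt E x) hxx
    (fun t ht => hasDerivAt_zt_x hE (hx.trans_le ht.1)) ?_
  intro t ht
  have ht0 : 0 < t := hx.trans_le ht.1
  have ht1 : t ≤ 1 := ht.2.trans hx1
  apply div_nonpos_of_nonpos_of_nonneg _ (by positivity)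
  have hC : 1 ≤ cosh E := one_le_cosh E
  have hl := log_lower (RR_gt_one (E := E) ht0).le
  have e : RR E t = 1 + 2 * cosh E * t + t ^ 2 := rfl
  have h1 : t * (cosh E + t) ≤ (1 + cosh E * t) * (2 * (RR E t - 1) / (RR E t + 1)) := by
    rw [mul_div_assoc', le_div_iff₀ (by linarith [RR_pos (E := E) ht0]), e]
    generalize cosh E = C at *
    have : 0 ≤ t * (2 * C + 2 * C ^ 2 * t - C * t ^ 2 - t ^ 3) := by
      apply mul_nonneg ht0.le
      have a1 : C * t ^ 2 ≤ C * 1 := by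
        gcongr; nlinarith
      have a2 : t ^ 3 ≤ 1 := by
        have : t ^ 3 = t * t ^ 2 := by ring
        nlinarith [pow_le_one₀ ht0.le ht1 (n := 3)]
      have a3 : 0 ≤ 2 * C ^ 2 * t := by positivity
      nlinarith
    nlinarith
  have h2 : (1 + cosh E * t) * (2 * (RR E t - 1) / (RR E t + 1)) ≤
      (1 + cosh E * t) * log (RR E t) := by gcongr
  linarith

theorem hasDerivAt_zt_E {E x : ℝ} (hE : 0 < E) (hx : 0 < x) : HasDerivAt (fun E => zt E x)
    ((x * sinh E ^ 2 - (cosh E + x) * (1 + cosh E * x) * log (RR E x)) /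
      (2 * x ^ 2 * sinh E ^ 3)) E := by
  have hS : 0 < sinh E := sinh_pos_iff.2 hE
  have hR := RR_pos (E := E) hx
  unfold zt
  have h1 := hasDerivAt_RR_E E x
  have h2 := h1.log hR.ne'
  have h3 : HasDerivAt (fun E : ℝ => 4 * x ^ 2 * sinh E ^ 2) (8 * x ^ 2 * sinh E * cosh E) E := by
    refine HasDerivAt.congr_deriv (((hasDerivAt_sinh E).fun_pow 2).const_mul (4 * x ^ 2)) ?_
    simp; ring
  refine HasDerivAt.congr_deriv ((h1.fun_mul h2).fun_div h3 (by positivity)) ?_
  have e : RR E x = 1 + 2 * cosh E * x + x ^ 2 := rfl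
  have hS2 : sinh E ^ 2 = cosh E ^ 2 - 1 := sinh_sq E
  have e2 : (cosh E + x) * (1 + cosh E * x) * log (RR E x) =
      (RR E x * cosh E - x * sinh E ^ 2) * log (RR E x) := by
    rw [hS2, e]; ring
  rw [e2]
  field_simp
  ring

theorem zt_anti_E {E E' x : ℝ} (hE : 0 < E) (hEE : E ≤ E') (hx : 0 < x) :
    zt E' x ≤ zt E x := by
  refine anti_of_hasDeriv (f := fun E => zt E x) hEE
    (fun t ht => hasDerivAt_zt_E (hE.trans_le ht.1) hx) ?_
  intro t ht
  have ht0 : 0 < t := hE.trans_le ht.1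
  have hS : 0 < sinh t := sinh_pos_iff.2 ht0
  apply div_nonpos_of_nonpos_of_nonneg _ (by positivity)
  have hC : 1 ≤ cosh t := one_le_cosh t
  have hl := log_lower (RR_gt_one (E := t) hx).le
  have e : RR t x = 1 + 2 * cosh t * x + x ^ 2 := rfl
  have hS2 : sinh t ^ 2 = cosh t ^ 2 - 1 := sinh_sq t
  have h1 : x * sinh t ^ 2 ≤ (cosh t + x) * (1 + cosh t * x) *
      (2 * (RR t x - 1) / (RR t x + 1)) := by
    rw [mul_div_assoc', le_div_iff₀ (by linarith [RR_pos (E := t) hx]), e, hS2]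
    generalize cosh t = C at *
    have hk : (C ^ 2 - 1) * (2 + 2 * C * x + x ^ 2) ≤
        (C + x) * (1 + C * x) * (2 * (2 * C + x)) := by
      have b1 : (C ^ 2 - 1) * (2 + 2 * C * x + x ^ 2) ≤ C ^ 2 * (2 + 2 * C * x + x ^ 2) := by
        have : 0 ≤ 2 + 2 * C * x + x ^ 2 := by positivity
        nlinarith
      have b2 : C ^ 2 * (2 + 2 * C * x + x ^ 2) ≤ (C + x) * (1 + C * x) * (2 * (2 * C + x)) := by
        have c1 : 0 ≤ C ^ 2 * x := by positivity
        have c2 : 0 ≤ C * x := by positivity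
        have c3 : 0 ≤ C * x ^ 3 := by positivity
        have c4 : 0 ≤ C ^ 3 * x := by positivity
        have c5 : 0 ≤ C ^ 2 * x ^ 2 := by positivity
        nlinarith [sq_nonneg C, sq_nonneg x]
      linarith
    have := mul_le_mul_of_nonneg_left hk hx.le
    nlinarith
  have h2 : (cosh t + x) * (1 + cosh t * x) * (2 * (RR t x - 1) / (RR t x + 1)) ≤
      (cosh t + x) * (1 + cosh t * x) * log (RR t x) := by gcongr
  linarith

theorem zt_le {E E' x x' : ℝ} (hE : 0 < E) (hEE : E ≤ E') (hx : 0 < x) (hxx : x ≤ x')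
    (hx1 : x' ≤ 1) : zt E' x' ≤ zt E x :=
  (zt_anti_x (hE.trans_le hEE) hx hxx hx1).trans (zt_anti_E hE hEE hx)

theorem hasDerivAt_sg_x {E x : ℝ} (hx : 0 < x) : HasDerivAt (fun x => sg E x)
    ((x * (cosh E + 2 * x + cosh E * x ^ 2) / RR E x - log (RR E x)) / (2 * x ^ 3)) x := by
  have hR := RR_pos (E := E) hx
  unfold sg
  have h1 := hasDerivAt_RR_x E x
  have h2 := h1.log hR.ne'
  have h3 : HasDerivAt (fun x : ℝ => (1 / x ^ 2 - 1) / 4) (-(1 / (2 * x ^ 3))) x := by
    have := ((hasDerivAt_const x (1 : ℝ)).fun_div (hasDerivAt_pow 2 x) (by positivity))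
    refine HasDerivAt.congr_deriv ((this.sub_const 1).div_const 4) ?_
    field_simp
    ring
  refine HasDerivAt.congr_deriv ((h3.fun_mul h2).fun_add ((hasDerivAt_log hx.ne').div_const 2)) ?_
  have e : RR E x = 1 + 2 * cosh E * x + x ^ 2 := rfl
  field_simp
  rw [e]
  ring

theorem sg_anti_x {E x x' : ℝ} (hx : 0 < x) (hxx : x ≤ x') (hx1 : x' ≤ 1) :
    sg E x' ≤ sg E x := by
  refine anti_of_hasDeriv (f := fun x => sg E x) hxx
    (fun t ht => hasDerivAt_sg_x (hx.trans_le ht.1)) ?_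
  intro t ht
  have ht0 : 0 < t := hx.trans_le ht.1
  have ht1 : t ≤ 1 := ht.2.trans hx1
  apply div_nonpos_of_nonpos_of_nonneg _ (by positivity)
  have hC : 1 ≤ cosh E := one_le_cosh E
  have hR := RR_pos (E := E) ht0
  have hl := log_lower (RR_gt_one (E := E) ht0).le
  have e : RR E t = 1 + 2 * cosh E * t + t ^ 2 := rfl
  have h1 : t * (cosh E + 2 * t + cosh E * t ^ 2) / RR E t ≤
      2 * (RR E t - 1) / (RR E t + 1) := by
    rw [div_le_div_iff₀ hR (by linarith), e]
    generalize cosh E = C at *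
    have t2 : t ^ 2 ≤ 1 := pow_le_one₀ ht0.le ht1
    have t4 : t ^ 4 ≤ 1 := pow_le_one₀ ht0.le ht1
    have hk : 0 ≤ 2 * C + (6 * C ^ 2 - 2) * t + C * t ^ 2 - 2 * C ^ 2 * t ^ 3 - C * t ^ 4 := by
      have a1 : 2 * C ^ 2 * t ^ 3 ≤ 2 * C ^ 2 * t := by
        have : t ^ 3 = t * t ^ 2 := by ring
        have : t ^ 3 ≤ t := by rw [this]; nlinarith
        gcongr
      have a2 : C * t ^ 4 ≤ C * 1 := by gcongr
      have a3 : 0 ≤ (4 * C ^ 2 - 2) * t := by
        apply mul_nonneg _ ht0.le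
        nlinarith
      have a4 : 0 ≤ C * t ^ 2 := by positivity
      nlinarith
    have := mul_nonneg ht0.le hk
    nlinarith
  linarith

theorem sg_mono_E {E E' x : ℝ} (hE : 0 ≤ E) (hEE : E ≤ E') (hx : 0 < x) (hx1 : x ≤ 1) :
    sg E x ≤ sg E' x := by
  unfold sg
  have h1 : log (RR E x) ≤ log (RR E' x) := log_le_log (RR_pos hx) (RR_mono hx hE hEE)
  have h2 : 0 ≤ (1 / x ^ 2 - 1) / 4 := by
    have : 1 ≤ 1 / x ^ 2 := by
      rw [le_div_iff₀ (by positivity), one_mul]
      exact pow_le_one₀ hx.le hx1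
    linarith
  gcongr

theorem sg_le {E E' x x' : ℝ} (hE : 0 ≤ E) (hEE : E ≤ E') (hx : 0 < x) (hxx : x ≤ x')
    (hx1 : x' ≤ 1) : sg E x' ≤ sg E' x :=
  (sg_anti_x hx hxx hx1).trans (sg_mono_E hE hEE hx (hxx.trans hx1))

theorem sg_nonneg {E x : ℝ} (hx : 0 < x) (hx1 : x ≤ 1) : 0 ≤ sg E x := by
  have := sg_anti_x (E := E) hx hx1 le_rfl
  rwa [sg_one] at this


theorem sg_nonpos {E x : ℝ} (hx1 : 1 ≤ x) : sg E x ≤ 0 := by
  have hx : 0 < x := by linarith
  have hC : 1 ≤ cosh E := one_le_cosh E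
  have h1 : 2 * log (1 + x) ≤ log (RR E x) := by
    have : 2 * log (1 + x) = log ((1 + x) ^ 2) := by
      rw [log_pow]; norm_num
    rw [this]
    apply log_le_log (by positivity)
    unfold RR
    nlinarith
  have h2 : log (1 + x) = log x + log (1 + 1 / x) := by
    rw [← log_mul hx.ne' (by positivity)]
    congr 1
    field_simp
    ring
  have h3 : (1 / x) / (1 + 1 / x) ≤ log (1 + 1 / x) := by
    have := one_sub_inv_le_log_of_pos (x := 1 + 1 / x) (by positivity)
    refine le_trans (le_of_eq ?_) this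
    field_simp
    ring
  have h4 : log x ≤ x - 1 := log_le_sub_one_of_pos hx
  have h0 : 0 ≤ 1 - 1 / x ^ 2 := by
    have : 1 / x ^ 2 ≤ 1 := by
      rw [div_le_one (by positivity)]
      exact one_le_pow₀ hx1
    linarith
  have h5 : (1 - 1 / x ^ 2) * (2 * log (1 + x)) ≤ (1 - 1 / x ^ 2) * log (RR E x) := by gcongr
  have h6 : log x ≤ (1 - 1 / x ^ 2) * log (1 + x) := by
    rw [h2]
    have a1 : (1 - 1 / x ^ 2) * ((1 / x) / (1 + 1 / x)) ≤ (1 - 1 / x ^ 2) * log (1 + 1 / x) := by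
      gcongr
    have a2 : (1 - 1 / x ^ 2) * ((1 / x) / (1 + 1 / x)) = (x - 1) / x ^ 2 := by
      field_simp
      ring
    have a3 : 1 / x ^ 2 * log x ≤ 1 / x ^ 2 * (x - 1) := by gcongr
    have a4 : 1 / x ^ 2 * (x - 1) = (x - 1) / x ^ 2 := by ring
    nlinarith
  unfold sg
  linarith

theorem hasDerivAt_Tf_x {E x ζ σ : ℝ} (hE : 0 < E) (hx : 0 < x) :
    HasDerivAt (fun x => Tf ζ σ E x) (-(sg E x - σ) / sinh E) x := by
  have hS : 0 < sinh E := sinh_pos_iff.2 hE
  have hR := RR_pos (E := E) hx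
  unfold Tf w1
  have h1 := hasDerivAt_RR_x E x
  have h2 := h1.log hR.ne'
  have h3 : HasDerivAt (fun x : ℝ => 4 * x * sinh E) (4 * sinh E) x := by
    refine HasDerivAt.congr_deriv (((hasDerivAt_id' x).const_mul 4).mul_const (sinh E)) ?_
    ring
  have h4 : HasDerivAt (fun x : ℝ => (cosh E + x) / (2 * sinh E)) (1 / (2 * sinh E)) x :=
    ((hasDerivAt_id' x).const_add (cosh E)).div_const (2 * sinh E)
  have h5 : HasDerivAt (fun x : ℝ => σ * ((cosh E + x) / sinh E)) (σ * (1 / sinh E)) x :=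
    (((hasDerivAt_id' x).const_add (cosh E)).div_const (sinh E)).const_mul σ
  refine HasDerivAt.congr_deriv ((((((h1.fun_mul h2).fun_div h3 (by positivity)).fun_sub
    (h4.fun_mul (hasDerivAt_log hx.ne'))).sub_const (E / 2)).add_const (ζ * E)).fun_add h5) ?_
  have e : RR E x = 1 + 2 * cosh E * x + x ^ 2 := rfl
  unfold sg
  field_simp
  rw [e]
  ring

theorem hasDerivAt_Tf_E {E x ζ σ : ℝ} (hE : 0 < E) (hx : 0 < x) :
    HasDerivAt (fun E => Tf ζ σ E x)
      ((ζ - zt E x) + (sg E x - σ) * ((1 + cosh E * x) / sinh E ^ 2)) E := by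
  have hS : 0 < sinh E := sinh_pos_iff.2 hE
  have hR := RR_pos (E := E) hx
  unfold Tf w1
  have h1 := hasDerivAt_RR_E E x
  have h2 := h1.log hR.ne'
  have h3 : HasDerivAt (fun E : ℝ => 4 * x * sinh E) (4 * x * cosh E) E :=
    (hasDerivAt_sinh E).const_mul (4 * x)
  have h4 : HasDerivAt (fun E : ℝ => (cosh E + x) / (2 * sinh E) * log x)
      (((sinh E * (2 * sinh E) - (cosh E + x) * (2 * cosh E)) / (2 * sinh E) ^ 2) * log x) E :=
    (((hasDerivAt_cosh E).add_const x).fun_div ((hasDerivAt_sinh E).const_mul 2)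
      (by positivity)).mul_const (log x)
  have h5 : HasDerivAt (fun E : ℝ => σ * ((cosh E + x) / sinh E))
      (σ * ((sinh E * sinh E - (cosh E + x) * cosh E) / sinh E ^ 2)) E :=
    (((hasDerivAt_cosh E).add_const x).fun_div (hasDerivAt_sinh E) (by positivity)).const_mul σ
  refine HasDerivAt.congr_deriv ((((((h1.fun_mul h2).fun_div h3 (by positivity)).fun_sub
    h4).fun_sub ((hasDerivAt_id' E).div_const 2)).fun_add ((hasDerivAt_id' E).const_mul ζ)).fun_add
    h5) ?_
  have e : RR E x = 1 + 2 * cosh E * x + x ^ 2 := rfl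
  have hS2 : sinh E ^ 2 = cosh E ^ 2 - 1 := sinh_sq E
  have hz : (sinh E ^ 2 - (cosh E ^ 2 - 1)) / sinh E ^ 2 *
      (log (RR E x) / 2 - log x / 2 + σ) = 0 := by
    rw [hS2]; simp
  rw [← add_zero (ζ - zt E x + (sg E x - σ) * ((1 + cosh E * x) / sinh E ^ 2)), ← hz]
  unfold zt sg
  field_simp
  rw [e]
  ring

/-- along the curves `q = (C+x)/S` constant -/
theorem hasDerivAt_Tf_q {E q ζ σ : ℝ} (hE : 0 < E) (hx : 0 < q * sinh E - cosh E) :
    HasDerivAt (fun E => Tf ζ σ E (q * sinh E - cosh E)) (ζ - zt E (q * sinh E - cosh E)) E := by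
  have hS : 0 < sinh E := sinh_pos_iff.2 hE
  set x := q * sinh E - cosh E with hxdef
  have hR := RR_pos (E := E) hx
  have h0 : HasDerivAt (fun E : ℝ => q * sinh E - cosh E) (q * cosh E - sinh E) E :=
    ((hasDerivAt_sinh E).const_mul q).fun_sub (hasDerivAt_cosh E)
  have h1 : HasDerivAt (fun E : ℝ => RR E (q * sinh E - cosh E))
      (2 * sinh E * x + 2 * cosh E * (q * cosh E - sinh E) + 2 * x * (q * cosh E - sinh E)) E := by
    unfold RR
    refine HasDerivAt.congr_deriv (((((hasDerivAt_cosh E).const_mul 2).fun_mul h0).const_add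
      1).fun_add (h0.fun_pow 2)) ?_
    push_cast
    rw [← hxdef]
    ring
  have h2 := h1.log hR.ne'
  have h3 : HasDerivAt (fun E : ℝ => 4 * (q * sinh E - cosh E) * sinh E)
      (4 * (q * cosh E - sinh E) * sinh E + 4 * x * cosh E) E :=
    (h0.const_mul 4).fun_mul (hasDerivAt_sinh E)
  have h4 : HasDerivAt (fun E : ℝ => (cosh E + (q * sinh E - cosh E)) / (2 * sinh E) *
      log (q * sinh E - cosh E)) (q / 2 * ((q * cosh E - sinh E) / x)) E := by
    have h41 := (h0.log hx.ne').const_mul (q / 2)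
    refine h41.congr_of_eventuallyEq ?_
    have : ∀ᶠ t in nhds E, 0 < t := lt_mem_nhds hE
    filter_upwards [this] with t ht
    have hSt : 0 < sinh t := sinh_pos_iff.2 ht
    field_simp
    ring
  have h5 : HasDerivAt (fun E : ℝ => σ * ((cosh E + (q * sinh E - cosh E)) / sinh E)) 0 E := by
    have h51 := hasDerivAt_const E (σ * q)
    refine h51.congr_of_eventuallyEq ?_
    have : ∀ᶠ t in nhds E, 0 < t := lt_mem_nhds hE
    filter_upwards [this] with t ht
    have hSt : 0 < sinh t := sinh_pos_iff.2 ht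
    field_simp
    ring
  unfold Tf w1
  refine HasDerivAt.congr_deriv ((((((h1.fun_mul h2).fun_div h3 (by positivity)).fun_sub
    h4).fun_sub ((hasDerivAt_id' E).div_const 2)).fun_add ((hasDerivAt_id' E).const_mul ζ)).fun_add
    h5) ?_
  have e : RR E x = 1 + 2 * cosh E * x + x ^ 2 := rfl
  have hS2 : sinh E ^ 2 = cosh E ^ 2 - 1 := sinh_sq E
  have hq : q = (cosh E + x) / sinh E := by
    rw [hxdef]; field_simp; ring
  have hp : q * cosh E - sinh E = (1 + cosh E * x) / sinh E := by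
    rw [eq_div_iff hS.ne', hq]
    field_simp
    linear_combination -hS2
  rw [← hxdef, hp, add_zero]
  have hz : (sinh E ^ 2 - (cosh E ^ 2 - 1)) / (2 * sinh E ^ 2) * log (RR E x) = 0 := by
    rw [hS2]; simp
  rw [← add_zero (ζ - zt E x), ← hz]
  unfold zt
  have hq2 : q / 2 * ((1 + cosh E * x) / sinh E / x) =
      (cosh E + x) * (1 + cosh E * x) / (2 * x * sinh E ^ 2) := by
    rw [hq]; field_simp
  rw [hq2]
  clear_value x
  field_simp
  rw [e]
  ring


/-- legs -/
theorem leg_x_up {E x x' ζ σ : ℝ} (hE : 0 < E) (hx : 0 < x) (hxx : x ≤ x')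
    (h : ∀ t, x ≤ t → t ≤ x' → sg E t ≤ σ) : Tf ζ σ E x ≤ Tf ζ σ E x' := by
  refine mono_of_hasDeriv (f := fun x => Tf ζ σ E x) hxx
    (fun t ht => hasDerivAt_Tf_x hE (hx.trans_le ht.1)) ?_
  intro t ht
  have hS : 0 < sinh E := sinh_pos_iff.2 hE
  apply div_nonneg _ hS.le
  linarith [h t ht.1 ht.2]

theorem leg_x_down {E x x' ζ σ : ℝ} (hE : 0 < E) (hx : 0 < x) (hxx : x ≤ x')
    (h : ∀ t, x ≤ t → t ≤ x' → σ ≤ sg E t) : Tf ζ σ E x' ≤ Tf ζ σ E x := by
  refine anti_of_hasDeriv (f := fun x => Tf ζ σ E x) hxx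
    (fun t ht => hasDerivAt_Tf_x hE (hx.trans_le ht.1)) ?_
  intro t ht
  have hS : 0 < sinh E := sinh_pos_iff.2 hE
  apply div_nonpos_of_nonpos_of_nonneg _ hS.le
  linarith [h t ht.1 ht.2]

theorem leg_E_up {E E' x ζ σ : ℝ} (hE : 0 < E) (hEE : E ≤ E') (hx : 0 < x)
    (h : ∀ t, E ≤ t → t ≤ E' → zt t x ≤ ζ ∧ σ ≤ sg t x) : Tf ζ σ E x ≤ Tf ζ σ E' x := by
  refine mono_of_hasDeriv (f := fun E => Tf ζ σ E x) hEE
    (fun t ht => hasDerivAt_Tf_E (hE.trans_le ht.1) hx) ?_
  intro t ht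
  have ht0 : 0 < t := hE.trans_le ht.1
  have hS : 0 < sinh t := sinh_pos_iff.2 ht0
  have hC := cosh_pos t
  obtain ⟨h1, h2⟩ := h t ht.1 ht.2
  have h3 : 0 ≤ (sg t x - σ) * ((1 + cosh t * x) / sinh t ^ 2) :=
    mul_nonneg (by linarith) (by positivity)
  linarith

theorem leg_E_down {E E' x ζ σ : ℝ} (hE : 0 < E) (hEE : E ≤ E') (hx : 0 < x)
    (h : ∀ t, E ≤ t → t ≤ E' → ζ ≤ zt t x ∧ sg t x ≤ σ) : Tf ζ σ E' x ≤ Tf ζ σ E x := by
  refine anti_of_hasDeriv (f := fun E => Tf ζ σ E x) hEE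
    (fun t ht => hasDerivAt_Tf_E (hE.trans_le ht.1) hx) ?_
  intro t ht
  have ht0 : 0 < t := hE.trans_le ht.1
  have hS : 0 < sinh t := sinh_pos_iff.2 ht0
  have hC := cosh_pos t
  obtain ⟨h1, h2⟩ := h t ht.1 ht.2
  have h3 : (sg t x - σ) * ((1 + cosh t * x) / sinh t ^ 2) ≤ 0 :=
    mul_nonpos_of_nonpos_of_nonneg (by linarith) (by positivity)
  linarith

/-- `x` increases along the curve `q = const` -/
theorem xq_mono {q E E' : ℝ} (hE : 0 < E) (hEE : E ≤ E') (hx : 0 < q * sinh E - cosh E) :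
    q * sinh E - cosh E ≤ q * sinh E' - cosh E' := by
  have hq : 1 < q := by
    by_contra hc
    push Not at hc
    have h1 : sinh E < cosh E := sinh_lt_cosh E
    have hS : 0 < sinh E := sinh_pos_iff.2 hE
    nlinarith
  -- derivative `q cosh - sinh > 0`
  refine mono_of_hasDeriv (f := fun E => q * sinh E - cosh E)
    (f' := fun E => q * cosh E - sinh E) hEE
    (fun t _ => ((hasDerivAt_sinh t).const_mul q).fun_sub (hasDerivAt_cosh t)) ?_
  intro t _
  have h1 : sinh t < cosh t := sinh_lt_cosh t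
  have h2 : 0 < cosh t := cosh_pos t
  nlinarith

theorem leg_q_up {E E' q ζ σ : ℝ} (hE : 0 < E) (hEE : E ≤ E') (hx : 0 < q * sinh E - cosh E)
    (h : ∀ t, E ≤ t → t ≤ E' → zt t (q * sinh t - cosh t) ≤ ζ) :
    Tf ζ σ E (q * sinh E - cosh E) ≤ Tf ζ σ E' (q * sinh E' - cosh E') := by
  refine mono_of_hasDeriv (f := fun E => Tf ζ σ E (q * sinh E - cosh E)) hEE
    (fun t ht => hasDerivAt_Tf_q (hE.trans_le ht.1) (hx.trans_le (xq_mono hE ht.1 hx))) ?_
  intro t ht
  linarith [h t ht.1 ht.2]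

theorem leg_q_down {E E' q ζ σ : ℝ} (hE : 0 < E) (hEE : E ≤ E') (hx : 0 < q * sinh E - cosh E)
    (h : ∀ t, E ≤ t → t ≤ E' → ζ ≤ zt t (q * sinh t - cosh t)) :
    Tf ζ σ E' (q * sinh E' - cosh E') ≤ Tf ζ σ E (q * sinh E - cosh E) := by
  refine anti_of_hasDeriv (f := fun E => Tf ζ σ E (q * sinh E - cosh E)) hEE
    (fun t ht => hasDerivAt_Tf_q (hE.trans_le ht.1) (hx.trans_le (xq_mono hE ht.1 hx))) ?_
  intro t ht
  linarith [h t ht.1 ht.2]

/-- the main inequality -/
theorem Tf_min {E0 x0 E x : ℝ} (hE0 : 0 < E0) (hx0 : 0 < x0) (hx01 : x0 ≤ 1) (hE : 0 < E)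
    (hx : 0 < x) : Tf (zt E0 x0) (sg E0 x0) E0 x0 ≤ Tf (zt E0 x0) (sg E0 x0) E x := by
  -- reduce to `x ≤ 1`
  wlog hx1 : x ≤ 1 generalizing x
  · push Not at hx1
    refine (this one_pos le_rfl).trans (leg_x_up hE one_pos hx1.le ?_)
    intro t ht _
    exact (sg_nonpos ht).trans (sg_nonneg hx0 hx01)
  have hS : 0 < sinh E := sinh_pos_iff.2 hE
  obtain ⟨q, hq⟩ : ∃ q, q = (cosh E + x) / sinh E := ⟨_, rfl⟩
  have hXE : q * sinh E - cosh E = x := by rw [hq]; field_simp; ring
  have hXc : Continuous (fun t : ℝ => q * sinh t - cosh t) := by fun_prop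
  set ζ := zt E0 x0 with hζ
  set σ := sg E0 x0 with hσ
  rcases le_total E0 E with hEE | hEE
  · rcases le_total x x0 with hxx | hxx
    · refine (leg_E_up hE0 hEE hx0 fun t ht _ => ⟨zt_le hE0 ht hx0 le_rfl hx01,
        sg_le hE0.le ht hx0 le_rfl hx01⟩).trans ?_
      refine leg_x_down hE hx hxx fun t ht1 ht2 => ?_
      exact sg_le hE0.le hEE (hx.trans_le ht1) ht2 hx01
    · -- `x ≥ x0`
      rcases le_total x0 (q * sinh E0 - cosh E0) with h1 | h1
      · have hx1pos : 0 < q * sinh E0 - cosh E0 := hx0.trans_le h1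
        have hx1x : q * sinh E0 - cosh E0 ≤ x := by
          have := xq_mono hE0 hEE hx1pos
          rwa [hXE] at this
        refine (leg_x_up hE0 hx0 h1 fun t ht1 ht2 =>
          sg_le hE0.le le_rfl hx0 ht1 (ht2.trans (hx1x.trans hx1))).trans ?_
        have := leg_q_up (ζ := ζ) (σ := σ) hE0 hEE hx1pos (fun t ht1 ht2 => by
          refine zt_le hE0 ht1 hx0 (h1.trans (xq_mono hE0 ht1 hx1pos)) ?_
          have h5 := xq_mono (hE0.trans_le ht1) ht2 (hx1pos.trans_le (xq_mono hE0 ht1 hx1pos))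
          rw [hXE] at h5
          exact h5.trans hx1)
        rwa [hXE] at this
      · have hivt := intermediate_value_Icc hEE hXc.continuousOn
        obtain ⟨E2, ⟨hE21, hE22⟩, hE23⟩ := hivt ⟨h1, by simp only [hXE]; exact hxx⟩
        simp only at hE23
        have hE2 : 0 < E2 := hE0.trans_le hE21
        refine (leg_E_up hE0 hE21 hx0 fun t ht _ => ⟨zt_le hE0 ht hx0 le_rfl hx01,
          sg_le hE0.le ht hx0 le_rfl hx01⟩).trans ?_
        have hpos : 0 < q * sinh E2 - cosh E2 := by rw [hE23]; exact hx0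
        have := leg_q_up (ζ := ζ) (σ := σ) hE2 hE22 hpos (fun t ht1 ht2 => by
          have h4 := xq_mono hE2 ht1 hpos
          refine zt_le hE0 (hE21.trans ht1) hx0 (by rwa [hE23] at h4) ?_
          have h5 := xq_mono (hE2.trans_le ht1) ht2 (hpos.trans_le h4)
          rw [hXE] at h5
          exact h5.trans hx1)
        rwa [hXE, hE23] at this
  · rcases le_total x0 x with hxx | hxx
    · refine (leg_E_down hE hEE hx0 fun t ht1 ht2 => ⟨zt_le (hE.trans_le ht1) ht2 hx0 le_rfl hx01,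
        sg_le (hE.trans_le ht1).le ht2 hx0 le_rfl hx01⟩).trans ?_
      refine leg_x_up hE hx0 hxx fun t ht1 ht2 => ?_
      exact sg_le hE.le hEE hx0 ht1 (ht2.trans hx1)
    · have hposE : 0 < q * sinh E - cosh E := by rw [hXE]; exact hx
      have hx1x : x ≤ q * sinh E0 - cosh E0 := by
        have := xq_mono hE hEE hposE
        rwa [hXE] at this
      rcases le_total (q * sinh E0 - cosh E0) x0 with h1 | h1
      · refine (leg_x_down hE0 (hx.trans_le hx1x) h1 fun t ht1 ht2 =>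
          sg_le hE0.le le_rfl (hx.trans_le (hx1x.trans ht1)) ht2 hx01).trans ?_
        have := leg_q_down (ζ := ζ) (σ := σ) hE hEE hposE (fun t ht1 ht2 => by
          have h4 := xq_mono hE ht1 hposE
          have h5 := xq_mono (hE.trans_le ht1) ht2 (hposE.trans_le h4)
          exact zt_le (hE.trans_le ht1) ht2 (hposE.trans_le h4) (h5.trans h1) hx01)
        rwa [hXE] at this
      · have hivt := intermediate_value_Icc hEE hXc.continuousOn
        obtain ⟨E2, ⟨hE21, hE22⟩, hE23⟩ := hivt ⟨by simp only [hXE]; exact hxx, h1⟩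
        simp only at hE23
        have hE2 : 0 < E2 := hE.trans_le hE21
        refine (leg_E_down hE2 hE22 hx0 fun t ht1 ht2 =>
          ⟨zt_le (hE2.trans_le ht1) ht2 hx0 le_rfl hx01,
          sg_le (hE2.trans_le ht1).le ht2 hx0 le_rfl hx01⟩).trans ?_
        have := leg_q_down (ζ := ζ) (σ := σ) hE hE21 hposE (fun t ht1 ht2 => by
          have h4 := xq_mono hE ht1 hposE
          have h5 := xq_mono (hE.trans_le ht1) ht2 (hposE.trans_le h4)
          rw [hE23] at h5
          exact zt_le (hE.trans_le ht1) (ht2.trans hE22) (hposE.trans_le h4) h5 hx01)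
        rwa [hXE, hE23] at this

theorem WW_div {E D : ℝ} (hE : 0 < E) : WW E D / sinh E = w1 E (exp (-D)) := by
  have hS : 0 < sinh E := sinh_pos_iff.2 hE
  have hx : 0 < exp (-D) := exp_pos _
  have hR := RR_pos (E := E) hx
  have e : RR E (exp (-D)) = 1 + 2 * cosh E * exp (-D) + exp (-D) ^ 2 := rfl
  have hD : exp D = 1 / exp (-D) := by rw [exp_neg]; field_simp
  have h2P : 2 * (cosh E + cosh D) = RR E (exp (-D)) / exp (-D) := by
    rw [e, cosh_eq D, hD]
    field_simp
    ring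
  have hlog : log (2 * (cosh E + cosh D)) = log (RR E (exp (-D))) + D := by
    rw [h2P, log_div hR.ne' hx.ne', log_exp]
    ring
  have hP : cosh E + cosh D = RR E (exp (-D)) / exp (-D) / 2 := by
    rw [← h2P]; ring
  have hsD : sinh D = (1 / exp (-D) - exp (-D)) / 2 := by rw [sinh_eq D, hD]
  unfold WW w1
  rw [hlog, log_exp, hP, hsD]
  generalize exp (-D) = x at *
  field_simp
  rw [e]
  ring

/-- basic facts about `ath` -/
theorem ath_facts {x : ℝ} (hx : |x| < 1) : 0 < cosh (ath x) ∧ sinh (ath x) = x * cosh (ath x) ∧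
    2 * log (cosh (ath x)) = -(log (1 + x) + log (1 - x)) := by
  have hx2 := abs_lt.1 hx
  have h1 : 0 < 1 + x := by linarith
  have h2 : 0 < 1 - x := by linarith
  have hmem : x ∈ Set.Ioo (-1 : ℝ) 1 := ⟨hx2.1, hx2.2⟩
  have ha : ath x = artanh x := by
    rw [artanh_eq_half_log ⟨hx2.1.le, hx2.2.le⟩, log_div h1.ne' h2.ne', ath]
    ring
  have hc : 0 < cosh (ath x) := cosh_pos _
  have hs : sinh (ath x) = x * cosh (ath x) := by
    have := tanh_artanh hmem
    rw [tanh_eq_sinh_div_cosh, ← ha, div_eq_iff hc.ne'] at this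
    exact this
  refine ⟨hc, hs, ?_⟩
  have h3 : cosh (ath x) ^ 2 * ((1 + x) * (1 - x)) = 1 := by
    have := cosh_sq (ath x)
    rw [hs] at this
    linear_combination this
  have h4 := congrArg log h3
  rw [log_mul (by positivity) (by positivity), log_mul h1.ne' h2.ne', log_pow, log_one] at h4
  push_cast at h4
  linarith

/-- change of variables -/
theorem cov {x y : ℝ} (hx : |x| < 1) (hy : |y| < 1) (hxy : y < x) :
    0 < ath x - ath y ∧
    (x - y) / 2 = sinh (ath x - ath y) / (cosh (ath x - ath y) + cosh (ath x + ath y)) ∧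
    (x + y) / 2 = sinh (ath x + ath y) / (cosh (ath x - ath y) + cosh (ath x + ath y)) ∧
    (ent x + ent y) / 2 = WW (ath x - ath y) (ath x + ath y) /
      (cosh (ath x - ath y) + cosh (ath x + ath y)) := by
  obtain ⟨ca, sa, la⟩ := ath_facts hx
  obtain ⟨cb, sb, lb⟩ := ath_facts hy
  have hP : cosh (ath x - ath y) + cosh (ath x + ath y) = 2 * (cosh (ath x) * cosh (ath y)) := by
    rw [cosh_sub, cosh_add]; ring
  have hE : sinh (ath x - ath y) = (x - y) * (cosh (ath x) * cosh (ath y)) := by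
    rw [sinh_sub, sa, sb]; ring
  have hD : sinh (ath x + ath y) = (x + y) * (cosh (ath x) * cosh (ath y)) := by
    rw [sinh_add, sa, sb]; ring
  have hc : 0 < cosh (ath x) * cosh (ath y) := by positivity
  refine ⟨?_, ?_, ?_, ?_⟩
  · rw [← sinh_pos_iff, hE]
    exact mul_pos (by linarith) hc
  · rw [hP, hE]; field_simp
  · rw [hP, hD]; field_simp
  · have hl : log (2 * (2 * (cosh (ath x) * cosh (ath y)))) =
        2 * log 2 + log (cosh (ath x)) + log (cosh (ath y)) := by
      rw [log_mul (by norm_num) (by positivity), log_mul (by norm_num) (by positivity),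
        log_mul ca.ne' cb.ne']
      ring
    have hW : WW (ath x - ath y) (ath x + ath y) = (cosh (ath x) * cosh (ath y)) *
        (log (2 * (2 * (cosh (ath x) * cosh (ath y)))) -
          (ath x - ath y) * (x - y) / 2 - (ath x + ath y) * (x + y) / 2) := by
      unfold WW
      rw [hP, hE, hD]
      ring
    rw [hW, hP, hl]
    have : ∀ c A : ℝ, 0 < c → c * A / (2 * c) = A / 2 := by
      intro c A hc
      field_simp
    rw [this _ _ hc]
    have e1 : ath x = (log (1 + x) - log (1 - x)) / 2 := rfl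
    have e2 : ath y = (log (1 + y) - log (1 - y)) / 2 := rfl
    have la' : log (cosh (ath x)) = -(log (1 + x) + log (1 - x)) / 2 := by linarith
    have lb' : log (cosh (ath y)) = -(log (1 + y) + log (1 - y)) / 2 := by linarith
    rw [la', lb', e1, e2, ent, ent, phi, phi]
    ring

/-- nonnegativity of the entropy -/
theorem ent_nonneg' {x : ℝ} (hx : |x| < 1) : 0 ≤ ent x := by
  have hx2 := abs_lt.1 hx
  have h1 : 0 < 1 + x := by linarith
  have h2 : 0 < 1 - x := by linarith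
  have a1 : log (1 + x) ≤ log 2 := log_le_log h1 (by linarith)
  have a2 : log (1 - x) ≤ log 2 := log_le_log h2 (by linarith)
  unfold ent phi
  nlinarith [mul_le_mul_of_nonneg_left a1 h1.le, mul_le_mul_of_nonneg_left a2 h2.le]

theorem ath_mono {x y : ℝ} (hx : |x| < 1) (hy : |y| < 1) (hxy : x ≤ y) : ath x ≤ ath y := by
  have hx2 := abs_lt.1 hx
  have hy2 := abs_lt.1 hy
  unfold ath
  have a1 : log (1 + x) ≤ log (1 + y) := log_le_log (by linarith) (by linarith)
  have a2 : log (1 - y) ≤ log (1 - x) := log_le_log (by linarith) (by linarith)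
  linarith

end PlaneAux

open PlaneAux in
theorem plane {E0 D0 : ℝ} (hE : 0 < E0) (hD : 0 ≤ D0) :
    ∃ ζ σ : ℝ, 0 ≤ ζ ∧ 0 ≤ σ ∧ (D0 = 0 → σ = 0) ∧
      ∀ x y : ℝ, |x| < 1 → |y| < 1 →
        (x - y) / 2 * (WW E0 D0 / Real.sinh E0 + ζ * E0
            + σ * ((Real.cosh E0 + Real.exp (-D0)) / Real.sinh E0))
          ≤ (ent x + ent y) / 2 + 2 * ζ * KK x y + σ * (1 - (x + y) / 2) := by
  have hx0 : 0 < exp (-D0) := exp_pos _
  have hx01 : exp (-D0) ≤ 1 := by rw [exp_le_one_iff]; linarith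
  refine ⟨zt E0 (exp (-D0)), sg E0 (exp (-D0)), zt_nonneg hx0, sg_nonneg hx0 hx01, ?_, ?_⟩
  · rintro rfl
    simp [sg_one]
  intro x y hx hy
  have hz := zt_nonneg (E := E0) hx0
  have hs := sg_nonneg (E := E0) hx0 hx01
  set ζ := zt E0 (exp (-D0)) with hζ
  set σ := sg E0 (exp (-D0)) with hσ
  have hT0 : WW E0 D0 / Real.sinh E0 + ζ * E0
            + σ * ((Real.cosh E0 + Real.exp (-D0)) / Real.sinh E0) =
      Tf ζ σ E0 (exp (-D0)) := by
    rw [WW_div hE]; rfl
  have hmin : ∀ E x : ℝ, 0 < E → 0 < x → Tf ζ σ E0 (exp (-D0)) ≤ Tf ζ σ E x := by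
    intro E x h1 h2
    exact Tf_min hE hx0 hx01 h1 h2
  rw [hT0]
  have hx2 := abs_lt.1 hx
  have hy2 := abs_lt.1 hy
  rcases lt_or_ge y x with hxy | hxy
  · obtain ⟨h1, h2, h3, h4⟩ := cov hx hy hxy
    have hE' : 0 < sinh (ath x - ath y) := sinh_pos_iff.2 h1
    have hP : 0 < cosh (ath x - ath y) + cosh (ath x + ath y) := by
      have := cosh_pos (ath x - ath y)
      have := cosh_pos (ath x + ath y)
      linarith
    have hm := hmin (ath x - ath y) (exp (-(ath x + ath y))) h1 (exp_pos _)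
    have hK : 2 * ζ * KK x y = (x - y) / 2 * (ζ * (ath x - ath y)) := by
      unfold KK; ring
    have hW : (ent x + ent y) / 2 = (x - y) / 2 * w1 (ath x - ath y) (exp (-(ath x + ath y))) := by
      rw [h4, h2, ← WW_div h1]
      field_simp
    have hS : 1 - (x + y) / 2 = (x - y) / 2 *
        ((cosh (ath x - ath y) + exp (-(ath x + ath y))) / sinh (ath x - ath y)) := by
      rw [h3, h2]
      have : exp (-(ath x + ath y)) = cosh (ath x + ath y) - sinh (ath x + ath y) := by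
        rw [cosh_sub_sinh]
      rw [this]
      field_simp
      ring
    rw [hK, hW, hS]
    have hd : 0 ≤ (x - y) / 2 := by linarith
    have := mul_le_mul_of_nonneg_left hm hd
    refine this.trans (le_of_eq ?_)
    unfold Tf
    ring
  · -- trivial case
    have e1 := ent_nonneg' hx
    have e2 := ent_nonneg' hy
    have hK : 0 ≤ KK x y := by
      unfold KK
      have := ath_mono hx hy hxy
      nlinarith
    -- the value of `Tf` is nonnegative: it is so at a point
    have hT : 0 ≤ Tf ζ σ E0 (exp (-D0)) := by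
      rw [← hT0]
      have hSE : 0 < sinh E0 := sinh_pos_iff.2 hE
      have hW : 0 ≤ WW E0 D0 := by
        have ht1 : |tanh ((E0 + D0) / 2)| < 1 := abs_lt.2 ⟨neg_one_lt_tanh _, tanh_lt_one _⟩
        have ht2 : |tanh ((D0 - E0) / 2)| < 1 := abs_lt.2 ⟨neg_one_lt_tanh _, tanh_lt_one _⟩
        have hat : ∀ z : ℝ, ath (tanh z) = z := by
          intro z
          have l1 : 0 < 1 + tanh z := by linarith [neg_one_lt_tanh z]
          have l2 : 0 < 1 - tanh z := by linarith [tanh_lt_one z]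
          have : ath (tanh z) = artanh (tanh z) := by
            rw [artanh_eq_half_log ⟨(neg_one_lt_tanh z).le, (tanh_lt_one z).le⟩,
              log_div l1.ne' l2.ne', ath]
            ring
          rw [this, artanh_tanh]
        have hlt : tanh ((D0 - E0) / 2) < tanh ((E0 + D0) / 2) := by
          by_contra hc
          push Not at hc
          have := ath_mono ht1 ht2 hc
          rw [hat, hat] at this
          linarith
        obtain ⟨_, _, _, k4⟩ := cov ht1 ht2 hlt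
        rw [hat, hat] at k4
        have q1 : (E0 + D0) / 2 - (D0 - E0) / 2 = E0 := by ring
        have q2 : (E0 + D0) / 2 + (D0 - E0) / 2 = D0 := by ring
        rw [q1, q2] at k4
        have hP : 0 < cosh E0 + cosh D0 := by
          have := cosh_pos E0
          have := cosh_pos D0
          linarith
        have : 0 ≤ WW E0 D0 / (cosh E0 + cosh D0) := by
          rw [← k4]
          linarith [ent_nonneg' ht1, ent_nonneg' ht2]
        have h7 := mul_nonneg this hP.le
        rwa [div_mul_cancel₀ _ hP.ne'] at h7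
      have := cosh_pos E0
      positivity
    have r1 : (x - y) / 2 * Tf ζ σ E0 (exp (-D0)) ≤ 0 :=
      mul_nonpos_of_nonpos_of_nonneg (by linarith) hT
    have r2 : 0 ≤ 2 * ζ * KK x y := by positivity
    have r3 : 0 ≤ σ * (1 - (x + y) / 2) := mul_nonneg hs (by linarith)
    linarith

end Vale.Agent.P322
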