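import Vale.Agent.P322.Path
import Vale.Agent.P322.Plane

/-! Module G: the one-step inequality. -/

namespace Vale.Agent.P322
open Real

namespace StepAux

theorem ath_neg (x : ℝ) : ath (-x) = -ath x := by
  unfold ath
  rw [show (1 : ℝ) - -x = 1 + x by ring, show (1 : ℝ) + -x = 1 - x by ring]
  ring

theorem phi_neg (x : ℝ) : phi (-x) = phi x := by
  unfold phi
  rw [show (1 : ℝ) - -x = 1 + x by ring, show (1 : ℝ) + -x = 1 - x by ring]
  ring

theorem ent_neg (x : ℝ) : ent (-x) = ent x := by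
  unfold ent
  rw [phi_neg]

theorem vv_neg (x : ℝ) : vv (-x) = vv x := by
  unfold vv
  ring

theorem KK_comm (a b : ℝ) : KK a b = KK b a := by
  unfold KK
  ring

theorem KK_neg (a b : ℝ) : KK (-a) (-b) = KK a b := by
  unfold KK
  rw [ath_neg, ath_neg]
  ring

/-- the symmetrised relative entropy density -/
noncomputable def JJ (s t : ℝ) : ℝ := (s - t) * (log s - log t)

theorem KK_eq (a b : ℝ) : KK a b = (JJ (1 + a) (1 + b) + JJ (1 - a) (1 - b)) / 8 := by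
  unfold KK JJ ath
  ring

theorem JJ_tangent {s t s0 t0 : ℝ} (hs : 0 < s) (ht : 0 < t) (hs0 : 0 < s0) (ht0 : 0 < t0) :
    s * (1 + (log s0 - log t0) - t0 / s0) + t * (1 + (log t0 - log s0) - s0 / t0) ≤ JJ s t := by
  have key : ∀ {a b a0 b0 : ℝ}, 0 < a → 0 < b → 0 < a0 → 0 < b0 →
      a * (1 + (log a0 - log b0)) - b * (a0 / b0) ≤ a * (log a - log b) := by
    intro a b a0 b0 ha hb ha0 hb0
    have h1 : log ((b * a0) / (a * b0)) ≤ (b * a0) / (a * b0) - 1 :=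
      Real.log_le_sub_one_of_pos (by positivity)
    rw [Real.log_div (by positivity) (by positivity), Real.log_mul hb.ne' ha0.ne',
      Real.log_mul ha.ne' hb0.ne'] at h1
    have h2 := mul_le_mul_of_nonneg_left h1 ha.le
    have h3 : a * ((b * a0) / (a * b0) - 1) = b * (a0 / b0) - a := by
      field_simp
    rw [h3] at h2
    nlinarith [h2]
  have h1 := key hs ht hs0 ht0
  have h2 := key ht hs ht0 hs0
  unfold JJ
  nlinarith [h1, h2]

theorem JJ_self_tangent {s0 t0 : ℝ} (hs0 : 0 < s0) (ht0 : 0 < t0) :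
    s0 * (1 + (log s0 - log t0) - t0 / s0) + t0 * (1 + (log t0 - log s0) - s0 / t0)
      = JJ s0 t0 := by
  unfold JJ
  field_simp
  ring

theorem JJ_jensen {ι : Type*} (s : Finset ι) (p X Y : ι → ℝ) (hp : ∀ i ∈ s, 0 ≤ p i)
    (hX : ∀ i ∈ s, 0 < X i) (hY : ∀ i ∈ s, 0 < Y i)
    (h1 : 0 < ∑ i ∈ s, p i * X i) (h2 : 0 < ∑ i ∈ s, p i * Y i) :
    JJ (∑ i ∈ s, p i * X i) (∑ i ∈ s, p i * Y i) ≤ ∑ i ∈ s, p i * JJ (X i) (Y i) := by
  set x0 := ∑ i ∈ s, p i * X i with hx0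
  set y0 := ∑ i ∈ s, p i * Y i with hy0
  rw [← JJ_self_tangent h1 h2]
  set a := 1 + (log x0 - log y0) - y0 / x0 with ha
  set b := 1 + (log y0 - log x0) - x0 / y0 with hb
  have h3 : x0 * a + y0 * b = ∑ i ∈ s, p i * (X i * a + Y i * b) := by
    rw [hx0, hy0, Finset.sum_mul, Finset.sum_mul, ← Finset.sum_add_distrib]
    refine Finset.sum_congr rfl fun i _ => by ring
  rw [h3]
  refine Finset.sum_le_sum fun i hi => ?_
  exact mul_le_mul_of_nonneg_left (JJ_tangent (hX i hi) (hY i hi) h1 h2) (hp i hi)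

theorem abs_sum_lt_one {ι : Type*} (s : Finset ι) (p X : ι → ℝ) (hp : ∀ i ∈ s, 0 ≤ p i)
    (hp1 : ∑ i ∈ s, p i = 1) (hX : ∀ i ∈ s, |X i| < 1) : |∑ i ∈ s, p i * X i| < 1 := by
  have hne : ∃ i ∈ s, 0 < p i := by
    by_contra hcon
    push Not at hcon
    have : ∑ i ∈ s, p i ≤ 0 := Finset.sum_nonpos hcon
    linarith
  obtain ⟨i0, hi0, hp0⟩ := hne
  rw [abs_lt]
  constructor
  · have : ∑ i ∈ s, p i * (-1) < ∑ i ∈ s, p i * X i := by
      refine Finset.sum_lt_sum (fun i hi => ?_) ⟨i0, hi0, ?_⟩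
      · exact mul_le_mul_of_nonneg_left (abs_lt.mp (hX i hi)).1.le (hp i hi)
      · exact mul_lt_mul_of_pos_left (abs_lt.mp (hX i0 hi0)).1 hp0
    rw [← Finset.sum_mul, hp1] at this
    linarith
  · have : ∑ i ∈ s, p i * X i < ∑ i ∈ s, p i * 1 := by
      refine Finset.sum_lt_sum (fun i hi => ?_) ⟨i0, hi0, ?_⟩
      · exact mul_le_mul_of_nonneg_left (abs_lt.mp (hX i hi)).2.le (hp i hi)
      · exact mul_lt_mul_of_pos_left (abs_lt.mp (hX i0 hi0)).2 hp0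
    rw [← Finset.sum_mul, hp1] at this
    linarith

theorem KK_jensen {ι : Type*} (s : Finset ι) (p X Y : ι → ℝ) (hp : ∀ i ∈ s, 0 ≤ p i)
    (hp1 : ∑ i ∈ s, p i = 1) (hX : ∀ i ∈ s, |X i| < 1) (hY : ∀ i ∈ s, |Y i| < 1) :
    KK (∑ i ∈ s, p i * X i) (∑ i ∈ s, p i * Y i) ≤ ∑ i ∈ s, p i * KK (X i) (Y i) := by
  have hx := abs_lt.mp (abs_sum_lt_one s p X hp hp1 hX)
  have hy := abs_lt.mp (abs_sum_lt_one s p Y hp hp1 hY)
  have e1 : ∀ Z : ι → ℝ, ∑ i ∈ s, p i * (1 + Z i) = 1 + ∑ i ∈ s, p i * Z i := by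
    intro Z
    rw [← hp1, ← Finset.sum_add_distrib]
    exact Finset.sum_congr rfl fun i _ => by rw [hp1]; ring
  have e2 : ∀ Z : ι → ℝ, ∑ i ∈ s, p i * (1 - Z i) = 1 - ∑ i ∈ s, p i * Z i := by
    intro Z
    rw [← hp1, ← Finset.sum_sub_distrib]
    exact Finset.sum_congr rfl fun i _ => by rw [hp1]; ring
  have j1 := JJ_jensen s p (fun i => 1 + X i) (fun i => 1 + Y i) hp
    (fun i hi => by have := abs_lt.mp (hX i hi); show 0 < 1 + X i; linarith)
    (fun i hi => by have := abs_lt.mp (hY i hi); show 0 < 1 + Y i; linarith)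
    (by rw [e1]; linarith) (by rw [e1]; linarith)
  have j2 := JJ_jensen s p (fun i => 1 - X i) (fun i => 1 - Y i) hp
    (fun i hi => by have := abs_lt.mp (hX i hi); show 0 < 1 - X i; linarith)
    (fun i hi => by have := abs_lt.mp (hY i hi); show 0 < 1 - Y i; linarith)
    (by rw [e2]; linarith) (by rw [e2]; linarith)
  rw [e1, e1] at j1
  rw [e2, e2] at j2
  rw [KK_eq]
  have h3 : ∑ i ∈ s, p i * KK (X i) (Y i)
      = (∑ i ∈ s, p i * JJ (1 + X i) (1 + Y i) + ∑ i ∈ s, p i * JJ (1 - X i) (1 - Y i)) / 8 := by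
    rw [← Finset.sum_add_distrib, Finset.sum_div]
    refine Finset.sum_congr rfl fun i _ => ?_
    rw [KK_eq]
    ring
  rw [h3]
  linarith

theorem cc_pos : 0 < cc := by
  unfold cc
  have h := Real.log_two_gt_d9
  have h2 : 1 / (2 * Real.log 2) < 1 := by
    rw [div_lt_one (by positivity)]
    linarith
  linarith

theorem cc_lt_one : cc < 1 := by
  unfold cc
  have h : 0 < Real.log 2 := Real.log_pos (by norm_num)
  have h2 : 0 < 1 / (2 * Real.log 2) := by positivity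
  linarith

theorem vv_pos {m : ℝ} (h : |m| < 1) : 0 < vv m := by
  unfold vv
  have h1 : m ^ 2 < 1 := by
    rw [← sq_abs]
    have := abs_nonneg m
    nlinarith
  have := cc_pos
  have h3 : 0 < 1 - m ^ 2 := by linarith
  have h4 : 0 < 1 + cc * m ^ 2 := by positivity
  positivity

theorem vb_le (m d : ℝ) : vb m d ≤ vv m := by
  unfold vb vv
  have h1 := cc_pos
  have h2 := cc_lt_one
  have h3 : 0 ≤ (1 - cc) * d ^ 2 := mul_nonneg (by linarith) (sq_nonneg _)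
  have h4 : 0 ≤ cc * (6 * m ^ 2 * d ^ 2 + d ^ 4) := by positivity
  nlinarith [h3, h4]

theorem ath_strictMono {a b : ℝ} (ha : |a| < 1) (hb : |b| < 1) (h : a < b) : ath a < ath b := by
  have ha' := abs_lt.mp ha
  have hb' := abs_lt.mp hb
  unfold ath
  have h1 : log (1 + a) < log (1 + b) := Real.log_lt_log (by linarith) (by linarith)
  have h2 : log (1 - b) < log (1 - a) := Real.log_lt_log (by linarith) (by linarith)
  linarith

theorem KK_nonneg {a b : ℝ} (ha : |a| < 1) (hb : |b| < 1) : 0 ≤ KK a b := by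
  unfold KK
  rcases lt_trichotomy a b with h | h | h
  · have := ath_strictMono ha hb h
    nlinarith
  · subst h; simp
  · have := ath_strictMono hb ha h
    nlinarith

/-- `E ≥ ath m1 - ath m2` in terms of `cosh`, `sinh`. -/
theorem hyp_ineq {m1 m2 E : ℝ} (h1 : |m1| < 1) (h2 : |m2| < 1) (hE : ath m1 - ath m2 ≤ E) :
    (m1 - m2) * cosh E ≤ (1 - m1 * m2) * sinh E := by
  have h1' := abs_lt.mp h1
  have h2' := abs_lt.mp h2
  have a1 : 0 < 1 + m1 := by linarith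
  have a2 : 0 < 1 - m1 := by linarith
  have b1 : 0 < 1 + m2 := by linarith
  have b2 : 0 < 1 - m2 := by linarith
  have h3 : log ((1 + m1) * (1 - m2)) - log ((1 - m1) * (1 + m2)) ≤ 2 * E := by
    rw [Real.log_mul a1.ne' b2.ne', Real.log_mul a2.ne' b1.ne']
    unfold ath at hE
    linarith
  have h4 : (1 + m1) * (1 - m2) ≤ (1 - m1) * (1 + m2) * exp (2 * E) := by
    have h5 : log ((1 + m1) * (1 - m2)) ≤ log ((1 - m1) * (1 + m2) * exp (2 * E)) := by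
      rw [Real.log_mul (by positivity) (exp_pos _).ne', Real.log_exp]
      linarith
    exact (Real.log_le_log_iff (by positivity) (by positivity)).mp h5
  have h6 : exp (2 * E) = exp E * exp E := by rw [← Real.exp_add]; ring_nf
  have h7 : exp E * exp (-E) = 1 := by rw [← Real.exp_add]; simp
  rw [h6] at h4
  have h8 : (1 + m1) * (1 - m2) * exp (-E) ≤ (1 - m1) * (1 + m2) * exp E := by
    have := mul_le_mul_of_nonneg_right h4 (exp_pos (-E)).le
    have h9 : (1 - m1) * (1 + m2) * (exp E * exp E) * exp (-E)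
        = (1 - m1) * (1 + m2) * exp E * (exp E * exp (-E)) := by ring
    rw [h9, h7, mul_one] at this
    exact this
  rw [Real.cosh_eq, Real.sinh_eq]
  nlinarith [h8]

/-- geometric parameters -/
theorem geom {m1 m2 m δ e : ℝ} (hm1a : |m1| < 1) (hm2a : |m2| < 1)
    (hm : m = (m1 + m2) / 2) (hδ : δ = (m1 - m2) / 2)
    (hKe : KK m1 m2 ≤ e) (hδ0 : 0 < δ) (hm0 : 0 ≤ m) :
    ∃ E V Ap Am : ℝ, 0 < E ∧ 0 < V ∧ E * δ = 2 * e ∧ V * δ = sinh E ∧
      Ap = (V * (1 + m) - cosh E) / 2 ∧ Am = (V * (1 - m) - cosh E) / 2 ∧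
      0 < Am ∧ Am ≤ Ap ∧ 1 ≤ 4 * Ap * Am := by
  have hm1' := abs_lt.mp hm1a
  have hm2' := abs_lt.mp hm2a
  have hlt : m2 < m1 := by linarith
  have hK1 : KK m1 m2 = δ * (ath m1 - ath m2) / 2 := by rw [hδ]; unfold KK; ring
  have hath := ath_strictMono hm2a hm1a hlt
  obtain ⟨E, hE⟩ : ∃ E : ℝ, E = 2 * e / δ := ⟨_, rfl⟩
  have hEδ : E * δ = 2 * e := by rw [hE]; field_simp
  have hE1 : ath m1 - ath m2 ≤ E := by
    rw [hE, le_div_iff₀ hδ0]
    rw [hK1] at hKe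
    linarith
  have hE0 : 0 < E := by linarith
  have hhyp := hyp_ineq hm1a hm2a hE1
  have hCS : cosh E ^ 2 = sinh E ^ 2 + 1 := Real.cosh_sq E
  have hS0 : 0 < sinh E := Real.sinh_pos_iff.mpr hE0
  have hC0 : 0 < cosh E := Real.cosh_pos E
  refine ⟨E, ?_⟩
  generalize cosh E = C at *
  generalize sinh E = S at *
  obtain ⟨V, hV⟩ : ∃ V : ℝ, V = S / δ := ⟨_, rfl⟩
  have hV0 : 0 < V := by rw [hV]; positivity
  have hVδ : V * δ = S := by rw [hV]; field_simp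
  have hm12 : m1 = m + δ := by rw [hm, hδ]; ring
  have hm22 : m2 = m - δ := by rw [hm, hδ]; ring
  -- 2 δ C ≤ (1 - m² + δ²) S
  have h2 : 2 * δ * C ≤ (1 - m ^ 2 + δ ^ 2) * S := by
    have h3 : (m1 - m2) * C = 2 * δ * C := by rw [hδ]; ring
    have h4 : (1 - m1 * m2) * S = (1 - m ^ 2 + δ ^ 2) * S := by rw [hm12, hm22]; ring
    rw [h3, h4] at hhyp
    exact hhyp
  have hδ1 : δ < 1 := by linarith
  have hm_lt : m < 1 := by linarith
  have hVC : C < V := by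
    have h3 : (1 - m ^ 2 + δ ^ 2) * S < 2 * S := by
      apply mul_lt_mul_of_pos_right _ hS0
      nlinarith
    have h4 : δ * C < S := by linarith
    rw [hV, lt_div_iff₀ hδ0]
    linarith
  -- Ap, Am
  obtain ⟨Ap, hAp⟩ : ∃ Ap : ℝ, Ap = (V * (1 + m) - C) / 2 := ⟨_, rfl⟩
  obtain ⟨Am, hAm⟩ : ∃ Am : ℝ, Am = (V * (1 - m) - C) / 2 := ⟨_, rfl⟩
  have hVsum : C + Ap + Am = V := by rw [hAp, hAm]; ring
  have hdiff : Ap - Am = V * m := by rw [hAp, hAm]; ring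
  have hprod : 1 ≤ 4 * Ap * Am := by
    have h5 : 4 * Ap * Am = V ^ 2 * (1 - m ^ 2) - 2 * V * C + C ^ 2 := by rw [hAp, hAm]; ring
    have h6 : δ * δ * (V ^ 2 * (1 - m ^ 2) - 2 * V * C + C ^ 2 - 1)
        = S * ((1 - m ^ 2 + δ ^ 2) * S - 2 * δ * C) := by
      have : δ * δ * (V ^ 2 * (1 - m ^ 2) - 2 * V * C + C ^ 2 - 1)
          = (V * δ) ^ 2 * (1 - m ^ 2) - 2 * (V * δ) * δ * C + δ ^ 2 * (C ^ 2 - 1) := by ring
      rw [this, hVδ, hCS]
      ring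
    have h7 : 0 ≤ δ * δ * (V ^ 2 * (1 - m ^ 2) - 2 * V * C + C ^ 2 - 1) := by
      rw [h6]
      exact mul_nonneg hS0.le (by linarith)
    have h8 : 0 ≤ V ^ 2 * (1 - m ^ 2) - 2 * V * C + C ^ 2 - 1 :=
      nonneg_of_mul_nonneg_right h7 (by positivity)
    rw [h5]
    linarith
  have hAle : Am ≤ Ap := by
    have : 0 ≤ V * m := mul_nonneg hV0.le hm0
    linarith
  have hAm0 : 0 < Am := by
    by_contra hcon
    push Not at hcon
    have hAp0 : 0 < Ap := by linarith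
    have : 4 * Ap * Am ≤ 0 := mul_nonpos_of_nonneg_of_nonpos (by positivity) hcon
    linarith
  exact ⟨V, Ap, Am, hE0, hV0, hEδ, hVδ, hAp, hAm, hAm0, hAle, hprod⟩

/-- combination of `plane`, `Q_region1`, `Q_region2` -/
theorem exists_N {m δ e ν E V Ap Am : ℝ} (hE0 : 0 < E) (hV0 : 0 < V)
    (hEδ : E * δ = 2 * e) (hVδ : V * δ = sinh E)
    (hAp : Ap = (V * (1 + m) - cosh E) / 2) (hAm : Am = (V * (1 - m) - cosh E) / 2)
    (hAm0 : 0 < Am) (hAle : Am ≤ Ap) (hprod : 1 ≤ 4 * Ap * Am)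
    (hsum : ∀ ζ σ K : ℝ, (∀ x y : ℝ, |x| < 1 → |y| < 1 →
      (x - y) / 2 * K ≤ (ent x + ent y) / 2 + 2 * ζ * KK x y + σ * (1 - (x + y) / 2)) →
      δ * K ≤ ν + 2 * ζ * e + σ * (1 - m)) :
    ∃ N : ℝ, 0 < N ∧ N ≤ V * ν ∧
      2 * V * w0 m δ + FF (V * vv m) N - FF (V * vb m δ) N ≤ E * sinh E / 2 := by
  have hVsum : cosh E + Ap + Am = V := by rw [hAp, hAm]; ring
  have hdiff : Ap - Am = V * m := by rw [hAp, hAm]; ring
  have hmV : (Ap - Am) / V = m := by rw [hdiff]; field_simp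
  have hδV : sinh E / V = δ := by rw [← hVδ]; field_simp
  have hS0 : 0 < sinh E := Real.sinh_pos_iff.mpr hE0
  have hδ0 : 0 < δ := by
    rw [← hδV]
    positivity
  by_cases hcase : Am ≤ 1 / 2
  · -- region I
    obtain ⟨D, hD⟩ : ∃ D : ℝ, D = -log (2 * Am) := ⟨_, rfl⟩
    have hD0 : 0 ≤ D := by
      rw [hD]
      have : log (2 * Am) ≤ 0 := Real.log_nonpos (by positivity) (by linarith)
      linarith
    have hexp : exp (-D) = 2 * Am := by
      rw [hD, neg_neg, Real.exp_log (by positivity)]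
    have hexp' : exp D = 1 / (2 * Am) := by
      rw [hD, Real.exp_neg, Real.exp_log (by positivity), one_div]
    refine ⟨WW E D, WW_pos hE0, ?_, ?_⟩
    · obtain ⟨ζ, σ, hζ, hσ, _, hpl⟩ := plane hE0 hD0
      have h14 := hsum ζ σ _ hpl
      rw [hexp] at h14
      have h15 : cosh E + 2 * Am = V * (1 - m) := by rw [hAm]; ring
      rw [h15] at h14
      have h16 : δ * (WW E D / sinh E + ζ * E + σ * (V * (1 - m) / sinh E))
          = WW E D / V + ζ * (E * δ) + σ * (1 - m) := by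
        rw [← hVδ]
        field_simp
      rw [h16, hEδ] at h14
      have h17 : WW E D / V ≤ ν := by linarith
      rw [div_le_iff₀ hV0] at h17
      linarith
    · have h18 := Q_region1 (E := E) (D := D) (Ap := Ap) hE0 hD0 (by
        rw [hexp']
        rw [div_div, div_le_iff₀ (by positivity)]
        linarith)
      have h19 : exp (-D) / 2 = Am := by rw [hexp]; ring
      simp only at h18
      rw [h19, hVsum, hmV, hδV] at h18
      exact h18
  · push Not at hcase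
    refine ⟨WW E 0, WW_pos hE0, ?_, ?_⟩
    · obtain ⟨ζ, σ, hζ, hσ, hσ0, hpl⟩ := plane hE0 (le_refl (0 : ℝ))
      have h14 := hsum ζ σ _ hpl
      rw [hσ0 rfl] at h14
      have h16 : δ * (WW E 0 / sinh E + ζ * E + 0 * ((cosh E + exp (-0)) / sinh E))
          = WW E 0 / V + ζ * (E * δ) := by
        rw [← hVδ]
        field_simp
        ring
      rw [h16, hEδ] at h14
      have h17 : WW E 0 / V ≤ ν := by linarith
      rw [div_le_iff₀ hV0] at h17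
      linarith
    · have h18 := Q_region2 (E := E) (Ap := Ap) (Am := Am) hE0 hcase.le hAle
      simp only at h18
      rw [hVsum, hmV, hδV] at h18
      exact h18

/-- summing the plane inequality -/
theorem plane_sum {ι : Type*} (s : Finset ι) (p X Y : ι → ℝ) (hp : ∀ i ∈ s, 0 ≤ p i)
    (hp1 : ∑ i ∈ s, p i = 1) (hX : ∀ i ∈ s, |X i| < 1) (hY : ∀ i ∈ s, |Y i| < 1)
    {m1 m2 m δ e ν : ℝ}
    (hm1 : m1 = ∑ i ∈ s, p i * X i) (hm2 : m2 = ∑ i ∈ s, p i * Y i)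
    (hm : m = (m1 + m2) / 2) (hδ : δ = (m1 - m2) / 2)
    (he : e = ∑ i ∈ s, p i * KK (X i) (Y i))
    (hν : ν = ∑ i ∈ s, p i * ((ent (X i) + ent (Y i)) / 2))
    (ζ σ K : ℝ) (h : ∀ x y : ℝ, |x| < 1 → |y| < 1 →
      (x - y) / 2 * K ≤ (ent x + ent y) / 2 + 2 * ζ * KK x y + σ * (1 - (x + y) / 2)) :
      δ * K ≤ ν + 2 * ζ * e + σ * (1 - m) := by
  have h9 : ∑ i ∈ s, p i * ((X i - Y i) / 2 * K)
      ≤ ∑ i ∈ s, p i * ((ent (X i) + ent (Y i)) / 2 + 2 * ζ * KK (X i) (Y i)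
        + σ * (1 - (X i + Y i) / 2)) :=
    Finset.sum_le_sum fun i hi => mul_le_mul_of_nonneg_left (h _ _ (hX i hi) (hY i hi)) (hp i hi)
  have h10 : ∑ i ∈ s, p i * ((X i - Y i) / 2 * K) = δ * K := by
    rw [hδ, hm1, hm2, ← Finset.sum_sub_distrib, Finset.sum_div, Finset.sum_mul]
    exact Finset.sum_congr rfl fun i _ => by ring
  have h11 : ∑ i ∈ s, p i * ((ent (X i) + ent (Y i)) / 2 + 2 * ζ * KK (X i) (Y i)
        + σ * (1 - (X i + Y i) / 2)) = ν + 2 * ζ * e + σ * (1 - m) := by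
    have h12 : σ * (1 - m) = ∑ i ∈ s, p i * (σ * (1 - (X i + Y i) / 2)) := by
      have : σ * (1 - m) = σ * (∑ i ∈ s, p i - (∑ i ∈ s, p i * X i + ∑ i ∈ s, p i * Y i) / 2) := by
        rw [hp1, hm, hm1, hm2]
      rw [this, ← Finset.sum_add_distrib, Finset.sum_div, ← Finset.sum_sub_distrib,
        Finset.mul_sum]
      exact Finset.sum_congr rfl fun i _ => by ring
    have h13 : 2 * ζ * e = ∑ i ∈ s, p i * (2 * ζ * KK (X i) (Y i)) := by
      rw [he, Finset.mul_sum]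
      exact Finset.sum_congr rfl fun i _ => by ring
    rw [h12, h13, hν, ← Finset.sum_add_distrib, ← Finset.sum_add_distrib]
    exact Finset.sum_congr rfl fun i _ => by ring
  rw [h10, h11] at h9
  exact h9

/-- the main case: `m2 < m1`, `0 ≤ m1 + m2`. -/
theorem step_core {ι : Type*} (s : Finset ι) (p X Y : ι → ℝ) (hp : ∀ i ∈ s, 0 ≤ p i)
    (hp1 : ∑ i ∈ s, p i = 1) (hX : ∀ i ∈ s, |X i| < 1) (hY : ∀ i ∈ s, |Y i| < 1)
    {z : ℝ} (hz : 0 ≤ z) {m1 m2 m δ e ν : ℝ}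
    (hm1 : m1 = ∑ i ∈ s, p i * X i) (hm2 : m2 = ∑ i ∈ s, p i * Y i)
    (hm : m = (m1 + m2) / 2) (hδ : δ = (m1 - m2) / 2)
    (he : e = ∑ i ∈ s, p i * KK (X i) (Y i))
    (hν : ν = ∑ i ∈ s, p i * ((ent (X i) + ent (Y i)) / 2))
    (hδ0 : 0 < δ) (hm0 : 0 ≤ m) :
    ∃ z' : ℝ, 0 ≤ z' ∧
      2 * w0 m δ + vv m * GG z - mu z * ν ≤ e + vb m δ * GG z' - mu z' * ν := by
  have hm1a : |m1| < 1 := by rw [hm1]; exact abs_sum_lt_one s p X hp hp1 hX
  have hm2a : |m2| < 1 := by rw [hm2]; exact abs_sum_lt_one s p Y hp hp1 hY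
  have hKe : KK m1 m2 ≤ e := by rw [hm1, hm2, he]; exact KK_jensen s p X Y hp hp1 hX hY
  have hsum := plane_sum s p X Y hp hp1 hX hY hm1 hm2 hm hδ he hν
  obtain ⟨E, V, Ap, Am, hE0, hV0, hEδ, hVδ, hAp, hAm, hAm0, hAle, hprod⟩ :=
    geom hm1a hm2a hm hδ hKe hδ0 hm0
  obtain ⟨N, hN0, hNν, hQ⟩ := exists_N hE0 hV0 hEδ hVδ hAp hAm hAm0 hAle hprod hsum
  have hm12 : m1 = m + δ := by rw [hm, hδ]; ring
  have hm22 : m2 = m - δ := by rw [hm, hδ]; ring
  have hES : E * sinh E / 2 = V * e := by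
    rw [← hVδ]
    have : E * (V * δ) / 2 = V * (E * δ) / 2 := by ring
    rw [this, hEδ]
    ring
  -- conclusion
  have hvb0 : 0 < vb m δ := by
    unfold vb
    rw [← hm12, ← hm22]
    have := vv_pos hm1a
    have := vv_pos hm2a
    linarith
  have hvbv := vb_le m δ
  have hvv0 : 0 < vv m := lt_of_lt_of_le hvb0 hvbv
  have hN' : V * (N / V) = N := by field_simp
  have hs1 : FF (V * vv m) N = V * FF (vv m) (N / V) := by
    conv_lhs => rw [← hN']
    exact FF_scale hV0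
  have hs2 : FF (V * vb m δ) N = V * FF (vb m δ) (N / V) := by
    conv_lhs => rw [← hN']
    exact FF_scale hV0
  rw [hs1, hs2, hES] at hQ
  have hQ' : 2 * w0 m δ + FF (vv m) (N / V) - FF (vb m δ) (N / V) ≤ e := by
    have h20 : V * (2 * w0 m δ + FF (vv m) (N / V) - FF (vb m δ) (N / V)) ≤ V * e := by
      linarith
    exact le_of_mul_le_mul_left h20 hV0
  have hν0 : 0 < N / V := by positivity
  have hνν : N / V ≤ ν := by rw [div_le_iff₀ hV0]; linarith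
  have hcross := FF_cross hvb0 hvbv hν0 hνν
  have hνpos : 0 < ν := lt_of_lt_of_le hν0 hνν
  have hFFv := le_FF hvv0 hνpos hz
  refine ⟨Zi (ν / vb m δ), Zi_nonneg _, ?_⟩
  have hFFvb : FF (vb m δ) ν = vb m δ * GG (Zi (ν / vb m δ)) - mu (Zi (ν / vb m δ)) * ν := rfl
  linarith

end StepAux

open StepAux in
theorem step {ι : Type*} (s : Finset ι) (p X Y : ι → ℝ) (hp : ∀ i ∈ s, 0 ≤ p i)
    (hp1 : ∑ i ∈ s, p i = 1) (hX : ∀ i ∈ s, |X i| < 1) (hY : ∀ i ∈ s, |Y i| < 1)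
    {z : ℝ} (hz : 0 ≤ z) :
    ∃ z' : ℝ, 0 ≤ z' ∧
      2 * ((phi (∑ i ∈ s, p i * X i) + phi (∑ i ∈ s, p i * Y i)) / 2
          - phi ((∑ i ∈ s, p i * X i + ∑ i ∈ s, p i * Y i) / 2))
        + vv ((∑ i ∈ s, p i * X i + ∑ i ∈ s, p i * Y i) / 2) * GG z
        - mu z * ∑ i ∈ s, p i * ((ent (X i) + ent (Y i)) / 2)
      ≤ ∑ i ∈ s, p i * KK (X i) (Y i)
        + (vv (∑ i ∈ s, p i * X i) + vv (∑ i ∈ s, p i * Y i)) / 2 * GG z'
        - mu z' * ∑ i ∈ s, p i * ((ent (X i) + ent (Y i)) / 2) := by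
  -- reduction to the core case, stated for arbitrary `X Y`
  have core : ∀ X Y : ι → ℝ, (∀ i ∈ s, |X i| < 1) → (∀ i ∈ s, |Y i| < 1) →
      ∑ i ∈ s, p i * Y i < ∑ i ∈ s, p i * X i →
      0 ≤ ∑ i ∈ s, p i * X i + ∑ i ∈ s, p i * Y i →
      ∃ z' : ℝ, 0 ≤ z' ∧
      2 * ((phi (∑ i ∈ s, p i * X i) + phi (∑ i ∈ s, p i * Y i)) / 2
          - phi ((∑ i ∈ s, p i * X i + ∑ i ∈ s, p i * Y i) / 2))
        + vv ((∑ i ∈ s, p i * X i + ∑ i ∈ s, p i * Y i) / 2) * GG z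
        - mu z * ∑ i ∈ s, p i * ((ent (X i) + ent (Y i)) / 2)
      ≤ ∑ i ∈ s, p i * KK (X i) (Y i)
        + (vv (∑ i ∈ s, p i * X i) + vv (∑ i ∈ s, p i * Y i)) / 2 * GG z'
        - mu z' * ∑ i ∈ s, p i * ((ent (X i) + ent (Y i)) / 2) := by
    intro X Y hX hY hlt hsum
    obtain ⟨z', hz', h⟩ := step_core s p X Y hp hp1 hX hY hz
      (m1 := ∑ i ∈ s, p i * X i) (m2 := ∑ i ∈ s, p i * Y i) rfl rfl rfl rfl rfl rfl
      (by linarith) (by linarith)
    refine ⟨z', hz', ?_⟩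
    unfold w0 vb at h
    rw [show (∑ i ∈ s, p i * X i + ∑ i ∈ s, p i * Y i) / 2
        + (∑ i ∈ s, p i * X i - ∑ i ∈ s, p i * Y i) / 2 = ∑ i ∈ s, p i * X i by ring,
      show (∑ i ∈ s, p i * X i + ∑ i ∈ s, p i * Y i) / 2
        - (∑ i ∈ s, p i * X i - ∑ i ∈ s, p i * Y i) / 2 = ∑ i ∈ s, p i * Y i by ring] at h
    exact h
  -- reduction to `m2 < m1`
  have core2 : ∀ X Y : ι → ℝ, (∀ i ∈ s, |X i| < 1) → (∀ i ∈ s, |Y i| < 1) →
      ∑ i ∈ s, p i * Y i < ∑ i ∈ s, p i * X i →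
      ∃ z' : ℝ, 0 ≤ z' ∧
      2 * ((phi (∑ i ∈ s, p i * X i) + phi (∑ i ∈ s, p i * Y i)) / 2
          - phi ((∑ i ∈ s, p i * X i + ∑ i ∈ s, p i * Y i) / 2))
        + vv ((∑ i ∈ s, p i * X i + ∑ i ∈ s, p i * Y i) / 2) * GG z
        - mu z * ∑ i ∈ s, p i * ((ent (X i) + ent (Y i)) / 2)
      ≤ ∑ i ∈ s, p i * KK (X i) (Y i)
        + (vv (∑ i ∈ s, p i * X i) + vv (∑ i ∈ s, p i * Y i)) / 2 * GG z'
        - mu z' * ∑ i ∈ s, p i * ((ent (X i) + ent (Y i)) / 2) := by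
    intro X Y hX hY hlt
    rcases le_total 0 (∑ i ∈ s, p i * X i + ∑ i ∈ s, p i * Y i) with h | h
    · exact core X Y hX hY hlt h
    · have hneg : ∀ Z : ι → ℝ, ∑ i ∈ s, p i * (-Z i) = -∑ i ∈ s, p i * Z i := by
        intro Z
        rw [← Finset.sum_neg_distrib]
        exact Finset.sum_congr rfl fun i _ => by ring
      obtain ⟨z', hz', h'⟩ := core (fun i => -Y i) (fun i => -X i)
        (fun i hi => by simpa using hY i hi) (fun i hi => by simpa using hX i hi)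
        (by rw [hneg, hneg]; linarith) (by rw [hneg, hneg]; linarith)
      refine ⟨z', hz', ?_⟩
      rw [hneg, hneg, show (-∑ i ∈ s, p i * Y i + -∑ i ∈ s, p i * X i) / 2
          = -((∑ i ∈ s, p i * X i + ∑ i ∈ s, p i * Y i) / 2) by ring] at h'
      simp only [phi_neg, vv_neg, ent_neg, KK_neg] at h'
      have e1 : ∑ i ∈ s, p i * KK (Y i) (X i) = ∑ i ∈ s, p i * KK (X i) (Y i) :=
        Finset.sum_congr rfl fun i _ => by rw [KK_comm]
      have e2 : ∑ i ∈ s, p i * ((ent (Y i) + ent (X i)) / 2)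
          = ∑ i ∈ s, p i * ((ent (X i) + ent (Y i)) / 2) :=
        Finset.sum_congr rfl fun i _ => by rw [add_comm (ent (Y i))]
      rw [e1, e2, add_comm (phi (∑ i ∈ s, p i * Y i)), add_comm (vv (∑ i ∈ s, p i * Y i))] at h'
      exact h'
  rcases lt_trichotomy (∑ i ∈ s, p i * Y i) (∑ i ∈ s, p i * X i) with h | h | h
  · exact core2 X Y hX hY h
  · refine ⟨z, hz, ?_⟩
    have hK : 0 ≤ ∑ i ∈ s, p i * KK (X i) (Y i) :=
      Finset.sum_nonneg fun i hi => mul_nonneg (hp i hi) (KK_nonneg (hX i hi) (hY i hi))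
    rw [h]
    have e1 : (∑ i ∈ s, p i * X i + ∑ i ∈ s, p i * X i) / 2 = ∑ i ∈ s, p i * X i := by ring
    rw [e1]
    have e2 : (phi (∑ i ∈ s, p i * X i) + phi (∑ i ∈ s, p i * X i)) / 2
        = phi (∑ i ∈ s, p i * X i) := by ring
    have e3 : (vv (∑ i ∈ s, p i * X i) + vv (∑ i ∈ s, p i * X i)) / 2
        = vv (∑ i ∈ s, p i * X i) := by ring
    rw [e2, e3]
    linarith
  · obtain ⟨z', hz', h'⟩ := core2 Y X hY hX h
    refine ⟨z', hz', ?_⟩
    have e1 : ∑ i ∈ s, p i * KK (Y i) (X i) = ∑ i ∈ s, p i * KK (X i) (Y i) :=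
      Finset.sum_congr rfl fun i _ => by rw [KK_comm]
    have e2 : ∑ i ∈ s, p i * ((ent (Y i) + ent (X i)) / 2)
        = ∑ i ∈ s, p i * ((ent (X i) + ent (Y i)) / 2) :=
      Finset.sum_congr rfl fun i _ => by rw [add_comm (ent (Y i))]
    rw [e1, e2, add_comm (phi (∑ i ∈ s, p i * Y i)), add_comm (vv (∑ i ∈ s, p i * Y i)),
      add_comm (∑ i ∈ s, p i * Y i)] at h'
    exact h'

end Vale.Agent.P322
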