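import Vale.Agent.P322.OneVar
import Vale.Agent.P322.AZero
import Vale.Agent.P322.Step
import Vale.Agent.P322.CubeDefs

/-! Module H: induction on the dimension. -/

namespace Vale.Agent.P322
open Real

/-- splitting a sum over the cube along the first coordinate -/
theorem sum_cube_succ {n : ℕ} (F : Cube (n + 1) → ℝ) :
    ∑ x, F x = ∑ y : Cube n, (F (Fin.cons 1 y) + F (Fin.cons (-1) y)) := by
  rw [← (Fin.consEquiv (fun _ : Fin (n + 1) => ℤˣ)).sum_comp, Fintype.sum_prod_type]
  have h : (Finset.univ : Finset ℤˣ) = {1, -1} := by decide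
  rw [h, Finset.sum_insert (by decide), Finset.sum_singleton, ← Finset.sum_add_distrib]
  rfl

theorem avg_cube_succ {n : ℕ} (F : Cube (n + 1) → ℝ) :
    avg F = (avg (fun y : Cube n => F (Fin.cons 1 y)) +
      avg (fun y : Cube n => F (Fin.cons (-1) y))) / 2 := by
  unfold avg
  rw [sum_cube_succ, Finset.sum_add_distrib, pow_succ]
  field_simp

theorem flp_zero_cons {n : ℕ} (u : ℤˣ) (y : Cube n) :
    flp (0 : Fin (n + 1)) (Fin.cons u y : Cube (n + 1)) = Fin.cons (-u) y := by
  unfold flp
  rw [Fin.cons_zero]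
  exact Fin.update_cons_zero (α := fun _ => ℤˣ) u y (-u)

theorem flp_succ_cons {n : ℕ} (i : Fin n) (u : ℤˣ) (y : Cube n) :
    flp i.succ (Fin.cons u y : Cube (n + 1)) = Fin.cons u (flp i y) := by
  unfold flp
  rw [Fin.cons_succ]
  exact (Fin.cons_update (α := fun _ => ℤˣ) u y i (-y i)).symm

theorem KK_comm (a b : ℝ) : KK a b = KK b a := by
  unfold KK; ring

theorem avg_congr {n : ℕ} {F G : Cube n → ℝ} (h : ∀ x, F x = G x) : avg F = avg G := by
  rw [funext h]

theorem DD_cube_succ {n : ℕ} (g : Cube (n + 1) → ℝ) :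
    DD g = avg (fun y : Cube n => KK (g (Fin.cons 1 y)) (g (Fin.cons (-1) y))) +
      (DD (fun y : Cube n => g (Fin.cons 1 y)) + DD (fun y : Cube n => g (Fin.cons (-1) y))) / 2 := by
  unfold DD
  rw [Fin.sum_univ_succ, ← Finset.sum_add_distrib, Finset.sum_div]
  congr 1
  · rw [avg_cube_succ]
    have h : ∀ y : Cube n, KK (g (Fin.cons (-1) y)) (g (flp 0 (Fin.cons (-1) y : Cube (n + 1)))) =
        KK (g (Fin.cons 1 y)) (g (Fin.cons (-1) y)) := by
      intro y
      rw [flp_zero_cons, neg_neg, KK_comm]
    rw [avg_congr h]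
    simp only [flp_zero_cons]
    ring
  · apply Finset.sum_congr rfl
    intro i _
    rw [avg_cube_succ]
    simp only [flp_succ_cons]

theorem vv_nonneg' {m : ℝ} (h : |m| ≤ 1) : 0 ≤ vv m := by
  unfold vv
  have h1 : m ^ 2 ≤ 1 := by
    rw [← sq_abs]
    have := abs_nonneg m
    nlinarith
  have h2 : (0 : ℝ) < cc := by
    unfold cc
    have := Real.log_two_gt_d9
    have h3 : 1 / (2 * Real.log 2) < 1 := by
      rw [div_lt_one (by linarith)]
      linarith
    linarith
  have h4 : 0 ≤ cc * m ^ 2 := by positivity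
  have h5 : 0 ≤ 1 - m ^ 2 := by linarith
  positivity

theorem cube_ineq {n : ℕ} (g : Cube n → ℝ) (hg : ∀ x, |g x| < 1) {z : ℝ} (hz : 0 ≤ z) :
    2 * (avg (fun x => phi (g x)) - phi (avg g)) + vv (avg g) * GG z
        - mu z * (Real.log 2 - avg (fun x => phi (g x)))
      ≤ DD g := by
  induction n generalizing z with
  | zero =>
    have h0 : ∀ F : Cube 0 → ℝ, avg F = F default := by
      intro F
      unfold avg
      rw [Fintype.sum_unique]
      simp only [pow_zero, div_one]
      exact congrArg F (Subsingleton.elim _ _)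
    have hD : DD g = 0 := by
      unfold DD
      simp
    rw [h0, h0, hD]
    have h1 := hg default
    have h2 := vv_le_ent h1.le
    have h3 := GG_le hz
    have h4 := mu_nonneg hz
    have h5 := vv_nonneg' h1.le
    have h6 : vv (g default) * GG z ≤ vv (g default) * (mu z * Real.log 2) := by gcongr
    have h7 : mu z * (vv (g default) * Real.log 2) ≤ mu z * ent (g default) := by gcongr
    unfold ent at h7
    linarith
  | succ n ih =>
    set X : Cube n → ℝ := fun y => g (Fin.cons 1 y) with hX
    set Y : Cube n → ℝ := fun y => g (Fin.cons (-1) y) with hY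
    have hXlt : ∀ y, |X y| < 1 := fun y => hg _
    have hYlt : ∀ y, |Y y| < 1 := fun y => hg _
    have hsum1 : ∑ _i : Cube n, (1 / 2 ^ n : ℝ) = 1 := by
      rw [Finset.sum_const, Finset.card_univ, Fintype.card_fun, Fintype.card_units_int,
        Fintype.card_fin, nsmul_eq_mul]
      push_cast
      rw [mul_one_div, div_self (by positivity)]
    obtain ⟨z', hz', hstep⟩ := step (Finset.univ : Finset (Cube n)) (fun _ => 1 / 2 ^ n) X Y
      (fun _ _ => by positivity) hsum1 (fun y _ => hXlt y) (fun y _ => hYlt y) hz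
    have havg : ∀ F : Cube n → ℝ, ∑ y, 1 / 2 ^ n * F y = avg F := by
      intro F
      unfold avg
      rw [← Finset.mul_sum]
      ring
    simp only [havg] at hstep
    have hIX := ih X hXlt hz'
    have hIY := ih Y hYlt hz'
    have e1 : avg g = (avg X + avg Y) / 2 := avg_cube_succ g
    have e2 : avg (fun x => phi (g x)) = (avg (fun y => phi (X y)) + avg (fun y => phi (Y y))) / 2 :=
      avg_cube_succ (fun x => phi (g x))
    have e3 : DD g = avg (fun y => KK (X y) (Y y)) + (DD X + DD Y) / 2 := DD_cube_succ g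
    have e4 : avg (fun y => (ent (X y) + ent (Y y)) / 2) =
        Real.log 2 - (avg (fun y => phi (X y)) + avg (fun y => phi (Y y))) / 2 := by
      unfold avg ent
      have : ∑ x : Cube n, (Real.log 2 - phi (X x) + (Real.log 2 - phi (Y x))) / 2 =
          2 ^ n * Real.log 2 - (∑ x, phi (X x) + ∑ x, phi (Y x)) / 2 := by
        rw [← Finset.sum_add_distrib, Finset.sum_div]
        have h8 : (2 : ℝ) ^ n * Real.log 2 = ∑ _x : Cube n, Real.log 2 := by
          rw [Finset.sum_const, Finset.card_univ, Fintype.card_fun, Fintype.card_units_int,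
            Fintype.card_fin, nsmul_eq_mul]
          push_cast
          ring
        rw [h8, ← Finset.sum_sub_distrib]
        apply Finset.sum_congr rfl
        intro x _
        ring
      rw [this]
      field_simp
    rw [e4] at hstep
    rw [e1, e2, e3]
    linarith

end Vale.Agent.P322
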