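import Mathlib

/-!
# P322 (Courtade-Kumar): basic functions

All quantities are in nats.
* `phi x` : relative entropy, w.r.t. the uniform bit, of the bit with bias `x` (`|x| ≤ 1`).
* `ent x = log 2 - phi x` : entropy of the bit with bias `x`.
* `ath` : inverse hyperbolic tangent; `KK a b = (a-b)(ath a - ath b)/4`.
* `vv` : the weight `v(m) = (1-m²)(1+c m²)`, `c = 1 - 1/(2 log 2)`.
* `om z = ent (tanh z)`, `mu`, `GG` : parametrised family of tangent lines.
* `Zi` : inverse of `om` (equal to `0` for arguments `≥ log 2`); `FF y N = sup_z (y G(z) - mu(z) N)`.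
* `WW E D = ((P log (2P) - E sinh E - D sinh D)/2`, `P = cosh E + cosh D`.
-/

namespace Vale.Agent.P322

noncomputable def cc : ℝ := 1 - 1 / (2 * Real.log 2)

noncomputable def phi (x : ℝ) : ℝ :=
  ((1 + x) * Real.log (1 + x) + (1 - x) * Real.log (1 - x)) / 2

noncomputable def ent (x : ℝ) : ℝ := Real.log 2 - phi x

noncomputable def ath (x : ℝ) : ℝ := (Real.log (1 + x) - Real.log (1 - x)) / 2

noncomputable def KK (a b : ℝ) : ℝ := (a - b) * (ath a - ath b) / 4

noncomputable def vv (m : ℝ) : ℝ := (1 - m ^ 2) * (1 + cc * m ^ 2)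

/-- average of `vv` over `m ± d`. -/
noncomputable def vb (m d : ℝ) : ℝ := (vv (m + d) + vv (m - d)) / 2

/-- the Jensen gap of `phi` over `m ± d`. -/
noncomputable def w0 (m d : ℝ) : ℝ := (phi (m + d) + phi (m - d)) / 2 - phi m

noncomputable def om (z : ℝ) : ℝ := Real.log (2 * Real.cosh z) - z * Real.tanh z

noncomputable def mu (z : ℝ) : ℝ := if z = 0 then 0 else Real.sinh (2 * z) / (2 * z) - 1

noncomputable def GG (z : ℝ) : ℝ :=
  z * Real.tanh z - 2 * Real.log 2 + 2 * om z + mu z * om z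

noncomputable def Zi (x : ℝ) : ℝ := sInf {z : ℝ | 0 ≤ z ∧ om z ≤ x}

noncomputable def FF (y N : ℝ) : ℝ := y * GG (Zi (N / y)) - mu (Zi (N / y)) * N

noncomputable def WW (E D : ℝ) : ℝ :=
  ((Real.cosh E + Real.cosh D) * Real.log (2 * (Real.cosh E + Real.cosh D))
    - E * Real.sinh E - D * Real.sinh D) / 2

end Vale.Agent.P322
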