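import Vale.Agent.P322.OneVar
import Vale.Agent.P322.AZero

/-! Module C: the edge inequality. -/

namespace Vale.Agent.P322
open Real Set

namespace Edge

theorem PP_pos (E D : ℝ) : 0 < Real.cosh E + Real.cosh D := by
  have := Real.cosh_pos E; have := Real.cosh_pos D; linarith

theorem PP_half (a b : ℝ) : Real.cosh (a - b) + Real.cosh (a + b) = 2 * Real.cosh a * Real.cosh b := by
  rw [Real.cosh_sub, Real.cosh_add]; ring

theorem s_add_d (E D : ℝ) : Real.sinh D / (Real.cosh E + Real.cosh D)
    + Real.sinh E / (Real.cosh E + Real.cosh D) = Real.tanh ((D + E) / 2) := by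
  obtain ⟨a, b, rfl, rfl⟩ : ∃ a b, E = a - b ∧ D = a + b := ⟨(D + E) / 2, (D - E) / 2, by ring, by ring⟩
  rw [PP_half, show (a + b + (a - b)) / 2 = a by ring, Real.tanh_eq_sinh_div_cosh,
    Real.sinh_sub, Real.sinh_add]
  have h1 := (Real.cosh_pos a).ne'
  have h2 := (Real.cosh_pos b).ne'
  field_simp
  ring

theorem s_sub_d (E D : ℝ) : Real.sinh D / (Real.cosh E + Real.cosh D)
    - Real.sinh E / (Real.cosh E + Real.cosh D) = Real.tanh ((D - E) / 2) := by
  have := s_add_d (-E) D
  rw [Real.cosh_neg, Real.sinh_neg, neg_div, ← sub_eq_add_neg, ← sub_eq_add_neg] at this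
  exact this

theorem ent_sub_w0 (s d : ℝ) : ent s - w0 s d = (ent (s + d) + ent (s - d)) / 2 := by
  unfold w0 ent; ring

theorem WW_om (E D : ℝ) : WW E D = (Real.cosh E + Real.cosh D)
    * ((om ((D + E) / 2) + om ((D - E) / 2)) / 2) := by
  obtain ⟨a, b, rfl, rfl⟩ : ∃ a b, E = a - b ∧ D = a + b := ⟨(D + E) / 2, (D - E) / 2, by ring, by ring⟩
  rw [show (a + b + (a - b)) / 2 = a by ring, show (a + b - (a - b)) / 2 = b by ring]
  unfold WW om
  rw [PP_half]
  have h1 := (Real.cosh_pos a)
  have h2 := (Real.cosh_pos b)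
  have h3 : Real.log (2 * (2 * Real.cosh a * Real.cosh b)) =
      Real.log (2 * Real.cosh a) + Real.log (2 * Real.cosh b) := by
    rw [← Real.log_mul (by positivity) (by positivity)]
    congr 1; ring
  rw [h3, Real.tanh_eq_sinh_div_cosh, Real.tanh_eq_sinh_div_cosh, Real.sinh_sub, Real.sinh_add]
  field_simp
  ring

end Edge

open Edge AZero

theorem WW_eq (E D : ℝ) :
    WW E D = (Real.cosh E + Real.cosh D)
      * (ent (Real.sinh D / (Real.cosh E + Real.cosh D))
        - w0 (Real.sinh D / (Real.cosh E + Real.cosh D)) (Real.sinh E / (Real.cosh E + Real.cosh D)))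
      := by
  rw [ent_sub_w0, s_add_d, s_sub_d, ent_tanh, ent_tanh, WW_om]

theorem WW_pos {E D : ℝ} (hE : 0 < E) : 0 < WW E D := by
  have _ := hE
  rw [WW_om]
  have := PP_pos E D
  have := om_pos ((D + E) / 2)
  have := om_pos ((D - E) / 2)
  positivity

namespace Edge

/-- `sin D / P`. -/
noncomputable def ss (E D : ℝ) : ℝ := Real.sinh D / (Real.cosh E + Real.cosh D)

noncomputable def dd (E D : ℝ) : ℝ := Real.sinh E / (Real.cosh E + Real.cosh D)

theorem hasDerivAt_ss (E D : ℝ) :
    HasDerivAt (ss E) ((1 + Real.cosh E * Real.cosh D) / (Real.cosh E + Real.cosh D) ^ 2) D := by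
  have h := PP_pos E D
  have e1 : HasDerivAt (fun D => Real.cosh E + Real.cosh D) (Real.sinh D) D :=
    (Real.hasDerivAt_cosh D).const_add _
  refine ((Real.hasDerivAt_sinh D).fun_div e1 h.ne').congr_deriv ?_
  congr 1
  have := Real.cosh_sq D
  linear_combination this

theorem ss_nonneg {E D : ℝ} (hD : 0 ≤ D) : 0 ≤ ss E D := by
  have := PP_pos E D
  have := Real.sinh_nonneg_iff.2 hD
  unfold ss; positivity

theorem ss_lt_one (E D : ℝ) : ss E D < 1 := by
  unfold ss
  rw [div_lt_one (PP_pos E D)]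
  have := Real.cosh_pos E
  have := Real.sinh_lt_cosh D
  linarith

theorem neg_one_lt_ss (E D : ℝ) : -1 < ss E D := by
  unfold ss
  rw [lt_div_iff₀ (PP_pos E D)]
  have h1 := Real.cosh_pos E
  have h2 := Real.sinh_lt_cosh (-D)
  rw [Real.sinh_neg, Real.cosh_neg] at h2
  linarith

/-- General monotonicity: `P G(s)` is nondecreasing in `D ≥ 0`. -/
theorem mono_PG (E : ℝ) {G G' : ℝ → ℝ} (hG : ∀ x, 0 ≤ x → x < 1 → HasDerivAt G (G' x) x)
    (hpos : ∀ x, 0 ≤ x → x < 1 → 0 ≤ G x)
    (hder : ∀ x, 0 ≤ x → x < 1 → 0 ≤ G' x * (1 - x ^ 2) + 2 * x * G x) {D : ℝ} (hD : 0 ≤ D) :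
    (Real.cosh E + Real.cosh 0) * G (ss E 0) ≤ (Real.cosh E + Real.cosh D) * G (ss E D) := by
  have hd : ∀ x ∈ Icc 0 D, HasDerivAt (fun D => (Real.cosh E + Real.cosh D) * G (ss E D))
      (Real.sinh x * G (ss E x) + (Real.cosh E + Real.cosh x) * (G' (ss E x) *
        ((1 + Real.cosh E * Real.cosh x) / (Real.cosh E + Real.cosh x) ^ 2))) x := by
    intro x hx
    have e1 : HasDerivAt (fun D => Real.cosh E + Real.cosh D) (Real.sinh x) x :=
      (Real.hasDerivAt_cosh x).const_add _
    exact e1.mul ((hG _ (ss_nonneg hx.1) (ss_lt_one E x)).comp x (hasDerivAt_ss E x))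
  have := nonneg_of_deriv
    (f := fun D => (Real.cosh E + Real.cosh D) * G (ss E D) -
      (Real.cosh E + Real.cosh 0) * G (ss E 0)) (b := D)
    (fun x hx => ((hd x hx).sub_const _).continuousAt.continuousWithinAt)
    (by simp)
    (fun x hx => (hd x (Ioo_subset_Icc_self hx)).sub_const _)
    (fun x hx => by
      have hx' : x ∈ Icc 0 D := Ioo_subset_Icc_self hx
      have hP := PP_pos E x
      have hs0 := ss_nonneg (E := E) hx'.1
      have hs1 := ss_lt_one E x
      have h1 := hpos _ hs0 hs1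
      have h2 := hder _ hs0 hs1
      set s := ss E x with hs
      have e1 : Real.sinh x = (Real.cosh E + Real.cosh x) * s := by
        rw [hs]; unfold ss; field_simp
      have e2 : (1 + Real.cosh E * Real.cosh x) / (Real.cosh E + Real.cosh x) ^ 2 =
          (1 - s ^ 2 - (Real.sinh E / (Real.cosh E + Real.cosh x)) ^ 2) / 2 := by
        rw [hs]; unfold ss
        field_simp
        have := Real.cosh_sq x
        have := Real.cosh_sq E
        nlinarith
      have e3 : 0 ≤ (1 + Real.cosh E * Real.cosh x) / (Real.cosh E + Real.cosh x) ^ 2 := by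
        have := Real.cosh_pos E; have := Real.cosh_pos x; positivity
      have e4 : (1 + Real.cosh E * Real.cosh x) / (Real.cosh E + Real.cosh x) ^ 2 ≤
          (1 - s ^ 2) / 2 := by
        rw [e2]; nlinarith [sq_nonneg (Real.sinh E / (Real.cosh E + Real.cosh x))]
      have key : 0 ≤ s * G s + G' s *
          ((1 + Real.cosh E * Real.cosh x) / (Real.cosh E + Real.cosh x) ^ 2) := by
        rcases le_total 0 (G' s) with h | h
        · have := mul_nonneg hs0 h1
          have := mul_nonneg h e3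
          linarith
        · have := mul_le_mul_of_nonpos_left e4 h
          nlinarith
      have := mul_nonneg hP.le key
      rw [e1]
      nlinarith) (x := D) ⟨hD, le_rfl⟩
  simpa using this

/-- `g t = t log t`. -/
noncomputable def gg (t : ℝ) : ℝ := t * Real.log t

theorem hasDerivAt_gg {t : ℝ} (ht : 0 < t) : HasDerivAt gg (Real.log t + 1) t := by
  have := (hasDerivAt_id t).mul (Real.hasDerivAt_log ht.ne')
  refine this.congr_deriv ?_
  simp [mul_inv_cancel₀ ht.ne']

noncomputable def JJ (E x : ℝ) : ℝ :=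
  gg (x + Real.exp E) + gg (x + Real.exp (-E)) - 2 * gg (x + Real.cosh E)

theorem hasDerivAt_JJ (E : ℝ) {x : ℝ} (hx : 0 < x) :
    HasDerivAt (JJ E) (-Real.log (1 + Real.sinh E ^ 2 / (1 + 2 * Real.cosh E * x + x ^ 2))) x := by
  have h1 := Real.exp_pos E
  have h2 := Real.exp_pos (-E)
  have h3 := Real.cosh_pos E
  have e : ∀ c : ℝ, 0 < c → HasDerivAt (fun x => gg (x + c)) (Real.log (x + c) + 1) x := by
    intro c hc
    have h := (hasDerivAt_gg (show 0 < x + c by linarith)).comp_add_const x c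
    exact h
  refine (((e _ h1).add (e _ h2)).sub ((e _ h3).const_mul 2)).congr_deriv ?_
  have hC : Real.cosh E = (Real.exp E + Real.exp (-E)) / 2 := Real.cosh_eq E
  have hS : Real.sinh E = (Real.exp E - Real.exp (-E)) / 2 := Real.sinh_eq E
  have hee : Real.exp E * Real.exp (-E) = 1 := by rw [← Real.exp_add]; simp
  have hq : 0 < 1 + 2 * Real.cosh E * x + x ^ 2 := by positivity
  have e1 : (x + Real.exp E) * (x + Real.exp (-E)) = 1 + 2 * Real.cosh E * x + x ^ 2 := by
    rw [hC]; linear_combination hee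
  have e2 : 1 + Real.sinh E ^ 2 / (1 + 2 * Real.cosh E * x + x ^ 2) =
      (x + Real.cosh E) ^ 2 / ((x + Real.exp E) * (x + Real.exp (-E))) := by
    rw [e1]
    field_simp
    have := Real.cosh_sq E
    linear_combination (-1 : ℝ) * this
  rw [e2, Real.log_div (by positivity) (by positivity), Real.log_mul (by positivity) (by positivity),
    Real.log_pow]
  push_cast
  ring

theorem bernoulli_log {α X : ℝ} (hα : 0 ≤ α) (hX : 1 ≤ X) :
    Real.log (1 + α * X ^ 2) ≤ X ^ 2 * Real.log (1 + α) := by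
  have h1 : 1 ≤ X ^ 2 := by nlinarith
  have h := one_add_mul_self_le_rpow_one_add (show -1 ≤ α by linarith) h1
  have h2 : Real.log (1 + X ^ 2 * α) ≤ Real.log ((1 + α) ^ (X ^ 2 : ℝ)) :=
    Real.log_le_log (by positivity) h
  rw [Real.log_rpow (by positivity)] at h2
  rwa [mul_comm α]

/-- `4 P w0`. -/
theorem four_P_w0 (E D : ℝ) :
    4 * ((Real.cosh E + Real.cosh D) * w0 (Real.sinh D / (Real.cosh E + Real.cosh D))
      (Real.sinh E / (Real.cosh E + Real.cosh D))) = JJ E (Real.exp D) + JJ E (Real.exp (-D)) := by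
  have hP := PP_pos E D
  set P := Real.cosh E + Real.cosh D with hPdef
  have h1 := Real.exp_pos E
  have h2 := Real.exp_pos (-E)
  have h3 := Real.exp_pos D
  have h4 := Real.exp_pos (-D)
  have h5 := Real.cosh_pos E
  have hC : Real.cosh E = (Real.exp E + Real.exp (-E)) / 2 := Real.cosh_eq E
  have hS : Real.sinh E = (Real.exp E - Real.exp (-E)) / 2 := Real.sinh_eq E
  have hC' : Real.cosh D = (Real.exp D + Real.exp (-D)) / 2 := Real.cosh_eq D
  have hS' : Real.sinh D = (Real.exp D - Real.exp (-D)) / 2 := Real.sinh_eq D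
  have a1 : 1 + (Real.sinh D / P + Real.sinh E / P) = (Real.exp D + Real.exp E) / P := by
    field_simp; rw [hPdef, hC, hC', hS, hS']; ring
  have a2 : 1 - (Real.sinh D / P + Real.sinh E / P) = (Real.exp (-D) + Real.exp (-E)) / P := by
    field_simp; rw [hPdef, hC, hC', hS, hS']; ring
  have a3 : 1 + (Real.sinh D / P - Real.sinh E / P) = (Real.exp D + Real.exp (-E)) / P := by
    field_simp; rw [hPdef, hC, hC', hS, hS']; ring
  have a4 : 1 - (Real.sinh D / P - Real.sinh E / P) = (Real.exp (-D) + Real.exp E) / P := by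
    field_simp; rw [hPdef, hC, hC', hS, hS']; ring
  have a5 : 1 + Real.sinh D / P = (Real.exp D + Real.cosh E) / P := by
    field_simp; rw [hPdef, hC', hS']; ring
  have a6 : 1 - Real.sinh D / P = (Real.exp (-D) + Real.cosh E) / P := by
    field_simp; rw [hPdef, hC', hS']; ring
  unfold w0 phi JJ gg
  rw [a1, a2, a3, a4, a5, a6]
  rw [Real.log_div (by positivity) hP.ne', Real.log_div (by positivity) hP.ne',
    Real.log_div (by positivity) hP.ne', Real.log_div (by positivity) hP.ne',
    Real.log_div (by positivity) hP.ne', Real.log_div (by positivity) hP.ne']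
  field_simp
  rw [hC]
  ring

theorem anti_Pw (E : ℝ) {D : ℝ} (hD : 0 ≤ D) :
    (Real.cosh E + Real.cosh D) * w0 (Real.sinh D / (Real.cosh E + Real.cosh D))
      (Real.sinh E / (Real.cosh E + Real.cosh D)) ≤
    (Real.cosh E + Real.cosh 0) * w0 (Real.sinh 0 / (Real.cosh E + Real.cosh 0))
      (Real.sinh E / (Real.cosh E + Real.cosh 0)) := by
  have hd : ∀ x ∈ Icc 0 D, HasDerivAt (fun D => JJ E (Real.exp D) + JJ E (Real.exp (-D)))
      (-Real.log (1 + Real.sinh E ^ 2 / (1 + 2 * Real.cosh E * Real.exp x + Real.exp x ^ 2))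
        * Real.exp x +
       (-Real.log (1 + Real.sinh E ^ 2 / (1 + 2 * Real.cosh E * Real.exp (-x) + Real.exp (-x) ^ 2)))
        * (-Real.exp (-x))) x := by
    intro x hx
    have e1 : HasDerivAt (fun x => Real.exp (-x)) (-Real.exp (-x)) x := by
      simpa using (hasDerivAt_id x).neg.exp
    have e2 := HasDerivAt.comp (h₂ := JJ E) (h := fun x => Real.exp (-x)) x
      (hasDerivAt_JJ E (Real.exp_pos (-x))) e1
    have e3 := HasDerivAt.comp (h₂ := JJ E) (h := Real.exp) x
      (hasDerivAt_JJ E (Real.exp_pos x)) (Real.hasDerivAt_exp x)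
    exact e3.add e2
  have := nonneg_of_deriv
    (f := fun D => (JJ E (Real.exp 0) + JJ E (Real.exp (-0))) -
      (JJ E (Real.exp D) + JJ E (Real.exp (-D)))) (b := D)
    (fun x hx => ((hd x hx).const_sub _).continuousAt.continuousWithinAt)
    (by simp)
    (fun x hx => (hd x (Ioo_subset_Icc_self hx)).const_sub _)
    (fun x hx => by
      have hX : 1 ≤ Real.exp x := Real.one_le_exp hx.1.le
      have hXp := Real.exp_pos x
      have hC := Real.cosh_pos E
      set X := Real.exp x with hXdef
      have hXm : Real.exp (-x) = 1 / X := by rw [Real.exp_neg, one_div]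
      rw [hXm]
      have e1 : Real.sinh E ^ 2 / (1 + 2 * Real.cosh E * (1 / X) + (1 / X) ^ 2) =
          Real.sinh E ^ 2 / (1 + 2 * Real.cosh E * X + X ^ 2) * X ^ 2 := by
        field_simp
        ring
      rw [e1]
      set α := Real.sinh E ^ 2 / (1 + 2 * Real.cosh E * X + X ^ 2) with hα
      have hα0 : 0 ≤ α := by positivity
      have hb := bernoulli_log hα0 hX
      have : (1 / X) * (X ^ 2 * Real.log (1 + α)) = X * Real.log (1 + α) := by
        field_simp
      have h2 : (1 / X) * Real.log (1 + α * X ^ 2) ≤ (1 / X) * (X ^ 2 * Real.log (1 + α)) :=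
        mul_le_mul_of_nonneg_left hb (by positivity)
      rw [this] at h2
      linarith) (x := D) ⟨hD, le_rfl⟩
  have h1 := four_P_w0 E D
  have h2 := four_P_w0 E 0
  have h3 : JJ E (Real.exp D) + JJ E (Real.exp (-D)) ≤ JJ E (Real.exp 0) + JJ E (Real.exp (-0)) :=
    sub_nonneg.1 this
  rw [← h1, ← h2] at h3
  exact le_of_mul_le_mul_left h3 (by norm_num)

end Edge

theorem edge {E D z : ℝ} (hE : 0 < E) (hD : 0 ≤ D) (hz : 0 ≤ z) :
    (Real.cosh E + Real.cosh D) * vv (Real.sinh D / (Real.cosh E + Real.cosh D)) * GG z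
        - mu z * WW E D
      ≤ E * Real.sinh E / 2 - 2 * ((Real.cosh E + Real.cosh D)
        * w0 (Real.sinh D / (Real.cosh E + Real.cosh D))
            (Real.sinh E / (Real.cosh E + Real.cosh D))) := by
  have hmu := mu_nonneg hz
  have hGG := GG_le hz
  have hl := log2_pos
  -- vv part
  have hv := mono_PG E (G := vv) (G' := fun x => -2 * x * (1 + cc * x ^ 2) + (1 - x ^ 2) * (2 * cc * x))
    (fun x _ _ => by
      have e1 : HasDerivAt (fun x : ℝ => 1 - x ^ 2) (-(2 * x)) x := by
        simpa using (hasDerivAt_pow 2 x).const_sub 1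
      have e2 : HasDerivAt (fun x : ℝ => 1 + cc * x ^ 2) (cc * (2 * x)) x := by
        simpa using ((hasDerivAt_pow 2 x).const_mul cc).const_add 1
      exact (e1.mul e2).congr_deriv (by ring))
    (fun x h0 h1 => by
      have := cc_pos
      have : 0 < 1 - x ^ 2 := by nlinarith
      unfold vv; positivity)
    (fun x h0 h1 => by
      have := cc_pos
      have : (-2 * x * (1 + cc * x ^ 2) + (1 - x ^ 2) * (2 * cc * x)) * (1 - x ^ 2) + 2 * x * vv x
        = 2 * cc * x * (1 - x ^ 2) ^ 2 := by unfold vv; ring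
      rw [this]; positivity) hD
  have hA := mono_PG E (G := fun x => ent x - vv x * Real.log 2)
    (G' := fun x => -ath x - (-2 * x * (1 + cc * x ^ 2) + (1 - x ^ 2) * (2 * cc * x)) * Real.log 2)
    (fun x h0 h1 => by
      have e1 : HasDerivAt (fun x : ℝ => 1 - x ^ 2) (-(2 * x)) x := by
        simpa using (hasDerivAt_pow 2 x).const_sub 1
      have e2 : HasDerivAt (fun x : ℝ => 1 + cc * x ^ 2) (cc * (2 * x)) x := by
        simpa using ((hasDerivAt_pow 2 x).const_mul cc).const_add 1
      have e3 : HasDerivAt vv (-2 * x * (1 + cc * x ^ 2) + (1 - x ^ 2) * (2 * cc * x)) x :=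
        (e1.mul e2).congr_deriv (by ring)
      have e4 : HasDerivAt ent (-ath x) x :=
        (AZero.hasDerivAt_phi (by linarith) h1).const_sub _
      exact e4.sub (e3.mul_const _))
    (fun x h0 h1 => by
      have := vv_le_ent (m := x) (by rw [abs_of_nonneg h0]; exact h1.le)
      linarith)
    (fun x h0 h1 => by
      have h := A0_deriv h0 h1
      have hc := cc_mul
      have e : (-ath x - (-2 * x * (1 + cc * x ^ 2) + (1 - x ^ 2) * (2 * cc * x)) * Real.log 2)
          * (1 - x ^ 2) + 2 * x * (ent x - vv x * Real.log 2)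
          = (2 * x * ent x - (1 - x ^ 2) * ath x) - (2 * Real.log 2 - 1) * x * (1 - x ^ 2) ^ 2 := by
        unfold vv
        linear_combination (-2 * x * (1 - x ^ 2) ^ 2) * hc
      rw [e]; linarith) hD
  have hw := anti_Pw E hD
  have hs0 : ss E 0 = 0 := by simp [ss]
  rw [hs0] at hv hA
  -- value at 0
  have ht := tangent (e := E / 2) (z := z) (by linarith) hz
  have hτ : Real.sinh E / (Real.cosh E + Real.cosh 0) = Real.tanh (E / 2) := by
    have := s_add_d E 0
    simpa using this
  rw [hτ] at hw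
  have hw0 : w0 (Real.sinh 0 / (Real.cosh E + Real.cosh 0)) (Real.tanh (E / 2)) =
      phi (Real.tanh (E / 2)) := by
    unfold w0
    simp only [Real.sinh_zero, zero_div, zero_add, zero_sub, phi_neg, phi_zero]
    ring
  rw [hw0] at hw
  have hv0 : vv 0 = 1 := by simp [vv]
  have he0 : ent 0 = Real.log 2 := by simp [ent, phi_zero]
  simp only [hv0, he0] at hv hA
  rw [WW_eq]
  have hP0 := PP_pos E 0
  have hS : Real.sinh E = (Real.cosh E + Real.cosh 0) * Real.tanh (E / 2) := by
    rw [← hτ]; field_simp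
  have ht' := mul_le_mul_of_nonneg_left ht hP0.le
  set P := Real.cosh E + Real.cosh D
  set s := Real.sinh D / P with hs
  set d := Real.sinh E / P
  have hss : ss E D = s := rfl
  rw [hss] at hv hA
  set P0 := Real.cosh E + Real.cosh 0
  set τ := Real.tanh (E / 2)
  have h1 : 0 ≤ (2 + mu z) * (P0 * phi τ - P * w0 s d) := mul_nonneg (by linarith) (by linarith)
  have h2 : 0 ≤ mu z * (P * (ent s - vv s * Real.log 2)) :=
    mul_nonneg hmu (by linarith)
  have h3 : 0 ≤ (mu z * Real.log 2 - GG z) * (P * vv s - P0 * 1) :=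
    mul_nonneg (by linarith) (by linarith)
  have h4 : E * Real.sinh E / 2 = P0 * (E / 2 * τ) := by rw [hS]; ring
  rw [h4]
  nlinarith

end Vale.Agent.P322
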