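import Vale.Agent.P322.OneVar

/-! Module F: the inverse `Zi` of `om` and the function `FF`. -/

namespace Vale.Agent.P322
open Real

theorem Zi_nonneg (x : ℝ) : 0 ≤ Zi x := by
  unfold Zi
  apply Real.sInf_nonneg
  intro z hz
  exact hz.1

theorem Zi_le_of_mem {x z : ℝ} (hz : 0 ≤ z) (h : om z ≤ x) : Zi x ≤ z := by
  unfold Zi
  exact csInf_le ⟨0, fun w hw => hw.1⟩ ⟨hz, h⟩

theorem Zi_of_ge {x : ℝ} (hx : Real.log 2 ≤ x) : Zi x = 0 := by
  apply le_antisymm _ (Zi_nonneg x)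
  apply Zi_le_of_mem le_rfl
  rw [om_zero]; exact hx

theorem exists_om_lt {x : ℝ} (hx : 0 < x) : ∃ b : ℝ, 0 ≤ b ∧ om b < x := by
  have h := om_tendsto.eventually (gt_mem_nhds hx)
  obtain ⟨b, hb, hb'⟩ := (h.and (Filter.eventually_ge_atTop 0)).exists
  exact ⟨b, hb', hb⟩

theorem Zi_om {z : ℝ} (hz : 0 ≤ z) : Zi (om z) = z := by
  apply le_antisymm (Zi_le_of_mem hz le_rfl)
  unfold Zi
  have hne : {w : ℝ | 0 ≤ w ∧ om w ≤ om z}.Nonempty := ⟨z, hz, le_rfl⟩
  apply le_csInf hne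
  rintro w ⟨hw, hw2⟩
  by_contra hc
  push Not at hc
  have := om_strictAntiOn hw hz hc
  linarith

theorem exists_om_eq {x : ℝ} (hx : 0 < x) (hx2 : x ≤ Real.log 2) : ∃ z : ℝ, 0 ≤ z ∧ om z = x := by
  obtain ⟨b, hb, hb'⟩ := exists_om_lt hx
  have h := intermediate_value_Icc' hb om_continuous.continuousOn
  obtain ⟨z, hz, hz'⟩ := h (show x ∈ Set.Icc (om b) (om 0) from ⟨hb'.le, by rw [om_zero]; exact hx2⟩)
  exact ⟨z, hz.1, hz'⟩

theorem om_Zi {x : ℝ} (hx : 0 < x) (hx2 : x ≤ Real.log 2) : om (Zi x) = x := by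
  obtain ⟨z, hz, rfl⟩ := exists_om_eq hx hx2
  rw [Zi_om hz]

theorem om_Zi_le {x : ℝ} (hx : 0 < x) : om (Zi x) ≤ x := by
  rcases le_total x (Real.log 2) with h | h
  · exact (om_Zi hx h).le
  · rw [Zi_of_ge h, om_zero]; exact h

theorem om_Zi_of_pos {x : ℝ} (hx : 0 < x) (h : 0 < Zi x) : om (Zi x) = x := by
  rcases le_total x (Real.log 2) with h' | h'
  · exact om_Zi hx h'
  · rw [Zi_of_ge h'] at h; exact absurd h (lt_irrefl 0)

theorem Zi_antitoneOn : AntitoneOn Zi (Set.Ioi 0) := by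
  intro x hx x' hx' hle
  exact Zi_le_of_mem (Zi_nonneg x) ((om_Zi_le hx).trans hle)

theorem Zi_continuousOn : ContinuousOn Zi (Set.Ioi 0) := by
  intro x0 hx0
  have hx0' : (0 : ℝ) < x0 := hx0
  apply ContinuousAt.continuousWithinAt
  rw [Metric.continuousAt_iff']
  intro ε hε
  set z0 := Zi x0 with hz0
  have hz0n : 0 ≤ z0 := Zi_nonneg x0
  -- upper side
  have h1 : om (z0 + ε / 2) < x0 := by
    have := om_strictAntiOn (show z0 ∈ Set.Ici 0 from hz0n)
      (show z0 + ε / 2 ∈ Set.Ici (0 : ℝ) by simp only [Set.mem_Ici]; linarith) (by linarith)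
    exact lt_of_lt_of_le this (om_Zi_le hx0')
  have e1 : ∀ᶠ x in nhds x0, om (z0 + ε / 2) < x := lt_mem_nhds h1
  have e0 : ∀ᶠ x in nhds x0, 0 < x := lt_mem_nhds hx0'
  have e2 : ∀ᶠ x in nhds x0, z0 - ε / 2 ≤ Zi x := by
    rcases lt_or_ge (z0 - ε / 2) 0 with hneg | hpos
    · filter_upwards with x
      exact hneg.le.trans (Zi_nonneg x)
    · have hz0p : 0 < z0 := by linarith
      have heq : om z0 = x0 := om_Zi_of_pos hx0' hz0p
      have h2 : x0 < om (z0 - ε / 2) := by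
        rw [← heq]
        exact om_strictAntiOn (show z0 - ε / 2 ∈ Set.Ici 0 from hpos)
          (show z0 ∈ Set.Ici 0 from hz0n) (by linarith)
      filter_upwards [gt_mem_nhds h2, e0] with x hx hxp
      by_contra hc
      push Not at hc
      have h3 := om_strictAntiOn (show Zi x ∈ Set.Ici 0 from Zi_nonneg x)
        (show z0 - ε / 2 ∈ Set.Ici 0 from hpos) hc
      have h4 := om_Zi_le hxp
      linarith
  filter_upwards [e1, e2] with x hx1 hx2
  have h5 : Zi x ≤ z0 + ε / 2 := Zi_le_of_mem (by linarith) hx1.le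
  rw [Real.dist_eq, abs_lt]
  constructor <;> linarith

theorem psi_deriv {y N z : ℝ} (hz : 0 < z) :
    HasDerivAt (fun z => y * GG z - mu z * N)
      ((2 * z * Real.cosh (2 * z) - Real.sinh (2 * z)) / (2 * z ^ 2) * (y * om z - N)) z :=
  (((hasDerivAt_GG hz).const_mul y).sub ((hasDerivAt_mu hz).mul_const N)).congr_deriv (by ring)

theorem psi_cont (y N : ℝ) : ContinuousOn (fun z => y * GG z - mu z * N) (Set.Ici 0) :=
  (GG_continuousOn.const_smul y).sub (mu_continuousOn.mul continuousOn_const)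

theorem le_FF {y N z : ℝ} (hy : 0 < y) (hN : 0 < N) (hz : 0 ≤ z) :
    y * GG z - mu z * N ≤ FF y N := by
  have hNy : 0 < N / y := by positivity
  set z1 := Zi (N / y) with hz1
  have hz1n : 0 ≤ z1 := Zi_nonneg _
  have hFF : FF y N = y * GG z1 - mu z1 * N := rfl
  rw [hFF]
  rcases le_total z z1 with h | h
  · have hm : MonotoneOn (fun z => y * GG z - mu z * N) (Set.Icc 0 z1) := by
      apply monotoneOn_of_deriv_nonneg (convex_Icc 0 z1)
      · exact (psi_cont y N).mono Set.Icc_subset_Ici_self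
      · intro w hw
        rw [interior_Icc] at hw
        exact (psi_deriv hw.1).differentiableAt.differentiableWithinAt
      · intro w hw
        rw [interior_Icc] at hw
        rw [(psi_deriv hw.1).deriv]
        apply mul_nonneg (dmu_pos hw.1).le
        have h1 : om z1 = N / y := om_Zi_of_pos hNy (hw.1.trans hw.2)
        have h2 := om_strictAntiOn (show w ∈ Set.Ici 0 from hw.1.le)
          (show z1 ∈ Set.Ici 0 from hz1n) hw.2
        rw [h1, div_lt_iff₀ hy] at h2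
        linarith
    exact hm ⟨hz, h⟩ ⟨hz1n, le_rfl⟩ h
  · have hm : AntitoneOn (fun z => y * GG z - mu z * N) (Set.Ici z1) := by
      apply antitoneOn_of_deriv_nonpos (convex_Ici z1)
      · exact (psi_cont y N).mono (Set.Ici_subset_Ici.mpr hz1n)
      · intro w hw
        rw [interior_Ici] at hw
        exact (psi_deriv (lt_of_le_of_lt hz1n hw)).differentiableAt.differentiableWithinAt
      · intro w hw
        rw [interior_Ici] at hw
        have hw0 : 0 < w := lt_of_le_of_lt hz1n hw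
        rw [(psi_deriv hw0).deriv]
        apply mul_nonpos_of_nonneg_of_nonpos (dmu_pos hw0).le
        have h1 : om z1 ≤ N / y := om_Zi_le hNy
        have h2 := om_strictAntiOn (show z1 ∈ Set.Ici 0 from hz1n)
          (show w ∈ Set.Ici 0 from hw0.le) hw
        have h3 : om w < N / y := lt_of_lt_of_le h2 h1
        rw [lt_div_iff₀ hy] at h3
        linarith
    exact hm (Set.self_mem_Ici) (show z ∈ Set.Ici z1 from h) h

theorem FF_nonneg {y N : ℝ} (hy : 0 < y) (hN : 0 < N) : 0 ≤ FF y N := by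
  have h := le_FF hy hN (le_refl (0 : ℝ))
  rw [GG_zero, mu_zero] at h
  simpa using h

theorem FF_eq_zero {y N : ℝ} (hy : 0 < y) (h : y * Real.log 2 ≤ N) : FF y N = 0 := by
  have h1 : Real.log 2 ≤ N / y := by
    rw [le_div_iff₀ hy]; linarith
  unfold FF
  rw [Zi_of_ge h1, GG_zero, mu_zero]
  ring

/-- envelope theorem: from `le_FF` and continuity of `GG ∘ Zi`. -/
theorem hasDerivAt_FF {y N : ℝ} (hy : 0 < y) (hN : 0 < N) :
    HasDerivAt (fun y => FF y N) (GG (Zi (N / y))) y := by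
  have hcont : ContinuousAt (fun y => GG (Zi (N / y))) y := by
    have h1 : ContinuousAt (fun y : ℝ => N / y) y := continuousAt_const.div continuousAt_id hy.ne'
    have hNy : 0 < N / y := by positivity
    have h2 : ContinuousAt Zi (N / y) := Zi_continuousOn.continuousAt (Ioi_mem_nhds hNy)
    have h3 : ContinuousAt (fun y : ℝ => Zi (N / y)) y :=
      ContinuousAt.comp (f := fun y : ℝ => N / y) (g := Zi) h2 h1
    have h4 : ContinuousWithinAt GG (Set.Ici 0) (Zi (N / y)) := GG_continuousOn _ (Zi_nonneg _)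
    have h5 : Filter.Tendsto (fun y : ℝ => Zi (N / y)) (nhds y)
        (nhdsWithin (Zi (N / y)) (Set.Ici 0)) := by
      rw [tendsto_nhdsWithin_iff]
      exact ⟨h3, Filter.Eventually.of_forall fun x => Zi_nonneg _⟩
    exact h4.tendsto.comp h5
  rw [hasDerivAt_iff_isLittleO]
  rw [Asymptotics.isLittleO_iff]
  intro c hc
  rw [Metric.continuousAt_iff'] at hcont
  filter_upwards [hcont c hc, lt_mem_nhds hy] with y' h1 hy'
  rw [Real.dist_eq] at h1
  have a1 := le_FF hy' hN (Zi_nonneg (N / y))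
  have a2 := le_FF hy hN (Zi_nonneg (N / y'))
  have b1 : FF y N = y * GG (Zi (N / y)) - mu (Zi (N / y)) * N := rfl
  have b2 : FF y' N = y' * GG (Zi (N / y')) - mu (Zi (N / y')) * N := rfl
  have c1 : 0 ≤ FF y' N - FF y N - (y' - y) * GG (Zi (N / y)) := by linarith
  have c2 : FF y' N - FF y N - (y' - y) * GG (Zi (N / y))
      ≤ (y' - y) * (GG (Zi (N / y')) - GG (Zi (N / y))) := by linarith
  rw [smul_eq_mul, Real.norm_eq_abs, Real.norm_eq_abs, abs_of_nonneg c1]
  refine c2.trans ((le_abs_self _).trans ?_)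
  rw [abs_mul, mul_comm]
  exact mul_le_mul_of_nonneg_right h1.le (abs_nonneg _)

theorem FF_cross {v vbar ν ν0 : ℝ} (h0 : 0 < vbar) (h1 : vbar ≤ v) (h2 : 0 < ν0) (h3 : ν0 ≤ ν) :
    FF v ν - FF vbar ν ≤ FF v ν0 - FF vbar ν0 := by
  have hv : 0 < v := lt_of_lt_of_le h0 h1
  have hν : 0 < ν := lt_of_lt_of_le h2 h3
  rcases le_total (Zi (ν0 / vbar)) (Zi (ν / v)) with h | h
  · have a1 := le_FF hv h2 (Zi_nonneg (ν / v))
    have b1 : FF v ν = v * GG (Zi (ν / v)) - mu (Zi (ν / v)) * ν := rfl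
    have a2 := le_FF h0 hν (Zi_nonneg (ν0 / vbar))
    have b2 : FF vbar ν0 = vbar * GG (Zi (ν0 / vbar)) - mu (Zi (ν0 / vbar)) * ν0 := rfl
    have hmu := mu_monotoneOn (show Zi (ν0 / vbar) ∈ Set.Ici 0 from Zi_nonneg _)
      (show Zi (ν / v) ∈ Set.Ici 0 from Zi_nonneg _) h
    nlinarith [mul_nonneg (sub_nonneg.mpr hmu) (sub_nonneg.mpr h3)]
  · have a1 := le_FF h0 hν (Zi_nonneg (ν / v))
    have b1 : FF v ν = v * GG (Zi (ν / v)) - mu (Zi (ν / v)) * ν := rfl
    have a2 := le_FF hv h2 (Zi_nonneg (ν0 / vbar))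
    have b2 : FF vbar ν0 = vbar * GG (Zi (ν0 / vbar)) - mu (Zi (ν0 / vbar)) * ν0 := rfl
    have hG := GG_monotoneOn (show Zi (ν / v) ∈ Set.Ici 0 from Zi_nonneg _)
      (show Zi (ν0 / vbar) ∈ Set.Ici 0 from Zi_nonneg _) h
    nlinarith [mul_nonneg (sub_nonneg.mpr hG) (sub_nonneg.mpr h1)]

theorem FF_scale {V y N : ℝ} (hV : 0 < V) : FF (V * y) (V * N) = V * FF y N := by
  unfold FF
  rw [mul_div_mul_left _ _ hV.ne']
  ring

end Vale.Agent.P322
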