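import Vale.Agent.P322.CubeDefs

/-! Module I: the noise operator. -/

namespace Vale.Agent.P322
open Real

namespace NoiseAux

/-- the noise kernel. -/
noncomputable def ker {n : ℕ} (ρ : ℝ) (x y : Cube n) : ℝ :=
  ∏ i, (1 + ρ * sg (x i) * sg (y i)) / 2

theorem TT_eq {n : ℕ} (ρ : ℝ) (f : Cube n → ℝ) (x : Cube n) :
    TT ρ f x = ∑ y, ker ρ x y * f y := rfl

theorem sg_one : sg 1 = 1 := by simp [sg]

theorem sg_neg (u : ℤˣ) : sg (-u) = -sg u := by simp [sg]

theorem sg_cases (u : ℤˣ) : sg u = 1 ∨ sg u = -1 := by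
  rcases Int.units_eq_one_or u with rfl | rfl
  · left; simp [sg]
  · right; simp [sg]

theorem sg_mul_self (u : ℤˣ) : sg u * sg u = 1 := by
  rcases sg_cases u with h | h <;> rw [h] <;> norm_num

theorem ker_one {n : ℕ} (x y : Cube n) : ker 1 x y = if y = x then 1 else 0 := by
  unfold ker
  split_ifs with h
  · subst h
    apply Finset.prod_eq_one
    intro i _
    rw [one_mul, sg_mul_self]; norm_num
  · have : ∃ i, y i ≠ x i := by
      by_contra hc
      push Not at hc
      exact h (funext hc)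
    obtain ⟨i, hi⟩ := this
    apply Finset.prod_eq_zero (Finset.mem_univ i)
    have h1 : x i = -y i := by
      rcases Int.units_eq_one_or (x i) with h1 | h1 <;>
      rcases Int.units_eq_one_or (y i) with h2 | h2
      · exact absurd (h2.trans h1.symm) hi
      · rw [h1, h2]; simp
      · rw [h1, h2]
      · exact absurd (h2.trans h1.symm) hi
    rw [h1, sg_neg, one_mul, neg_mul, sg_mul_self]
    norm_num

theorem TT_one {n : ℕ} (f : Cube n → ℝ) (x : Cube n) : TT 1 f x = f x := by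
  rw [TT_eq]
  simp_rw [ker_one]
  simp

theorem sum_units (g : ℤˣ → ℝ) : ∑ u, g u = g 1 + g (-1) := by
  have : (Finset.univ : Finset ℤˣ) = {1, -1} := rfl
  rw [this, Finset.sum_pair (by decide)]

theorem sum_ker_right {n : ℕ} (ρ : ℝ) (x : Cube n) : ∑ y, ker ρ x y = 1 := by
  unfold ker
  have h := Finset.prod_univ_sum (fun _ : Fin n => (Finset.univ : Finset ℤˣ))
    (fun i u => (1 + ρ * sg (x i) * sg u) / 2)
  rw [Fintype.piFinset_univ] at h
  rw [← h]
  apply Finset.prod_eq_one
  intro i _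
  rw [sum_units, sg_neg, sg_one]
  ring

theorem ker_comm {n : ℕ} (ρ : ℝ) (x y : Cube n) : ker ρ x y = ker ρ y x := by
  unfold ker
  apply Finset.prod_congr rfl
  intro i _
  ring

theorem avg_TT {n : ℕ} (ρ : ℝ) (f : Cube n → ℝ) : avg (TT ρ f) = avg f := by
  unfold avg
  congr 1
  simp_rw [TT_eq]
  rw [Finset.sum_comm]
  apply Finset.sum_congr rfl
  intro y _
  rw [← Finset.sum_mul]
  simp_rw [ker_comm ρ _ y]
  rw [sum_ker_right, one_mul]

theorem ker_pos {n : ℕ} {ρ : ℝ} (h0 : 0 ≤ ρ) (h1 : ρ < 1) (x y : Cube n) : 0 < ker ρ x y := by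
  unfold ker
  apply Finset.prod_pos
  intro i _
  rcases sg_cases (x i) with h | h <;> rcases sg_cases (y i) with h' | h' <;> rw [h, h'] <;>
    linarith

theorem abs_TT_lt_one {n : ℕ} {ρ : ℝ} (h0 : 0 ≤ ρ) (h1 : ρ < 1) (f : Cube n → ℝ)
    (hf : ∀ x, f x = 1 ∨ f x = -1) (hne : ∃ x y, f x ≠ f y) (x : Cube n) :
    |TT ρ f x| < 1 := by
  have hp : ∃ y, f y = 1 := by
    obtain ⟨a, b, hab⟩ := hne
    rcases hf a with h | h
    · exact ⟨a, h⟩
    · rcases hf b with h' | h'
      · exact ⟨b, h'⟩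
      · exact absurd (h.trans h'.symm) hab
  have hm : ∃ y, f y = -1 := by
    obtain ⟨a, b, hab⟩ := hne
    rcases hf a with h | h
    · rcases hf b with h' | h'
      · exact absurd (h.trans h'.symm) hab
      · exact ⟨b, h'⟩
    · exact ⟨a, h⟩
  have e1 : 1 - TT ρ f x = ∑ y, ker ρ x y * (1 - f y) := by
    simp_rw [mul_sub, mul_one]
    rw [Finset.sum_sub_distrib, sum_ker_right, TT_eq]
  have e2 : 1 + TT ρ f x = ∑ y, ker ρ x y * (1 + f y) := by
    simp_rw [mul_add, mul_one]
    rw [Finset.sum_add_distrib, sum_ker_right, TT_eq]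
  have p1 : 0 < ∑ y, ker ρ x y * (1 - f y) := by
    obtain ⟨y0, hy0⟩ := hm
    apply Finset.sum_pos'
    · intro y _
      apply mul_nonneg (ker_pos h0 h1 x y).le
      rcases hf y with h | h <;> rw [h] <;> norm_num
    · refine ⟨y0, Finset.mem_univ _, ?_⟩
      rw [hy0]
      have := ker_pos h0 h1 x y0
      linarith
  have p2 : 0 < ∑ y, ker ρ x y * (1 + f y) := by
    obtain ⟨y0, hy0⟩ := hp
    apply Finset.sum_pos'
    · intro y _
      apply mul_nonneg (ker_pos h0 h1 x y).le
      rcases hf y with h | h <;> rw [h] <;> norm_num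
    · refine ⟨y0, Finset.mem_univ _, ?_⟩
      rw [hy0]
      have := ker_pos h0 h1 x y0
      linarith
  rw [abs_lt]
  constructor <;> linarith

theorem phi_continuous : Continuous phi := by
  unfold phi
  have h1 : Continuous (fun x : ℝ => (1 + x) * Real.log (1 + x)) :=
    Real.continuous_mul_log.comp (continuous_const.add continuous_id)
  have h2 : Continuous (fun x : ℝ => (1 - x) * Real.log (1 - x)) :=
    Real.continuous_mul_log.comp (continuous_const.sub continuous_id)
  exact (h1.add h2).div_const 2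

theorem continuous_TT {n : ℕ} (f : Cube n → ℝ) (x : Cube n) :
    Continuous (fun ρ => TT ρ f x) := by
  unfold TT
  apply continuous_finsetSum
  intro y _
  apply Continuous.mul _ continuous_const
  apply continuous_finsetProd
  intro i _
  fun_prop

theorem continuous_avg_phi_TT {n : ℕ} (f : Cube n → ℝ) :
    Continuous (fun ρ => avg (fun x => phi (TT ρ f x))) := by
  unfold avg
  apply Continuous.div_const
  apply continuous_finsetSum
  intro x _
  exact phi_continuous.comp (continuous_TT f x)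

theorem hasDerivAt_phi' {x : ℝ} (h : |x| < 1) : HasDerivAt phi (ath x) x := by
  rw [abs_lt] at h
  have h1 : (1 + x) ≠ 0 := by linarith
  have h2 : (1 - x) ≠ 0 := by linarith
  have a1 : HasDerivAt (fun x : ℝ => 1 + x) 1 x := by
    simpa using (hasDerivAt_id x).const_add 1
  have a2 : HasDerivAt (fun x : ℝ => 1 - x) (-1) x := by
    simpa using (hasDerivAt_id x).const_sub 1
  have b1 := a1.mul (a1.log h1)
  have b2 := a2.mul (a2.log h2)
  have b := (b1.add b2).div_const 2
  refine HasDerivAt.congr_deriv (f := phi) b ?_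
  unfold ath
  field_simp
  ring

theorem ker_flp {n : ℕ} (ρ : ℝ) (x y : Cube n) (i : Fin n) :
    ker ρ x y - ker ρ (flp i x) y
      = (∏ j ∈ Finset.univ.erase i, (1 + ρ * sg (x j) * sg (y j)) / 2) * (ρ * sg (x i) * sg (y i)) := by
  unfold ker
  rw [← Finset.mul_prod_erase Finset.univ _ (Finset.mem_univ i),
    ← Finset.mul_prod_erase Finset.univ (fun j => (1 + ρ * sg (flp i x j) * sg (y j)) / 2)
      (Finset.mem_univ i)]
  have h1 : flp i x i = -x i := by simp [flp]
  have h2 : ∏ j ∈ Finset.univ.erase i, (1 + ρ * sg (flp i x j) * sg (y j)) / 2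
      = ∏ j ∈ Finset.univ.erase i, (1 + ρ * sg (x j) * sg (y j)) / 2 := by
    apply Finset.prod_congr rfl
    intro j hj
    have : j ≠ i := Finset.ne_of_mem_erase hj
    simp [flp, this]
  rw [h2, h1, sg_neg]
  ring

theorem hasDerivAt_ker {n : ℕ} (x y : Cube n) (t : ℝ) :
    HasDerivAt (fun t => ker (Real.exp (-t)) x y)
      (-∑ i, (ker (Real.exp (-t)) x y - ker (Real.exp (-t)) (flp i x) y) / 2) t := by
  have h0 : HasDerivAt (fun t : ℝ => Real.exp (-t)) (-Real.exp (-t)) t := by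
    simpa using (hasDerivAt_id t).neg.exp
  have h1 : ∀ i ∈ (Finset.univ : Finset (Fin n)),
      HasDerivAt (fun t => (1 + Real.exp (-t) * sg (x i) * sg (y i)) / 2)
        (-Real.exp (-t) * sg (x i) * sg (y i) / 2) t := by
    intro i _
    exact (((h0.mul_const (sg (x i))).mul_const (sg (y i))).const_add 1).div_const 2
  have h2 := HasDerivAt.fun_finsetProd h1
  refine HasDerivAt.congr_deriv (f := fun t => ker (Real.exp (-t)) x y) h2 ?_
  rw [← Finset.sum_neg_distrib]
  apply Finset.sum_congr rfl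
  intro i _
  rw [ker_flp, smul_eq_mul]
  ring

theorem hasDerivAt_TT {n : ℕ} (f : Cube n → ℝ) (x : Cube n) (t : ℝ) :
    HasDerivAt (fun t => TT (Real.exp (-t)) f x)
      (-∑ i, (TT (Real.exp (-t)) f x - TT (Real.exp (-t)) f (flp i x)) / 2) t := by
  have h : HasDerivAt (fun t => ∑ y, ker (Real.exp (-t)) x y * f y)
      (∑ y, (-∑ i, (ker (Real.exp (-t)) x y - ker (Real.exp (-t)) (flp i x) y) / 2) * f y) t :=
    HasDerivAt.fun_sum fun y _ => (hasDerivAt_ker x y t).mul_const (f y)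
  refine HasDerivAt.congr_deriv h ?_
  simp_rw [TT_eq]
  simp_rw [neg_mul, Finset.sum_neg_distrib, Finset.sum_mul]
  rw [Finset.sum_comm]
  congr 1
  apply Finset.sum_congr rfl
  intro i _
  rw [← Finset.sum_sub_distrib, Finset.sum_div]
  apply Finset.sum_congr rfl
  intro y _
  ring

theorem flp_flp {n : ℕ} (i : Fin n) (x : Cube n) : flp i (flp i x) = x := by
  unfold flp
  funext j
  by_cases h : j = i
  · subst h; simp
  · simp [h]

theorem sum_flp {n : ℕ} (i : Fin n) (g : Cube n → ℝ) : ∑ x, g (flp i x) = ∑ x, g x :=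
  Fintype.sum_equiv (Equiv.mk (flp i) (flp i) (flp_flp i) (flp_flp i)) _ _ (fun _ => rfl)

/-- The derivative along the noise semigroup `T_{e^{-t}}`. -/
theorem hasDerivAt_avg_phi_TT {n : ℕ} (f : Cube n → ℝ) {t : ℝ}
    (h : ∀ x, |TT (Real.exp (-t)) f x| < 1) :
    HasDerivAt (fun t => avg (fun x => phi (TT (Real.exp (-t)) f x)))
      (-DD (TT (Real.exp (-t)) f)) t := by
  have h1 : HasDerivAt (fun t => avg (fun x => phi (TT (Real.exp (-t)) f x)))
      ((∑ x, ath (TT (Real.exp (-t)) f x) *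
        (-∑ i, (TT (Real.exp (-t)) f x - TT (Real.exp (-t)) f (flp i x)) / 2)) / 2 ^ n) t := by
    unfold avg
    apply HasDerivAt.div_const
    apply HasDerivAt.fun_sum
    intro x _
    exact (hasDerivAt_phi' (h x)).comp t (hasDerivAt_TT f x t)
  refine HasDerivAt.congr_deriv h1 ?_
  set g := TT (Real.exp (-t)) f with hg
  unfold DD avg
  rw [← Finset.sum_div, ← neg_div]
  congr 1
  simp_rw [mul_neg]
  rw [Finset.sum_neg_distrib]
  congr 1
  simp_rw [Finset.mul_sum]
  rw [Finset.sum_comm]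
  apply Finset.sum_congr rfl
  intro i _
  have e1 : ∑ x, ath (g x) * ((g x - g (flp i x)) / 2)
      = ∑ x, ath (g (flp i x)) * ((g (flp i x) - g x) / 2) := by
    rw [← sum_flp i (fun x => ath (g x) * ((g x - g (flp i x)) / 2))]
    simp_rw [flp_flp]
  have e2 : ∑ x, ath (g x) * ((g x - g (flp i x)) / 2)
      = (∑ x, ath (g x) * ((g x - g (flp i x)) / 2)
        + ∑ x, ath (g (flp i x)) * ((g (flp i x) - g x) / 2)) / 2 := by
    rw [← e1]; ring
  rw [e2, ← Finset.sum_add_distrib, Finset.sum_div]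
  apply Finset.sum_congr rfl
  intro x _
  unfold KK
  ring

end NoiseAux

theorem TT_one {n : ℕ} (f : Cube n → ℝ) (x : Cube n) : TT 1 f x = f x := NoiseAux.TT_one f x

theorem avg_TT {n : ℕ} (ρ : ℝ) (f : Cube n → ℝ) : avg (TT ρ f) = avg f := NoiseAux.avg_TT ρ f

theorem abs_TT_lt_one {n : ℕ} {ρ : ℝ} (h0 : 0 ≤ ρ) (h1 : ρ < 1) (f : Cube n → ℝ)
    (hf : ∀ x, f x = 1 ∨ f x = -1) (hne : ∃ x y, f x ≠ f y) (x : Cube n) :
    |TT ρ f x| < 1 := NoiseAux.abs_TT_lt_one h0 h1 f hf hne x

theorem phi_continuous : Continuous phi := NoiseAux.phi_continuous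

theorem continuous_avg_phi_TT {n : ℕ} (f : Cube n → ℝ) :
    Continuous (fun ρ => avg (fun x => phi (TT ρ f x))) := NoiseAux.continuous_avg_phi_TT f

/-- The derivative along the noise semigroup `T_{e^{-t}}`. -/
theorem hasDerivAt_avg_phi_TT {n : ℕ} (f : Cube n → ℝ) {t : ℝ}
    (h : ∀ x, |TT (Real.exp (-t)) f x| < 1) :
    HasDerivAt (fun t => avg (fun x => phi (TT (Real.exp (-t)) f x)))
      (-DD (TT (Real.exp (-t)) f)) t := NoiseAux.hasDerivAt_avg_phi_TT f h

end Vale.Agent.P322
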