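import Vale.Agent.P322.CubeInd
import Vale.Agent.P322.Noise
import Vale.Agent.P322.Compare

/-! Module K1: the analytic form of the Courtade-Kumar inequality. -/

namespace Vale.Agent.P322
open Real

theorem phi_zero : phi 0 = 0 := by simp [phi]

theorem phi_one : phi 1 = Real.log 2 := by
  simp only [phi]; norm_num

theorem phi_neg (x : ℝ) : phi (-x) = phi x := by
  simp only [phi, sub_neg_eq_add, ← sub_eq_add_neg]; ring

theorem phi_neg_one : phi (-1) = Real.log 2 := by rw [phi_neg, phi_one]

theorem avg_const {n : ℕ} (c : ℝ) : avg (fun _ : Cube n => c) = c := by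
  simp only [avg, Finset.sum_const, Finset.card_univ, nsmul_eq_mul]
  have : Fintype.card (Cube n) = 2 ^ n := by simp [Cube]
  rw [this]; push_cast; field_simp

theorem phi_nonneg {x : ℝ} (h : |x| ≤ 1) : 0 ≤ phi x := by
  have := phi_ge h; nlinarith [sq_nonneg x]

/-- constant functions are preserved by the kernel (through `avg_TT`-type identity). -/
theorem TT_const {n : ℕ} (ρ c : ℝ) (x : Cube n) : TT ρ (fun _ => c) x = c := by
  unfold TT
  rw [← Finset.sum_mul]
  have : ∑ y : Cube n, ∏ i, (1 + ρ * sg (x i) * sg (y i)) / 2 = 1 := by
    have h := Finset.prod_univ_sum (fun _ : Fin n => (Finset.univ : Finset ℤˣ))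
      (fun i u => (1 + ρ * sg (x i) * sg u) / 2)
    rw [Fintype.piFinset_univ] at h
    rw [← h]
    apply Finset.prod_eq_one
    intro i _
    have : (Finset.univ : Finset ℤˣ) = {1, -1} := rfl
    rw [this, Finset.sum_pair (by decide)]
    simp [sg]; ring
  rw [this, one_mul]

theorem TT_zero {n : ℕ} (f : Cube n → ℝ) (x : Cube n) : TT 0 f x = avg f := by
  unfold TT avg
  rw [Finset.sum_div]
  apply Finset.sum_congr rfl
  intro y _
  simp [Finset.prod_const]
  ring

theorem analytic_ck {n : ℕ} (f : Cube n → ℝ) (hf : ∀ x, f x = 1 ∨ f x = -1) {ρ : ℝ}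
    (h0 : 0 ≤ ρ) (h1 : ρ ≤ 1) :
    avg (fun x => phi (TT ρ f x)) - phi (avg f) ≤ phi ρ := by
  by_cases hne : ∃ x y, f x ≠ f y
  · -- non-constant case
    have habs : ∀ x, |f x| ≤ 1 := by
      intro x; rcases hf x with h | h <;> simp [h]
    -- the mean is strictly inside
    have hm : |avg f| < 1 := by
      have := abs_TT_lt_one (ρ := 0) le_rfl zero_lt_one f hf hne (fun _ => 1)
      rwa [TT_zero] at this
    rcases h0.eq_or_lt with rfl | hρ
    · simp only [TT_zero, avg_const, sub_self]
      rw [phi_zero]
    · set U : ℝ → ℝ := fun t => avg (fun x => phi (TT (Real.exp (-t)) f x)) with hU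
      have hlt : ∀ t, 0 < t → ∀ x, |TT (Real.exp (-t)) f x| < 1 := by
        intro t ht x
        exact abs_TT_lt_one (Real.exp_pos _).le (by rw [Real.exp_lt_one_iff]; linarith) f hf hne x
      have hcont : Continuous U := by
        have := (continuous_avg_phi_TT f).comp (Real.continuous_exp.comp continuous_neg)
        exact this
      have hU0 : U 0 ≤ Real.log 2 := by
        have : U 0 = Real.log 2 := by
          simp only [hU, neg_zero, Real.exp_zero, TT_one]
          have : (fun x => phi (f x)) = fun _ => Real.log 2 := by
            funext x; rcases hf x with h | h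
            · rw [h, phi_one]
            · rw [h, phi_neg_one]
          rw [this, avg_const]
        exact this.le
      have key := compare (U := U) (U' := fun t => -DD (TT (Real.exp (-t)) f)) (m := avg f) hm
        hcont.continuousOn hU0
        (fun t ht => hasDerivAt_avg_phi_TT f (hlt t ht))
        (by
          intro t ht z hz
          have := cube_ineq (TT (Real.exp (-t)) f) (hlt t ht) hz
          rw [avg_TT] at this
          simpa [hU] using this)
        (t := -Real.log ρ) (by have := Real.log_nonpos hρ.le h1; linarith)
      simpa [hU, Real.exp_log hρ] using key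
  · push Not at hne
    have hc : f = fun _ => f (fun _ => 1) := by funext x; exact hne x _
    rw [hc]
    simp only [TT_const, avg_const, sub_self]
    exact phi_nonneg (by rw [abs_of_nonneg h0]; exact h1)

end Vale.Agent.P322
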