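import Vale.Agent.P322.InfoDefs
import Vale.Agent.P322.Main

/-! Module K2: mutual information identity. -/

namespace Vale.Agent.P322
open Real

theorem sg_eq (u : ℤˣ) : sg u = 1 ∨ sg u = -1 := by
  rcases Int.units_eq_one_or u with h | h <;> simp [sg, h]

theorem sg_inj {u v : ℤˣ} (h : sg u = sg v) : u = v := by
  rcases Int.units_eq_one_or u with hu | hu <;> rcases Int.units_eq_one_or v with hv | hv <;>
    subst hu <;> subst hv <;> simp [sg] at h ⊢ <;> norm_num at h

/-- indicator of `f x = u` -/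
theorem ind_eq (a u : ℤˣ) : (if a = u then (1 : ℝ) else 0) = (1 + sg u * sg a) / 2 := by
  rcases Int.units_eq_one_or u with hu | hu <;> rcases Int.units_eq_one_or a with hv | hv <;>
    subst hu <;> subst hv <;> simp [sg] <;> norm_num

theorem kernel_eq {ε : ℝ} (a b : ℤˣ) :
    (if a * b = -1 then ε else 1 - ε) = (1 + (1 - 2 * ε) * sg b * sg a) / 2 := by
  rcases Int.units_eq_one_or a with hu | hu <;> rcases Int.units_eq_one_or b with hv | hv <;>
    subst hu <;> subst hv <;> simp [sg] <;> ring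

variable {n : ℕ}

/-- joint law of `(f(X), Y)` -/
theorem prob_joint (ε : ℝ) (f : (Fin n → ℤˣ) → ℤˣ) (u : ℤˣ) (y : Fin n → ℤˣ) :
    prob (bscWeight ε) (fun ω : (Fin n → ℤˣ) × (Fin n → ℤˣ) => f ω.1 = u ∧ ω.1 * ω.2 = y)
      = (1 / 2) ^ n * ((1 + sg u * TT (1 - 2 * ε) (fun x => sg (f x)) y) / 2) := by
  unfold prob
  rw [Fintype.sum_prod_type]
  have h1 : ∀ x : Fin n → ℤˣ, (∑ z : Fin n → ℤˣ,
      @ite ℝ (f x = u ∧ x * z = y) (Classical.propDecidable _) (bscWeight ε (x, z)) 0)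
      = (if f x = u then (1:ℝ) else 0) * ((1 / 2) ^ n * ∏ i, (1 + (1 - 2 * ε) * sg (y i) * sg (x i)) / 2) := by
    intro x
    rw [Finset.sum_eq_single (x * y)]
    · have hxx : x * (x * y) = y := by
        funext i; simp only [Pi.mul_apply, ← mul_assoc, Int.units_mul_self, one_mul]
      by_cases hfx : f x = u
      · rw [if_pos ⟨hfx, hxx⟩, if_pos hfx, one_mul]
        unfold bscWeight
        congr 1
        apply Finset.prod_congr rfl
        intro i _
        exact kernel_eq (x i) (y i)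
      · rw [if_neg (fun h => hfx h.1), if_neg hfx, zero_mul]
    · intro z _ hz
      rw [if_neg]
      rintro ⟨_, h⟩
      apply hz
      rw [← h]
      funext i; simp only [Pi.mul_apply, ← mul_assoc, Int.units_mul_self, one_mul]
    · intro h; exact absurd (Finset.mem_univ _) h
  simp only [h1]
  have hone := TT_const (n := n) (1 - 2 * ε) 1 y
  unfold TT at hone
  simp only [mul_one] at hone
  calc ∑ x, (if f x = u then (1:ℝ) else 0) * ((1 / 2) ^ n * ∏ i, (1 + (1 - 2 * ε) * sg (y i) * sg (x i)) / 2)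
      = ∑ x, ((1 / 2) ^ n / 2 * (∏ i, (1 + (1 - 2 * ε) * sg (y i) * sg (x i)) / 2)
          + (1 / 2) ^ n / 2 * (sg u * ((∏ i, (1 + (1 - 2 * ε) * sg (y i) * sg (x i)) / 2) * sg (f x)))) := by
        apply Finset.sum_congr rfl
        intro x _
        rw [ind_eq]; ring
    _ = _ := by
        rw [Finset.sum_add_distrib, ← Finset.mul_sum, ← Finset.mul_sum, hone, ← Finset.mul_sum]
        unfold TT
        ring

theorem prob_Y (ε : ℝ) (y : Fin n → ℤˣ) :
    prob (bscWeight ε) (fun ω : (Fin n → ℤˣ) × (Fin n → ℤˣ) => ω.1 * ω.2 = y) = (1 / 2) ^ n := by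
  have h := fun u => prob_joint ε (fun _ => (1 : ℤˣ)) u y
  have h1 := h 1
  simp only [sg, Units.val_one, Int.cast_one] at h1
  rw [TT_const] at h1
  simp only [true_and] at h1
  rw [h1]; ring

theorem prob_f (ε : ℝ) (f : (Fin n → ℤˣ) → ℤˣ) (u : ℤˣ) :
    prob (bscWeight ε) (fun ω : (Fin n → ℤˣ) × (Fin n → ℤˣ) => f ω.1 = u)
      = (1 + sg u * avg (fun x => sg (f x))) / 2 := by
  have key : prob (bscWeight ε) (fun ω : (Fin n → ℤˣ) × (Fin n → ℤˣ) => f ω.1 = u)
      = ∑ y : Fin n → ℤˣ,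
        prob (bscWeight ε) (fun ω : (Fin n → ℤˣ) × (Fin n → ℤˣ) => f ω.1 = u ∧ ω.1 * ω.2 = y) := by
    unfold prob
    rw [Finset.sum_comm]
    apply Finset.sum_congr rfl
    intro ω _
    rw [Finset.sum_eq_single (ω.1 * ω.2)]
    · simp
    · intro b _ hb
      rw [if_neg]; rintro ⟨_, h⟩; exact hb h.symm
    · intro h; exact absurd (Finset.mem_univ _) h
  rw [key]
  simp only [prob_joint]
  rw [← Finset.mul_sum]
  have h2 : ∑ y : Fin n → ℤˣ, (1 + sg u * TT (1 - 2 * ε) (fun x => sg (f x)) y) / 2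
      = 2 ^ n * ((1 + sg u * avg (fun x => sg (f x))) / 2) := by
    have hc := avg_TT (n := n) (1 - 2 * ε) (fun x => sg (f x))
    have hs : ∑ y : Fin n → ℤˣ, TT (1 - 2 * ε) (fun x => sg (f x)) y
        = 2 ^ n * avg (fun x => sg (f x)) := by
      rw [← hc]; unfold avg; field_simp
    rw [← Finset.sum_div, Finset.sum_add_distrib, ← Finset.mul_sum, hs]
    simp only [Finset.sum_const, Finset.card_univ, nsmul_eq_mul, mul_one]
    have : Fintype.card (Fin n → ℤˣ) = 2 ^ n := by simp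
    rw [this]; push_cast; ring
  rw [h2, ← mul_assoc, ← mul_pow]
  norm_num

theorem avg_lower {g : Cube n → ℝ} (hg : ∀ x, 0 ≤ g x) (y : Cube n) (h : 0 < g y) : 0 < avg g := by
  unfold avg
  apply div_pos _ (by positivity)
  exact Finset.sum_pos' (fun x _ => hg x) ⟨y, Finset.mem_univ _, h⟩

theorem abs_TT_le {ρ : ℝ} (h0 : 0 ≤ ρ) (h1 : ρ ≤ 1) (f : Cube n → ℝ) (hf : ∀ x, |f x| ≤ 1)
    (x : Cube n) : |TT ρ f x| ≤ 1 := by
  unfold TT
  have hk : ∀ y : Cube n, 0 ≤ ∏ i, (1 + ρ * sg (x i) * sg (y i)) / 2 := by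
    intro y
    apply Finset.prod_nonneg
    intro i _
    rcases sg_eq (x i) with h | h <;> rcases sg_eq (y i) with h' | h' <;> rw [h, h'] <;> linarith
  have hone := TT_const (n := n) ρ 1 x
  unfold TT at hone
  simp only [mul_one] at hone
  calc |∑ y, (∏ i, (1 + ρ * sg (x i) * sg (y i)) / 2) * f y|
      ≤ ∑ y, |(∏ i, (1 + ρ * sg (x i) * sg (y i)) / 2) * f y| := Finset.abs_sum_le_sum_abs _ _
    _ ≤ ∑ y : Cube n, (∏ i, (1 + ρ * sg (x i) * sg (y i)) / 2) := by
        apply Finset.sum_le_sum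
        intro y _
        rw [abs_mul, abs_of_nonneg (hk y)]
        nlinarith [hf y, hk y]
    _ = 1 := hone

theorem mutualInfo_eq {ε : ℝ} (h0 : 0 ≤ ε) (h1 : ε ≤ 1 / 2) (f : (Fin n → ℤˣ) → ℤˣ) :
    mutualInfoBits (bscWeight ε) (fun ω : (Fin n → ℤˣ) × (Fin n → ℤˣ) => f ω.1)
      (fun ω => ω.1 * ω.2)
      = (avg (fun y => phi (TT (1 - 2 * ε) (fun x => sg (f x)) y)) - phi (avg (fun x => sg (f x))))
        / Real.log 2 := by
  set F : Cube n → ℝ := fun x => sg (f x) with hF
  set T : Cube n → ℝ := TT (1 - 2 * ε) F with hT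
  set m : ℝ := avg F with hm
  have hTm : avg T = m := avg_TT _ _
  have hl2 : 0 < Real.log 2 := Real.log_pos (by norm_num)
  have hFa : ∀ x, |F x| ≤ 1 := by
    intro x; rcases sg_eq (f x) with h | h <;> simp [hF, h]
  have hTa : ∀ y, |T y| ≤ 1 := fun y => abs_TT_le (by linarith) (by linarith) F hFa y
  -- each term
  have hterm : ∀ (u : ℤˣ) (y : Fin n → ℤˣ),
      prob (bscWeight ε) (fun ω : (Fin n → ℤˣ) × (Fin n → ℤˣ) => f ω.1 = u ∧ ω.1 * ω.2 = y) *
        Real.logb 2 (prob (bscWeight ε) (fun ω : (Fin n → ℤˣ) × (Fin n → ℤˣ) => f ω.1 = u ∧ ω.1 * ω.2 = y)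
        / (prob (bscWeight ε) (fun ω : (Fin n → ℤˣ) × (Fin n → ℤˣ) => f ω.1 = u)
          * prob (bscWeight ε) (fun ω : (Fin n → ℤˣ) × (Fin n → ℤˣ) => ω.1 * ω.2 = y)))
      = (1 / 2) ^ n * ((1 + sg u * T y) / 2
          * ((Real.log (1 + sg u * T y) - Real.log (1 + sg u * m)) / Real.log 2)) := by
    intro u y
    rw [prob_joint, prob_f, prob_Y]
    change (1 / 2) ^ n * ((1 + sg u * T y) / 2) * Real.logb 2 ((1 / 2) ^ n * ((1 + sg u * T y) / 2)
      / ((1 + sg u * m) / 2 * (1 / 2) ^ n)) = _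
    have hge : 0 ≤ 1 + sg u * T y := by
      rcases sg_eq u with h | h <;> rw [h] <;> have := abs_le.1 (hTa y) <;> linarith [this.1, this.2]
    rcases hge.eq_or_lt with hz | hpos
    · rw [← hz]; simp
    · have hmpos : 0 < 1 + sg u * m := by
        have hav : avg (fun y => 1 + sg u * T y) = 1 + sg u * m := by
          have h1 : avg (fun y => 1 + sg u * T y) = 1 + sg u * avg T := by
            unfold avg
            rw [Finset.sum_add_distrib, ← Finset.mul_sum]
            simp only [Finset.sum_const, Finset.card_univ, nsmul_eq_mul, mul_one]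
            have : Fintype.card (Cube n) = 2 ^ n := by simp [Cube]
            rw [this]; push_cast; field_simp
          rw [h1, hTm]
        rw [← hav]
        apply avg_lower _ y hpos
        intro x
        rcases sg_eq u with h | h <;> rw [h] <;> have := abs_le.1 (hTa x) <;> linarith [this.1, this.2]
      have hp : (0:ℝ) < (1 / 2) ^ n := by positivity
      have : (1 / 2 : ℝ) ^ n * ((1 + sg u * T y) / 2) / ((1 + sg u * m) / 2 * (1 / 2) ^ n)
          = (1 + sg u * T y) / (1 + sg u * m) := by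
        field_simp
      rw [this, Real.logb, Real.log_div hpos.ne' hmpos.ne']
      ring
  unfold mutualInfoBits
  simp only [hterm]
  have huniv : (Finset.univ : Finset ℤˣ) = {1, -1} := rfl
  rw [huniv, Finset.sum_pair (by decide), ← Finset.sum_add_distrib]
  have hs1 : sg 1 = 1 := by simp [sg]
  have hs2 : sg (-1) = -1 := by simp [sg]
  simp only [hs1, hs2]
  have hT0 : ∑ y, T y = 2 ^ n * m := by
    rw [← hTm]; unfold avg; field_simp
  have e1 : ∀ y, (1 / 2 : ℝ) ^ n * ((1 + 1 * T y) / 2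
          * ((Real.log (1 + 1 * T y) - Real.log (1 + 1 * m)) / Real.log 2))
        + (1 / 2) ^ n * ((1 + -1 * T y) / 2
          * ((Real.log (1 + -1 * T y) - Real.log (1 + -1 * m)) / Real.log 2))
      = (1 / 2) ^ n / Real.log 2 * phi (T y)
        - ((1 / 2) ^ n / (2 * Real.log 2) * (Real.log (1 + m) + Real.log (1 - m))
          + (1 / 2) ^ n / (2 * Real.log 2) * (Real.log (1 + m) - Real.log (1 - m)) * T y) := by
    intro y
    have a1 : 1 + -1 * T y = 1 - T y := by ring
    have a2 : 1 + -1 * m = 1 - m := by ring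
    rw [a1, a2, one_mul, one_mul]
    unfold phi
    field_simp
    ring
  simp only [e1]
  rw [Finset.sum_sub_distrib, Finset.sum_add_distrib, ← Finset.mul_sum, ← Finset.mul_sum,
    ← Finset.mul_sum, hT0]
  simp only [Finset.sum_const, Finset.card_univ, nsmul_eq_mul]
  have hcard : Fintype.card (Fin n → ℤˣ) = 2 ^ n := by simp
  rw [hcard]
  unfold phi avg
  have h2n : (1 / 2 : ℝ) ^ n = 1 / 2 ^ n := by rw [one_div_pow]
  rw [h2n]
  push_cast
  have h2ne : (2:ℝ) ^ n ≠ 0 := by positivity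
  field_simp
  ring

theorem one_sub_h2 {ε : ℝ} (h0 : 0 ≤ ε) (h1 : ε ≤ 1 / 2) :
    1 - h2 ε = phi (1 - 2 * ε) / Real.log 2 := by
  have hl2 : 0 < Real.log 2 := Real.log_pos (by norm_num)
  have h1e : 0 < 1 - ε := by linarith
  unfold h2 phi Real.logb
  have e1 : 1 + (1 - 2 * ε) = 2 * (1 - ε) := by ring
  have e2 : 1 - (1 - 2 * ε) = 2 * ε := by ring
  rw [e1, e2, Real.log_mul (by norm_num) h1e.ne']
  rcases h0.eq_or_lt with rfl | hε
  · simp; field_simp
  · rw [Real.log_mul (by norm_num) hε.ne']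
    field_simp
    ring

end Vale.Agent.P322
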