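import Mathlib

/-!
# P322 : definitions used in the final statement

The finite sample space is `(Fin n → ℤˣ) × (Fin n → ℤˣ)`, whose points are the pairs `(X, Z)` of the
input and the noise signs (`ℤˣ = {1, -1}`).
-/

namespace Vale.Agent.P322

/-- The probability of the outcome `ω = (X, Z)`: `X` is uniform on `{-1,1}^n`, the noise signs `Z_i`
are independent of `X` and of each other, and `P(Z_i = -1) = ε`. -/
noncomputable def bscWeight {n : ℕ} (ε : ℝ) (ω : (Fin n → ℤˣ) × (Fin n → ℤˣ)) : ℝ :=
  (1 / 2) ^ n * ∏ i, (if ω.2 i = -1 then ε else 1 - ε)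

open Classical in
/-- Probability of the event `A` on a finite sample space with point weights `w`. -/
noncomputable def prob {Ω : Type*} [Fintype Ω] (w : Ω → ℝ) (A : Ω → Prop) : ℝ :=
  ∑ ω, if A ω then w ω else 0

/-- Mutual information, in bits, of two random variables `U`, `V` with finitely many values, on a
finite sample space with point weights `w`. -/
noncomputable def mutualInfoBits {Ω α β : Type*} [Fintype Ω] [Fintype α] [Fintype β]
    (w : Ω → ℝ) (U : Ω → α) (V : Ω → β) : ℝ :=
  ∑ a, ∑ b, prob w (fun ω => U ω = a ∧ V ω = b) *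
    Real.logb 2 (prob w (fun ω => U ω = a ∧ V ω = b)
      / (prob w (fun ω => U ω = a) * prob w (fun ω => V ω = b)))

/-- The binary entropy function, in bits. -/
noncomputable def h2 (p : ℝ) : ℝ := -p * Real.logb 2 p - (1 - p) * Real.logb 2 (1 - p)

end Vale.Agent.P322
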