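import Vale.Agent.P322.Defs

/-! Module A: one-variable theory of `om`, `mu`, `GG`. -/

namespace Vale.Agent.P322
open Real

theorem om_zero : om 0 = Real.log 2 := by simp [om]

theorem hasDerivAt_om (z : ℝ) : HasDerivAt om (-(z / Real.cosh z ^ 2)) z := by
  have h := (Real.cosh_pos z).ne'
  have h1 := ((Real.hasDerivAt_cosh z).const_mul 2).log (by positivity)
  have h2 : HasDerivAt Real.tanh (1 / Real.cosh z ^ 2) z := by
    have h3 := (Real.hasDerivAt_sinh z).div (Real.hasDerivAt_cosh z) h
    have h4 : Real.tanh = fun z => Real.sinh z / Real.cosh z := by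
      funext z; exact Real.tanh_eq_sinh_div_cosh z
    rw [h4]
    refine h3.congr_deriv ?_
    rw [div_left_inj' (by positivity)]
    nlinarith [Real.cosh_sq z]
  have h5 := h1.sub ((hasDerivAt_id z).mul h2)
  refine h5.congr_deriv ?_
  rw [Real.tanh_eq_sinh_div_cosh]
  simp only [id]
  field_simp
  ring

theorem abs_tanh_le_one (z : ℝ) : |Real.tanh z| ≤ 1 := by
  rw [Real.tanh_eq_sinh_div_cosh, abs_div, abs_of_pos (Real.cosh_pos z),
    div_le_one (Real.cosh_pos z), abs_le]
  constructor
  · have := Real.cosh_add_sinh z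
    have := Real.exp_pos z
    linarith
  · exact (Real.sinh_lt_cosh z).le

theorem om_pos (z : ℝ) : 0 < om z := by
  have h1 : |z| < Real.log (2 * Real.cosh z) := by
    rw [Real.lt_log_iff_exp_lt (by have := Real.cosh_pos z; positivity), Real.cosh_eq]
    have := Real.exp_pos z
    have := Real.exp_pos (-z)
    rcases abs_cases z with ⟨h, _⟩ | ⟨h, _⟩ <;> rw [h] <;> linarith
  have h2 : z * Real.tanh z ≤ |z| := by
    calc z * Real.tanh z ≤ |z * Real.tanh z| := le_abs_self _
      _ = |z| * |Real.tanh z| := abs_mul _ _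
      _ ≤ |z| * 1 := by
        gcongr
        exact abs_tanh_le_one z
      _ = |z| := mul_one _
  unfold om
  linarith

theorem om_continuous : Continuous om :=
  continuous_iff_continuousAt.2 fun z => (hasDerivAt_om z).continuousAt

theorem om_strictAntiOn : StrictAntiOn om (Set.Ici 0) := by
  refine strictAntiOn_of_deriv_neg (convex_Ici 0) om_continuous.continuousOn ?_
  intro z hz
  rw [interior_Ici] at hz
  have hz' : 0 < z := hz
  rw [(hasDerivAt_om z).deriv]
  have := Real.cosh_pos z
  have : 0 < z / Real.cosh z ^ 2 := by positivity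
  linarith

theorem om_le_exp (z : ℝ) (hz : 0 ≤ z) :
    om z ≤ Real.exp (-(2 * z)) + 2 * z * Real.exp (-(2 * z)) := by
  set q := Real.exp (-(2 * z)) with hq
  have hq0 : 0 < q := Real.exp_pos _
  have h3 : 2 * Real.cosh z = Real.exp z * (1 + q) := by
    rw [Real.cosh_eq, hq, mul_add, ← Real.exp_add]
    ring_nf
  have h4 : Real.tanh z = (1 - q) / (1 + q) := by
    rw [Real.tanh_eq_sinh_div_cosh, Real.sinh_eq, Real.cosh_eq]
    have h5 : Real.exp (-z) = Real.exp z * q := by
      rw [hq, ← Real.exp_add]; ring_nf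
    rw [h5]
    have := (Real.exp_pos z).ne'
    field_simp
  have hom : om z = Real.log (1 + q) + 2 * z * q / (1 + q) := by
    unfold om
    rw [h3, h4, Real.log_mul (Real.exp_pos z).ne' (by positivity), Real.log_exp]
    field_simp
    ring
  rw [hom]
  have h6 : Real.log (1 + q) ≤ q := by
    have := Real.log_le_sub_one_of_pos (by positivity : 0 < 1 + q)
    linarith
  have h7 : 2 * z * q / (1 + q) ≤ 2 * z * q := by
    apply div_le_self (by positivity)
    linarith
  linarith

theorem om_tendsto : Filter.Tendsto om Filter.atTop (nhds 0) := by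
  have h1 : Filter.Tendsto (fun z : ℝ => Real.exp (-(2 * z)) + 2 * z * Real.exp (-(2 * z)))
      Filter.atTop (nhds 0) := by
    have h2 : Filter.Tendsto (fun z : ℝ => 2 * z) Filter.atTop Filter.atTop :=
      Filter.tendsto_id.const_mul_atTop (by norm_num)
    have h3 := (Real.tendsto_pow_mul_exp_neg_atTop_nhds_zero 1).comp h2
    have h4 := (Real.tendsto_pow_mul_exp_neg_atTop_nhds_zero 0).comp h2
    have h5 := h4.add h3
    simpa using h5
  refine tendsto_of_tendsto_of_tendsto_of_le_of_le' tendsto_const_nhds h1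
    (Filter.Eventually.of_forall fun z => (om_pos z).le) ?_
  filter_upwards [Filter.eventually_ge_atTop 0] with z hz
  exact om_le_exp z hz

theorem ent_tanh (z : ℝ) : ent (Real.tanh z) = om z := by
  have hc := Real.cosh_pos z
  have h1 : 1 + Real.tanh z = Real.exp z / Real.cosh z := by
    rw [Real.tanh_eq_sinh_div_cosh, ← Real.cosh_add_sinh]
    field_simp
  have h2 : 1 - Real.tanh z = Real.exp (-z) / Real.cosh z := by
    rw [Real.tanh_eq_sinh_div_cosh, ← Real.cosh_sub_sinh]
    field_simp
  have h3 : Real.log (1 + Real.tanh z) = z - Real.log (Real.cosh z) := by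
    rw [h1, Real.log_div (Real.exp_pos z).ne' hc.ne', Real.log_exp]
  have h4 : Real.log (1 - Real.tanh z) = -z - Real.log (Real.cosh z) := by
    rw [h2, Real.log_div (Real.exp_pos _).ne' hc.ne', Real.log_exp]
  unfold ent phi om
  rw [h3, h4, Real.log_mul (by norm_num) hc.ne']
  ring

theorem mu_zero : mu 0 = 0 := by simp [mu]

theorem mu_of_pos {z : ℝ} (hz : 0 < z) : mu z = Real.sinh (2 * z) / (2 * z) - 1 := by
  simp [mu, hz.ne']

theorem mu_nonneg {z : ℝ} (hz : 0 ≤ z) : 0 ≤ mu z := by
  rcases hz.eq_or_lt with rfl | hz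
  · rw [mu_zero]
  · rw [mu_of_pos hz]
    have h1 : 2 * z ≤ Real.sinh (2 * z) := Real.self_le_sinh_iff.2 (by linarith)
    have h2 : 1 ≤ Real.sinh (2 * z) / (2 * z) := by
      rw [le_div_iff₀ (by positivity)]
      linarith
    linarith

theorem mu_eq_dslope : mu = fun z => dslope Real.sinh 0 (2 * z) - 1 := by
  funext z
  by_cases hz : z = 0
  · subst hz
    simp [mu, dslope_same]
  · have h2 : 2 * z ≠ 0 := by positivity
    rw [dslope_of_ne _ h2, slope_def_field]
    simp [mu, hz]

theorem mu_continuous : Continuous mu := by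
  rw [mu_eq_dslope]
  have h1 : Continuous (dslope Real.sinh 0) := by
    have : ContinuousOn (dslope Real.sinh 0) Set.univ :=
      (continuousOn_dslope Filter.univ_mem).2
        ⟨Real.continuous_sinh.continuousOn, (Real.hasDerivAt_sinh 0).differentiableAt⟩
    exact continuousOn_univ.1 this
  exact (h1.comp (by fun_prop)).sub continuous_const

theorem mu_continuousOn : ContinuousOn mu (Set.Ici 0) := mu_continuous.continuousOn

theorem hasDerivAt_mu {z : ℝ} (hz : 0 < z) :
    HasDerivAt mu ((2 * z * Real.cosh (2 * z) - Real.sinh (2 * z)) / (2 * z ^ 2)) z := by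
  have h1 : HasDerivAt (fun z => Real.sinh (2 * z) / (2 * z) - 1)
      ((2 * z * Real.cosh (2 * z) - Real.sinh (2 * z)) / (2 * z ^ 2)) z := by
    have h2 : HasDerivAt (fun z : ℝ => 2 * z) 2 z := by
      simpa using (hasDerivAt_id z).const_mul 2
    have h3 : HasDerivAt (fun z => Real.sinh (2 * z)) (Real.cosh (2 * z) * 2) z :=
      (Real.hasDerivAt_sinh (2 * z)).comp z h2
    have h4 := (h3.div h2 (by positivity)).sub_const 1
    refine h4.congr_deriv ?_
    field_simp
  refine h1.congr_of_eventuallyEq ?_
  filter_upwards [lt_mem_nhds hz] with y hy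
  exact mu_of_pos hy

theorem ucosh_pos {x : ℝ} (hx : 0 < x) : 0 < x * Real.cosh x - Real.sinh x := by
  have hd : ∀ x, HasDerivAt (fun x => x * Real.cosh x - Real.sinh x) (x * Real.sinh x) x := by
    intro x
    have := ((hasDerivAt_id x).mul (Real.hasDerivAt_cosh x)).sub (Real.hasDerivAt_sinh x)
    refine this.congr_deriv ?_
    simp
  have hm : StrictMonoOn (fun x => x * Real.cosh x - Real.sinh x) (Set.Ici 0) := by
    refine strictMonoOn_of_deriv_pos (convex_Ici 0)
      (fun x _ => (hd x).continuousAt.continuousWithinAt) ?_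
    intro y hy
    rw [interior_Ici] at hy
    have hy' : 0 < y := hy
    rw [(hd y).deriv]
    exact mul_pos hy' (Real.sinh_pos_iff.2 hy')
  have := hm (Set.mem_Ici.2 le_rfl) (Set.mem_Ici.2 hx.le) hx
  simpa using this

theorem dmu_pos {z : ℝ} (hz : 0 < z) :
    0 < (2 * z * Real.cosh (2 * z) - Real.sinh (2 * z)) / (2 * z ^ 2) :=
  div_pos (ucosh_pos (by linarith)) (by positivity)

theorem mu_monotoneOn : MonotoneOn mu (Set.Ici 0) := by
  refine monotoneOn_of_deriv_nonneg (convex_Ici 0) mu_continuousOn ?_ ?_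
  · intro x hx
    rw [interior_Ici] at hx
    exact (hasDerivAt_mu hx).differentiableAt.differentiableWithinAt
  · intro x hx
    rw [interior_Ici] at hx
    rw [(hasDerivAt_mu hx).deriv]
    exact (dmu_pos hx).le

theorem GG_zero : GG 0 = 0 := by simp [GG, om_zero, mu_zero]

theorem continuous_tanh' : Continuous Real.tanh := by
  have h4 : Real.tanh = fun z => Real.sinh z / Real.cosh z := by
    funext z; exact Real.tanh_eq_sinh_div_cosh z
  rw [h4]
  exact Real.continuous_sinh.div Real.continuous_cosh fun x => (Real.cosh_pos x).ne'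

theorem GG_continuous : Continuous GG := by
  unfold GG
  exact (((continuous_id.mul continuous_tanh').sub continuous_const).add
    (continuous_const.mul om_continuous)).add (mu_continuous.mul om_continuous)

theorem hasDerivAt_GG {z : ℝ} (hz : 0 < z) :
    HasDerivAt GG ((2 * z * Real.cosh (2 * z) - Real.sinh (2 * z)) / (2 * z ^ 2) * om z) z := by
  have h := (Real.cosh_pos z).ne'
  have h2 : HasDerivAt Real.tanh (1 / Real.cosh z ^ 2) z := by
    have h3 := (Real.hasDerivAt_sinh z).div (Real.hasDerivAt_cosh z) h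
    have h4 : Real.tanh = fun z => Real.sinh z / Real.cosh z := by
      funext z; exact Real.tanh_eq_sinh_div_cosh z
    rw [h4]
    refine h3.congr_deriv ?_
    rw [div_left_inj' (by positivity)]
    nlinarith [Real.cosh_sq z]
  have h5 := ((((hasDerivAt_id z).mul h2).sub_const (2 * Real.log 2)).add
    ((hasDerivAt_om z).const_mul 2)).add ((hasDerivAt_mu hz).mul (hasDerivAt_om z))
  refine h5.congr_deriv ?_
  rw [mu_of_pos hz, Real.tanh_eq_sinh_div_cosh]
  have h6 : Real.sinh (2 * z) = 2 * Real.sinh z * Real.cosh z := Real.sinh_two_mul z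
  simp only [id]
  have h7 : (1 : ℝ) * (Real.sinh z / Real.cosh z) + z * (1 / Real.cosh z ^ 2) +
      2 * -(z / Real.cosh z ^ 2) +
      (Real.sinh (2 * z) / (2 * z) - 1) * -(z / Real.cosh z ^ 2) = 0 := by
    rw [h6]
    field_simp
    ring
  linarith

theorem GG_continuousOn : ContinuousOn GG (Set.Ici 0) := GG_continuous.continuousOn

theorem GG_monotoneOn : MonotoneOn GG (Set.Ici 0) := by
  refine monotoneOn_of_deriv_nonneg (convex_Ici 0) GG_continuousOn ?_ ?_
  · intro x hx
    rw [interior_Ici] at hx
    exact (hasDerivAt_GG hx).differentiableAt.differentiableWithinAt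
  · intro x hx
    rw [interior_Ici] at hx
    rw [(hasDerivAt_GG hx).deriv]
    exact (mul_pos (dmu_pos hx) (om_pos x)).le

theorem GG_nonneg {z : ℝ} (hz : 0 ≤ z) : 0 ≤ GG z := by
  have := GG_monotoneOn (Set.mem_Ici.2 le_rfl) (Set.mem_Ici.2 hz) hz
  rwa [GG_zero] at this

/-- for fixed `e`, the function `mu z * om e - GG z` is minimal at `z = e`. -/
theorem min_at {e z : ℝ} (he : 0 ≤ e) (hz : 0 ≤ z) :
    mu e * om e - GG e ≤ mu z * om e - GG z := by
  have hd : ∀ x, 0 < x → HasDerivAt (fun z => mu z * om e - GG z)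
      ((2 * x * Real.cosh (2 * x) - Real.sinh (2 * x)) / (2 * x ^ 2) * (om e - om x)) x := by
    intro x hx
    have := ((hasDerivAt_mu hx).mul_const (om e)).sub (hasDerivAt_GG hx)
    refine this.congr_deriv ?_
    ring
  have hc : Continuous (fun z => mu z * om e - GG z) :=
    (mu_continuous.mul continuous_const).sub GG_continuous
  rcases le_total z e with h | h
  · have hanti : AntitoneOn (fun z => mu z * om e - GG z) (Set.Icc 0 e) := by
      refine antitoneOn_of_deriv_nonpos (convex_Icc 0 e) hc.continuousOn ?_ ?_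
      · intro x hx
        rw [interior_Icc] at hx
        exact (hd x hx.1).differentiableAt.differentiableWithinAt
      · intro x hx
        rw [interior_Icc] at hx
        rw [(hd x hx.1).deriv]
        have := om_strictAntiOn (Set.mem_Ici.2 hx.1.le) (Set.mem_Ici.2 he) hx.2
        exact mul_nonpos_of_nonneg_of_nonpos (dmu_pos hx.1).le (by linarith)
    exact hanti ⟨hz, h⟩ ⟨he, le_rfl⟩ h
  · have hmono : MonotoneOn (fun z => mu z * om e - GG z) (Set.Ici e) := by
      refine monotoneOn_of_deriv_nonneg (convex_Ici e) hc.continuousOn ?_ ?_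
      · intro x hx
        rw [interior_Ici] at hx
        exact (hd x (lt_of_le_of_lt he hx)).differentiableAt.differentiableWithinAt
      · intro x hx
        rw [interior_Ici] at hx
        have hx0 : 0 < x := lt_of_le_of_lt he hx
        rw [(hd x hx0).deriv]
        have := om_strictAntiOn (Set.mem_Ici.2 he) (Set.mem_Ici.2 hx0.le) hx
        exact mul_nonneg (dmu_pos hx0).le (by linarith)
    exact hmono (Set.mem_Ici.2 le_rfl) (Set.mem_Ici.2 h) h

/-- `G ≤ mu * log 2`. -/
theorem GG_le {z : ℝ} (hz : 0 ≤ z) : GG z ≤ mu z * Real.log 2 := by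
  have := min_at le_rfl hz
  rw [mu_zero, GG_zero, om_zero] at this
  linarith

/-- The tangent line inequality. Proof: for fixed `e`, the function
`z ↦ e tanh e - (2 + mu z) phi (tanh e) + (mu z log 2 - GG z)` has derivative
`mu' z * (om e - om z)`, so it is minimal at `z = e`, where it vanishes. -/
theorem tangent {e z : ℝ} (he : 0 ≤ e) (hz : 0 ≤ z) :
    (2 + mu z) * phi (Real.tanh e) - (mu z * Real.log 2 - GG z) ≤ e * Real.tanh e := by
  have h1 := min_at he hz
  have h2 : phi (Real.tanh e) = Real.log 2 - om e := by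
    rw [← ent_tanh]; unfold ent; ring
  have h3 : mu e * om e - GG e = -(e * Real.tanh e - 2 * Real.log 2 + 2 * om e) := by
    unfold GG; ring
  rw [h2]
  rw [h3] at h1
  linarith

end Vale.Agent.P322
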