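import Vale.Agent.P322.PQpoly

/-! Module D: the two-variable algebraic-logarithmic inequality. -/

namespace Vale.Agent.P322
open Real

theorem V2a_aux {r W d n : ℝ} (h0 : 0 < r) (hr1 : 0 < 1 - r) (hdpos : 0 < d) (hn0 : 0 ≤ n)
    (hP : 0 ≤ ((1+r^2/2+r^4/3)*(1+r)^4*(1-r)*d*(6*d+4*n) - 13/5*W*(((r+r^2/2+r^3/3)*(1-r)+r^4/4)*d*(6*d+4*n)+(1-r)*n*(6*d+n)))) :
    (13 / 20) * (4 * r ^ 2 * W / (1 + r) ^ 4) * (r + r ^ 2 / 2 + r ^ 3 / 3 + r ^ 4 / (4 * (1 - r)) + n * (6 * d + n) / (d * (6 * d + 4 * n)))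
      ≤ r ^ 2 + (r ^ 2) ^ 2 / 2 + (r ^ 2) ^ 3 / 3 := by
  have h6 : 0 < 6 * d + 4 * n := by positivity
  rw [← sub_nonneg]
  have : r ^ 2 + (r ^ 2) ^ 2 / 2 + (r ^ 2) ^ 3 / 3 - (13 / 20) * (4 * r ^ 2 * W / (1 + r) ^ 4) * (r + r ^ 2 / 2 + r ^ 3 / 3 + r ^ 4 / (4 * (1 - r)) + n * (6 * d + n) / (d * (6 * d + 4 * n)))
    = r ^ 2 * ((1+r^2/2+r^4/3)*(1+r)^4*(1-r)*d*(6*d+4*n) - 13/5*W*(((r+r^2/2+r^3/3)*(1-r)+r^4/4)*d*(6*d+4*n)+(1-r)*n*(6*d+n))) / ((1 + r) ^ 4 * (1 - r) * d * (6 * d + 4 * n)) := by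
    field_simp
    ring
  rw [this]
  apply div_nonneg (mul_nonneg (sq_nonneg _) hP)
  positivity

theorem V2a {r : ℝ} (h0 : 0 < r) (h1 : r ≤ 1 / 2) :
    (13 / 20) * (4 * r ^ 2 * ((1 + r) ^ 2 + 2 * cc * (1 - r ^ 2) + 3 * cc * (1 - r) ^ 2)
        / (1 + r) ^ 4)
      * (-Real.log (1 - r) + Real.log (((1 + r) ^ 2 + cc * (1 - r) ^ 2)
          / ((1 + r) ^ 2 + cc * (3 * r - 1) ^ 2)))
      ≤ -Real.log (1 - r ^ 2) := by
  have hc := cc_le
  have hc0 := cc_pos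
  have hr1 : 0 < 1 - r := by linarith
  have hP : 0 ≤ ((1+r^2/2+r^4/3)*(1+r)^4*(1-r)*((1+r)^2+(13933/50000)*(3*r-1)^2)*(6*((1+r)^2+(13933/50000)*(3*r-1)^2)+4*(4*(13933/50000)*r*(1-2*r))) - 13/5*((1+r)^2+2*(13933/50000)*(1-r^2)+3*(13933/50000)*(1-r)^2)*(((r+r^2/2+r^3/3)*(1-r)+r^4/4)*((1+r)^2+(13933/50000)*(3*r-1)^2)*(6*((1+r)^2+(13933/50000)*(3*r-1)^2)+4*(4*(13933/50000)*r*(1-2*r)))+(1-r)*(4*(13933/50000)*r*(1-2*r))*(6*((1+r)^2+(13933/50000)*(3*r-1)^2)+(4*(13933/50000)*r*(1-2*r))))) := by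
    rcases le_total r (1 / 4) with h | h
    · exact poly1 h0.le h
    · exact poly2 h h1
  set W : ℝ := ((1+r)^2+2*(13933/50000)*(1-r^2)+3*(13933/50000)*(1-r)^2) with hW
  set d : ℝ := ((1+r)^2+(13933/50000)*(3*r-1)^2) with hd
  set n : ℝ := (4*(13933/50000)*r*(1-2*r)) with hn
  have hdpos : 0 < d := by rw [hd]; positivity
  have hn0 : 0 ≤ n := by rw [hn]; have : 0 ≤ 1 - 2 * r := by linarith
                         positivity
  have h6 : 0 < 6 * d + 4 * n := by positivity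
  have hW1 : (1 + r) ^ 2 + 2 * cc * (1 - r ^ 2) + 3 * cc * (1 - r) ^ 2 ≤ W := by
    rw [hW]
    have e1 : 0 ≤ 1 - r ^ 2 := by nlinarith
    nlinarith [mul_le_mul_of_nonneg_right hc e1, mul_le_mul_of_nonneg_right hc (sq_nonneg (1 - r))]
  have hW0 : 0 ≤ (1 + r) ^ 2 + 2 * cc * (1 - r ^ 2) + 3 * cc * (1 - r) ^ 2 := by
    have e1 : 0 ≤ 1 - r ^ 2 := by nlinarith
    positivity
  have hden : 0 < (1 + r) ^ 2 + cc * (3 * r - 1) ^ 2 := by positivity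
  -- the ratio
  have hratio : ((1 + r) ^ 2 + cc * (1 - r) ^ 2) / ((1 + r) ^ 2 + cc * (3 * r - 1) ^ 2)
      ≤ 1 + n / d := by
    rw [div_le_iff₀ hden]
    have : 1 + n / d = (d + n) / d := by field_simp
    rw [this, div_mul_eq_mul_div, le_div_iff₀ hdpos]
    have key : (d + n) * ((1 + r) ^ 2 + cc * (3 * r - 1) ^ 2)
        - ((1 + r) ^ 2 + cc * (1 - r) ^ 2) * d
        = (13933 / 50000 - cc) * (1 + r) ^ 2 * ((1 - r) ^ 2 - (3 * r - 1) ^ 2) := by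
      rw [hd, hn]; ring
    have e2 : 0 ≤ (1 - r) ^ 2 - (3 * r - 1) ^ 2 := by nlinarith
    have e3 : 0 ≤ (13933 / 50000 - cc) * (1 + r) ^ 2 * ((1 - r) ^ 2 - (3 * r - 1) ^ 2) := by
      apply mul_nonneg (mul_nonneg (by linarith) (sq_nonneg _)) e2
    linarith
  have hratio0 : 0 < ((1 + r) ^ 2 + cc * (1 - r) ^ 2) / ((1 + r) ^ 2 + cc * (3 * r - 1) ^ 2) := by
    positivity
  have hg : Real.log (((1 + r) ^ 2 + cc * (1 - r) ^ 2) / ((1 + r) ^ 2 + cc * (3 * r - 1) ^ 2))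
      ≤ n * (6 * d + n) / (d * (6 * d + 4 * n)) := by
    calc _ ≤ Real.log (1 + n / d) := Real.log_le_log hratio0 hratio
      _ ≤ (n / d) * (6 + n / d) / (6 + 4 * (n / d)) := log_one_add_le (by positivity)
      _ = _ := by
        have : 6 + 4 * (n / d) ≠ 0 := by positivity
        field_simp
  have hl := neg_log_le h0.le (by linarith : r < 1)
  have hbr0 : 0 ≤ r + r ^ 2 / 2 + r ^ 3 / 3 + r ^ 4 / (4 * (1 - r)) + n * (6 * d + n) / (d * (6 * d + 4 * n)) := by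
    positivity
  have hfac : (13 / 20) * (4 * r ^ 2 * ((1 + r) ^ 2 + 2 * cc * (1 - r ^ 2) + 3 * cc * (1 - r) ^ 2)
        / (1 + r) ^ 4) ≤ (13 / 20) * (4 * r ^ 2 * W / (1 + r) ^ 4) := by
    gcongr
  have hfac0 : 0 ≤ (13 / 20) * (4 * r ^ 2 * ((1 + r) ^ 2 + 2 * cc * (1 - r ^ 2) + 3 * cc * (1 - r) ^ 2)
        / (1 + r) ^ 4) := by positivity
  have hA := neg_log_ge_three (x := r ^ 2) (by positivity) (by nlinarith)
  clear_value W d n
  calc _ ≤ (13 / 20) * (4 * r ^ 2 * ((1 + r) ^ 2 + 2 * cc * (1 - r ^ 2) + 3 * cc * (1 - r) ^ 2)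
        / (1 + r) ^ 4) * (r + r ^ 2 / 2 + r ^ 3 / 3 + r ^ 4 / (4 * (1 - r)) + n * (6 * d + n) / (d * (6 * d + 4 * n))) := by
        apply mul_le_mul_of_nonneg_left _ hfac0
        linarith
    _ ≤ (13 / 20) * (4 * r ^ 2 * W / (1 + r) ^ 4) * (r + r ^ 2 / 2 + r ^ 3 / 3 + r ^ 4 / (4 * (1 - r)) + n * (6 * d + n) / (d * (6 * d + 4 * n))) := by
        apply mul_le_mul_of_nonneg_right hfac hbr0
    _ ≤ r ^ 2 + (r ^ 2) ^ 2 / 2 + (r ^ 2) ^ 3 / 3 := V2a_aux h0 hr1 hdpos hn0 hP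
    _ ≤ _ := hA

theorem V2b {r : ℝ} (h0 : 1 / 2 ≤ r) (h1 : r < 1) :
    (13 / 20) * (4 * r ^ 2 * ((1 + r) ^ 2 + 2 * cc * (1 - r ^ 2) + 3 * cc * (1 - r) ^ 2)
        / (1 + r) ^ 4)
      * (-Real.log (1 - r) + Real.log (((1 + r) ^ 2 + cc * (1 - r) ^ 2)
          / ((1 + r) ^ 2 + cc * (3 * r - 1) ^ 2)))
      ≤ -Real.log (1 - r ^ 2) := by
  have hc := cc_le
  have hc0 := cc_pos
  have hr0 : 0 < r := by linarith
  have hr1 : 0 < 1 - r := by linarith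
  have hQ := poly3 h0 h1.le
  set W : ℝ := ((1+r)^2+2*(13933/50000)*(1-r^2)+3*(13933/50000)*(1-r)^2) with hW
  have hW1 : (1 + r) ^ 2 + 2 * cc * (1 - r ^ 2) + 3 * cc * (1 - r) ^ 2 ≤ W := by
    rw [hW]
    have e1 : 0 ≤ 1 - r ^ 2 := by nlinarith
    nlinarith [mul_le_mul_of_nonneg_right hc e1, mul_le_mul_of_nonneg_right hc (sq_nonneg (1 - r))]
  have hW0 : 0 ≤ (1 + r) ^ 2 + 2 * cc * (1 - r ^ 2) + 3 * cc * (1 - r) ^ 2 := by
    have e1 : 0 ≤ 1 - r ^ 2 := by nlinarith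
    positivity
  have hden : 0 < (1 + r) ^ 2 + cc * (3 * r - 1) ^ 2 := by positivity
  have hratio0 : 0 < ((1 + r) ^ 2 + cc * (1 - r) ^ 2) / ((1 + r) ^ 2 + cc * (3 * r - 1) ^ 2) := by
    positivity
  have hratio : ((1 + r) ^ 2 + cc * (1 - r) ^ 2) / ((1 + r) ^ 2 + cc * (3 * r - 1) ^ 2) ≤ 1 := by
    rw [div_le_one hden]
    have : (1 - r) ^ 2 ≤ (3 * r - 1) ^ 2 := by nlinarith
    nlinarith [mul_le_mul_of_nonneg_left this hc0.le]
  have hg : Real.log (((1 + r) ^ 2 + cc * (1 - r) ^ 2) / ((1 + r) ^ 2 + cc * (3 * r - 1) ^ 2)) ≤ 0 :=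
    Real.log_nonpos hratio0.le hratio
  have hl := neg_log_ge_five hr0.le h1
  have hl0 : 0 ≤ -Real.log (1 - r) := by
    have : 0 ≤ r + r ^ 2 / 2 + r ^ 3 / 3 + r ^ 4 / 4 + r ^ 5 / 5 := by positivity
    linarith
  have hfac : (13 / 20) * (4 * r ^ 2 * ((1 + r) ^ 2 + 2 * cc * (1 - r ^ 2) + 3 * cc * (1 - r) ^ 2)
        / (1 + r) ^ 4) ≤ (13 / 5 * r ^ 2 * W) / (1 + r) ^ 4 := by
    have : (13 / 20) * (4 * r ^ 2 * ((1 + r) ^ 2 + 2 * cc * (1 - r ^ 2) + 3 * cc * (1 - r) ^ 2)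
        / (1 + r) ^ 4) = (13 / 5 * r ^ 2 * ((1 + r) ^ 2 + 2 * cc * (1 - r ^ 2) + 3 * cc * (1 - r) ^ 2)) / (1 + r) ^ 4 := by ring
    rw [this]
    gcongr
  have hfac0 : 0 ≤ (13 / 20) * (4 * r ^ 2 * ((1 + r) ^ 2 + 2 * cc * (1 - r ^ 2) + 3 * cc * (1 - r) ^ 2)
        / (1 + r) ^ 4) := by positivity
  have hth : 0 < 1 - (13 / 5 * r ^ 2 * W) / (1 + r) ^ 4 := by
    have e1 : 0 < ((1+r)^4-13/5*r^2*W) := by
      have e2 : 0 < (6 + r) * (1 + r) ^ 4 := by positivity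
      have e3 : 0 < (1+r/2+r^2/3+r^3/4+r^4/5)*(6+4*r) := by positivity
      by_contra hneg
      push Not at hneg
      nlinarith [mul_nonneg_of_nonpos_of_nonpos hneg (neg_nonpos.2 e3.le)]
    rw [sub_pos, div_lt_one (by positivity)]
    linarith
  have h3 : Real.log (1 - r ^ 2) = Real.log (1 - r) + Real.log (1 + r) := by
    rw [← Real.log_mul hr1.ne' (by positivity)]
    congr 1; ring
  have h4 : Real.log (1 + r) ≤ (1 - (13 / 5 * r ^ 2 * W) / (1 + r) ^ 4) * (-Real.log (1 - r)) := by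
    calc Real.log (1 + r) ≤ r * (6 + r) / (6 + 4 * r) := log_one_add_le hr0.le
      _ ≤ (1 - (13 / 5 * r ^ 2 * W) / (1 + r) ^ 4) * (r + r ^ 2 / 2 + r ^ 3 / 3 + r ^ 4 / 4 + r ^ 5 / 5) := by
        rw [← sub_nonneg]
        have : (1 - (13 / 5 * r ^ 2 * W) / (1 + r) ^ 4) * (r + r ^ 2 / 2 + r ^ 3 / 3 + r ^ 4 / 4 + r ^ 5 / 5) - r * (6 + r) / (6 + 4 * r)
          = r * (((1+r)^4-13/5*r^2*W)*(1+r/2+r^2/3+r^3/4+r^4/5)*(6+4*r)-(6+r)*(1+r)^4) / ((1 + r) ^ 4 * (6 + 4 * r)) := by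
          field_simp
        rw [this]
        apply div_nonneg (mul_nonneg hr0.le hQ)
        positivity
      _ ≤ _ := by
        apply mul_le_mul_of_nonneg_left hl hth.le
  rw [h3]
  calc _ ≤ (13 / 20) * (4 * r ^ 2 * ((1 + r) ^ 2 + 2 * cc * (1 - r ^ 2) + 3 * cc * (1 - r) ^ 2)
        / (1 + r) ^ 4) * (-Real.log (1 - r)) := by
        apply mul_le_mul_of_nonneg_left _ hfac0
        linarith
    _ ≤ (13 / 5 * r ^ 2 * W) / (1 + r) ^ 4 * (-Real.log (1 - r)) := by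
        apply mul_le_mul_of_nonneg_right hfac hl0
    _ ≤ _ := by linarith

theorem V2 {r : ℝ} (h0 : 0 < r) (h1 : r < 1) :
    (13 / 20) * (4 * r ^ 2 * ((1 + r) ^ 2 + 2 * cc * (1 - r ^ 2) + 3 * cc * (1 - r) ^ 2)
        / (1 + r) ^ 4)
      * (-Real.log (1 - r) + Real.log (((1 + r) ^ 2 + cc * (1 - r) ^ 2)
          / ((1 + r) ^ 2 + cc * (3 * r - 1) ^ 2)))
      ≤ -Real.log (1 - r ^ 2) := by
  rcases le_total r (1 / 2) with h | h
  · exact V2a h0 h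
  · exact V2b h h1

/-- power convexity: `log (1-α s) k ≤ log (1 - β s)` where `(1-α)^k = 1-β`. -/
theorem log_power_convex {α β s : ℝ} (hα0 : 0 < α) (hαβ : α ≤ β) (hβ : β < 1) (hs0 : 0 ≤ s)
    (hs1 : s ≤ 1) :
    -Real.log (1 - β * s) ≤ Real.log (1 - β) / Real.log (1 - α) * (-Real.log (1 - α * s)) := by
  have ha1 : 0 < 1 - α := by linarith
  have hb1 : 0 < 1 - β := by linarith
  have hla : Real.log (1 - α) < 0 := Real.log_neg ha1 (by linarith)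
  set k := Real.log (1 - β) / Real.log (1 - α) with hk
  have hk1 : 1 ≤ k := by
    rw [hk, le_div_iff_of_neg hla, one_mul]
    exact Real.log_le_log hb1 (by linarith)
  have hpow : (1 - α) ^ k = 1 - β := by
    rw [Real.rpow_def_of_pos ha1, hk, mul_div_cancel₀ _ hla.ne, Real.exp_log hb1]
  have hconv := (convexOn_rpow hk1).2 (Set.mem_Ici.2 (zero_le_one' ℝ)) (Set.mem_Ici.2 ha1.le)
    (by linarith : (0:ℝ) ≤ 1 - s) hs0 (by ring)
  simp only [smul_eq_mul, Real.one_rpow, hpow] at hconv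
  have e1 : (1 - s) * 1 + s * (1 - α) = 1 - α * s := by ring
  have e2 : (1 - s) * 1 + s * (1 - β) = 1 - β * s := by ring
  rw [e1, e2] at hconv
  have has : 0 < 1 - α * s := by nlinarith
  have := Real.log_le_log (by positivity) hconv
  rw [Real.log_rpow has] at this
  linarith

theorem PQ_final {B α β s L : ℝ} (hB0 : 0 ≤ B) (hα0 : 0 < α) (hαβ : α ≤ β) (hβ : β < 1)
    (hs0 : 0 ≤ s) (hs1 : s ≤ 1) (hL : L ≤ -Real.log (1 - β * s))
    (hV : B * (-Real.log (1 - β)) ≤ -Real.log (1 - α)) :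
    B * L ≤ -Real.log (1 - α * s) := by
  have hα1 : α < 1 := by linarith
  have hLα : Real.log (1 - α) < 0 := by
    apply Real.log_neg
    · linarith
    · linarith
  have hk := log_power_convex hα0 hαβ hβ hs0 hs1
  set k := Real.log (1 - β) / Real.log (1 - α) with hkd
  have hkk : B * k ≤ 1 := by
    rw [hkd, mul_div_assoc', div_le_iff_of_neg hLα]
    linarith
  have hαs : α * s ≤ α := by nlinarith
  have hαs0 : 0 ≤ α * s := by positivity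
  have hl0 : 0 ≤ -Real.log (1 - α * s) := by
    have := Real.log_nonpos (x := 1 - α * s) (by linarith) (by linarith)
    linarith
  calc B * L ≤ B * (-Real.log (1 - β * s)) := mul_le_mul_of_nonneg_left hL hB0
    _ ≤ B * (k * (-Real.log (1 - α * s))) := mul_le_mul_of_nonneg_left hk hB0
    _ = B * k * (-Real.log (1 - α * s)) := by ring
    _ ≤ 1 * (-Real.log (1 - α * s)) := mul_le_mul_of_nonneg_right hkk hl0
    _ = _ := one_mul _

theorem vb_eq (m d : ℝ) : vb m d = vv m - d ^ 2 * ((1 - cc) + 6 * cc * m ^ 2 + cc * d ^ 2) := by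
  unfold vb vv; ring

theorem PQ2_B {m : ℝ} (h1p : 0 < 1 + m) {r : ℝ} (hr : r = (1 - m) / (1 + m)) :
    (4 * r ^ 2 * ((1 + r) ^ 2 + 2 * cc * (1 - r ^ 2) + 3 * cc * (1 - r) ^ 2)
        / (1 + r) ^ 4) = (1 - m) ^ 2 * (1 + 2 * cc * m + 3 * cc * m ^ 2) := by
  have e1 : 1 + r = 2 / (1 + m) := by rw [hr]; field_simp; ring
  have e2 : 1 - r = 2 * m / (1 + m) := by rw [hr]; field_simp; ring
  have e3 : 1 - r ^ 2 = (1 - r) * (1 + r) := by ring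
  rw [e3, e1, e2, hr]
  generalize cc = c
  field_simp
  ring

theorem PQ2_beta {m : ℝ} (h1p : 0 < 1 + m) {r : ℝ} (hr : r = (1 - m) / (1 + m)) :
    1 - r * ((1 - 2 * cc * m + 7 * cc * m ^ 2) / (1 + cc * m ^ 2))
      = (1 - r) / (((1 + r) ^ 2 + cc * (1 - r) ^ 2) / ((1 + r) ^ 2 + cc * (3 * r - 1) ^ 2)) := by
  have hc0 := cc_pos
  have e1 : 1 + r = 2 / (1 + m) := by rw [hr]; field_simp; ring
  have e2 : 1 - r = 2 * m / (1 + m) := by rw [hr]; field_simp; ring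
  have e5 : 3 * r - 1 = 2 * (1 - 2 * m) / (1 + m) := by rw [hr]; field_simp; ring
  rw [e1, e2, e5, hr]
  generalize cc = c at hc0 ⊢
  have h1 : 0 < 1 + c * m ^ 2 := by positivity
  have h2 : 0 < 1 + c * (1 - 2 * m) ^ 2 := by positivity
  field_simp
  ring

theorem PQ2 {m δ : ℝ} (hm0 : 0 ≤ m) (hm1 : m < 1) (hδ0 : 0 < δ) (hδ1 : δ < 1 - m) :
    (13 / 20) * ((1 - m) ^ 2 * (1 + 2 * cc * m + 3 * cc * m ^ 2)) * Real.log (vv m / vb m δ)
      ≤ -Real.log (1 - (δ / (1 + m)) ^ 2) := by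
  have hc := cc_le
  have hc0 := cc_pos
  have h1m : 0 < 1 - m := by linarith
  have h1p : 0 < 1 + m := by linarith
  set r : ℝ := (1 - m) / (1 + m) with hr
  set s : ℝ := (δ / (1 - m)) ^ 2 with hs
  have hr0 : 0 < r := by positivity
  have hs0 : 0 < s := by positivity
  have hs1 : s < 1 := by
    rw [hs, sq_lt_one_iff_abs_lt_one, abs_of_pos (by positivity), div_lt_one h1m]; exact hδ1
  have hrs : (δ / (1 + m)) ^ 2 = r ^ 2 * s := by rw [hr, hs]; field_simp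
  set β : ℝ := r * ((1 - 2 * cc * m + 7 * cc * m ^ 2) / (1 + cc * m ^ 2)) with hβ
  have hden : 0 < 1 + cc * m ^ 2 := by positivity
  have hβr : 1 - β = 2 * m * (1 + cc * (1 - 2 * m) ^ 2) / ((1 + cc * m ^ 2) * (1 + m)) := by
    rw [hβ, hr]; field_simp; ring
  have hβle : β ≤ 1 := by
    have : 0 ≤ 1 - β := by rw [hβr]; positivity
    linarith
  have hrβ : r ^ 2 ≤ β := by
    rw [hβ, sq]
    apply mul_le_mul_of_nonneg_left _ hr0.le
    rw [hr, div_le_div_iff₀ h1p hden]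
    nlinarith [mul_nonneg hc0.le hm0, mul_nonneg hc0.le (sq_nonneg m),
      mul_nonneg (mul_nonneg hc0.le (sq_nonneg m)) hm0, mul_nonneg (by linarith : (0:ℝ) ≤ 1 - cc) hm0]
  -- lower bound for vb / vv
  have hvv : 0 < vv m := by
    unfold vv
    have : 0 < 1 - m ^ 2 := by nlinarith
    positivity
  have hβs : 0 < 1 - β * s := by nlinarith
  have hvb : vv m * (1 - β * s) ≤ vb m δ := by
    have hδ2 : δ ^ 2 = s * (1 - m) ^ 2 := by rw [hs]; field_simp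
    have h5 : vv m * (β * s) = δ ^ 2 * ((1 - cc) + 6 * cc * m ^ 2 + cc * (1 - m) ^ 2) := by
      rw [hδ2, hβ, hr]; unfold vv; field_simp; ring
    rw [vb_eq]
    have h6 : δ ^ 2 ≤ (1 - m) ^ 2 := by nlinarith
    have h7 : δ ^ 2 * ((1 - cc) + 6 * cc * m ^ 2 + cc * δ ^ 2)
        ≤ δ ^ 2 * ((1 - cc) + 6 * cc * m ^ 2 + cc * (1 - m) ^ 2) := by gcongr
    nlinarith
  have hvbpos : 0 < vb m δ := lt_of_lt_of_le (by positivity) hvb
  have hlog : Real.log (vv m / vb m δ) ≤ -Real.log (1 - β * s) := by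
    rw [← Real.log_inv]
    apply Real.log_le_log (by positivity)
    rw [div_le_iff₀ hvbpos, inv_mul_eq_div, le_div_iff₀ hβs]
    exact hvb
  have hB0 : 0 ≤ (13 / 20) * ((1 - m) ^ 2 * (1 + 2 * cc * m + 3 * cc * m ^ 2)) := by positivity
  rw [hrs]
  rcases hm0.eq_or_lt with hm | hm
  · -- m = 0
    clear_value r s β
    have hβ1 : β = 1 := by rw [hβ, hr, ← hm]; simp
    have hr1 : r = 1 := by rw [hr, ← hm]; simp
    rw [hβ1] at hlog
    rw [hr1, ← hm]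
    simp only [one_pow, one_mul] at hlog ⊢
    have hl0 : 0 ≤ -Real.log (1 - s) := by
      have := Real.log_nonpos (x := 1 - s) (by linarith) (by linarith)
      linarith
    have : Real.log (vv 0 / vb 0 δ) ≤ -Real.log (1 - s) := by rw [hm]; exact hlog
    norm_num
    nlinarith
  · have hβlt : β < 1 := by
      have : 0 < 1 - β := by rw [hβr]; positivity
      linarith
    have hr1 : r < 1 := by rw [hr, div_lt_one h1p]; linarith
    have hV := V2 hr0 hr1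
    have hB := PQ2_B h1p hr
    have hβ2 : -Real.log (1 - r) + Real.log (((1 + r) ^ 2 + cc * (1 - r) ^ 2)
          / ((1 + r) ^ 2 + cc * (3 * r - 1) ^ 2)) = -Real.log (1 - β) := by
      have e4 : 1 - β = _ := PQ2_beta h1p hr
      have hd1 : 0 < (1 + r) ^ 2 + cc * (3 * r - 1) ^ 2 := by positivity
      have hd2 : 0 < (1 + r) ^ 2 + cc * (1 - r) ^ 2 := by positivity
      have hX : ((1 + r) ^ 2 + cc * (1 - r) ^ 2) / ((1 + r) ^ 2 + cc * (3 * r - 1) ^ 2) ≠ 0 := by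
        positivity
      have h1r : (1 - r) ≠ 0 := by intro h; linarith
      have h5 := Real.log_div h1r hX
      rw [e4, h5]
      ring
    rw [hB, hβ2] at hV
    exact PQ_final hB0 (by positivity) hrβ hβlt hs0.le hs1.le hlog hV

/-- `C = cosh E ≥ 1`, `S = sinh E`, i.e. `C² - S² = 1`, `S > 0`.
With `V = C + Ap + Am`, `m = (Ap - Am)/V`, `δ = S/V`:
`0.65 (1-m)² (1 + 2 c m + 3 c m²) log (v(m)/v̄(m,δ)) ≤ log ((C+2Ap)²/(1+4 C Ap+4 Ap²))`. -/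
theorem pq_ineq {C S Ap Am : ℝ} (hS : 0 < S) (hC : 0 < C) (hCS : C ^ 2 - S ^ 2 = 1)
    (hAm : 0 < Am) (hA : Am ≤ Ap) :
    (13 / 20) * ((1 - (Ap - Am) / (C + Ap + Am)) ^ 2
        * (1 + 2 * cc * ((Ap - Am) / (C + Ap + Am)) + 3 * cc * ((Ap - Am) / (C + Ap + Am)) ^ 2))
      * Real.log (vv ((Ap - Am) / (C + Ap + Am)) / vb ((Ap - Am) / (C + Ap + Am)) (S / (C + Ap + Am)))
      ≤ Real.log ((C + 2 * Ap) ^ 2 / (1 + 4 * C * Ap + 4 * Ap ^ 2)) := by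
  have hAp : 0 < Ap := by linarith
  have hV : 0 < C + Ap + Am := by positivity
  have hSC : S < C := by nlinarith
  have h := PQ2 (m := (Ap - Am) / (C + Ap + Am)) (δ := S / (C + Ap + Am))
    (div_nonneg (by linarith) hV.le) (by rw [div_lt_one hV]; linarith) (by positivity)
    (by rw [div_lt_iff₀ hV, sub_mul, div_mul_cancel₀ _ hV.ne']; linarith)
  have e : -Real.log (1 - (S / (C + Ap + Am) / (1 + (Ap - Am) / (C + Ap + Am))) ^ 2)
      = Real.log ((C + 2 * Ap) ^ 2 / (1 + 4 * C * Ap + 4 * Ap ^ 2)) := by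
    rw [← Real.log_inv]
    congr 1
    have e1 : 1 + (Ap - Am) / (C + Ap + Am) = (C + 2 * Ap) / (C + Ap + Am) := by
      field_simp; ring
    have e2 : S / (C + Ap + Am) / ((C + 2 * Ap) / (C + Ap + Am)) = S / (C + 2 * Ap) := by
      field_simp
    rw [e1, e2]
    have e3 : 1 - (S / (C + 2 * Ap)) ^ 2 = (1 + 4 * C * Ap + 4 * Ap ^ 2) / (C + 2 * Ap) ^ 2 := by
      have : S ^ 2 = C ^ 2 - 1 := by linarith
      rw [div_pow, this]; field_simp; ring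
    rw [e3, inv_div]
  rw [e] at h
  exact h

end Vale.Agent.P322
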