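import Vale.Agent.P322.Defs

/-! Module D: the two-variable algebraic-logarithmic inequality. -/

namespace Vale.Agent.P322
open Real

theorem nonneg_of_deriv_nonneg {f f' : ℝ → ℝ} {a b : ℝ} (hab : a ≤ b)
    (hf : ∀ x ∈ Set.Icc a b, HasDerivAt f (f' x) x) (h' : ∀ x ∈ Set.Ioo a b, 0 ≤ f' x)
    (h0 : 0 ≤ f a) : 0 ≤ f b := by
  have hm : MonotoneOn f (Set.Icc a b) := by
    apply monotoneOn_of_deriv_nonneg (convex_Icc a b)
    · intro x hx; exact (hf x hx).continuousAt.continuousWithinAt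
    · intro x hx
      rw [interior_Icc] at hx
      exact (hf x (Set.Ioo_subset_Icc_self hx)).differentiableAt.differentiableWithinAt
    · intro x hx
      rw [interior_Icc] at hx
      rw [(hf x (Set.Ioo_subset_Icc_self hx)).deriv]
      exact h' x hx
  exact h0.trans (hm (Set.left_mem_Icc.2 hab) (Set.right_mem_Icc.2 hab) hab)

theorem cc_le : cc ≤ 13933 / 50000 := by
  unfold cc
  have h := Real.log_two_lt_d9
  have h2 := Real.log_two_gt_d9
  have : (1:ℝ) / (2 * Real.log 2) ≥ 36067 / 50000 := by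
    rw [ge_iff_le, le_div_iff₀ (by linarith)]
    linarith
  linarith

theorem cc_ge : (27865 : ℝ) / 100000 ≤ cc := by
  unfold cc
  have h := Real.log_two_lt_d9
  have h2 := Real.log_two_gt_d9
  have : (1:ℝ) / (2 * Real.log 2) ≤ 72135 / 100000 := by
    rw [div_le_iff₀ (by linarith)]
    linarith
  linarith

theorem cc_pos : 0 < cc := by have := cc_ge; linarith

/-- partial sums of the series of `-log (1-x)` are lower bounds -/
theorem neg_log_ge_three {x : ℝ} (h0 : 0 ≤ x) (h1 : x < 1) :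
    x + x ^ 2 / 2 + x ^ 3 / 3 ≤ -Real.log (1 - x) := by
  have hs := Real.hasSum_pow_div_log_of_abs_lt_one (x := x) (by rw [abs_of_nonneg h0]; exact h1)
  have := sum_le_hasSum (Finset.range 3) (fun i _ => by positivity) hs
  simp only [Finset.sum_range_succ, Finset.sum_range_zero] at this
  norm_num at this
  linarith

theorem neg_log_ge_five {x : ℝ} (h0 : 0 ≤ x) (h1 : x < 1) :
    x + x ^ 2 / 2 + x ^ 3 / 3 + x ^ 4 / 4 + x ^ 5 / 5 ≤ -Real.log (1 - x) := by
  have hs := Real.hasSum_pow_div_log_of_abs_lt_one (x := x) (by rw [abs_of_nonneg h0]; exact h1)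
  have := sum_le_hasSum (Finset.range 5) (fun i _ => by positivity) hs
  simp only [Finset.sum_range_succ, Finset.sum_range_zero] at this
  norm_num at this
  linarith

theorem neg_log_le {x : ℝ} (h0 : 0 ≤ x) (h1 : x < 1) :
    -Real.log (1 - x) ≤ x + x ^ 2 / 2 + x ^ 3 / 3 + x ^ 4 / (4 * (1 - x)) := by
  have key : 0 ≤ x + x ^ 2 / 2 + x ^ 3 / 3 + x ^ 4 / (4 * (1 - x)) + Real.log (1 - x) := by
    apply nonneg_of_deriv_nonneg (a := 0) (b := x)
      (f := fun x => x + x ^ 2 / 2 + x ^ 3 / 3 + x ^ 4 / (4 * (1 - x)) + Real.log (1 - x))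
      (f' := fun x => x ^ 4 / (4 * (1 - x) ^ 2)) h0
    · intro t ht
      have ht1 : 1 - t ≠ 0 := by have := ht.2; intro h; linarith
      have h1 : HasDerivAt (fun x : ℝ => 1 - x) (-1) t := by
        simpa using (hasDerivAt_id t).const_sub 1
      have h2 := (((hasDerivAt_id t).add ((hasDerivAt_pow 2 t).div_const 2)).add
        ((hasDerivAt_pow 3 t).div_const 3)).add
          ((hasDerivAt_pow 4 t).div (h1.const_mul 4) (by positivity))
      have h3 := h2.add (h1.log ht1)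
      refine (h3.congr_deriv ?_)
      field_simp
      ring
    · intro t ht; positivity
    · simp
  linarith

theorem log_one_add_le {x : ℝ} (h0 : 0 ≤ x) :
    Real.log (1 + x) ≤ x * (6 + x) / (6 + 4 * x) := by
  have key : 0 ≤ x * (6 + x) / (6 + 4 * x) - Real.log (1 + x) := by
    apply nonneg_of_deriv_nonneg (a := 0) (b := x)
      (f := fun x => x * (6 + x) / (6 + 4 * x) - Real.log (1 + x))
      (f' := fun x => 4 * x ^ 3 / ((6 + 4 * x) ^ 2 * (1 + x))) h0
    · intro t ht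
      have ht0 : 0 ≤ t := ht.1
      have ht1 : 1 + t ≠ 0 := by positivity
      have ht2 : 6 + 4 * t ≠ 0 := by positivity
      have h1 : HasDerivAt (fun x : ℝ => 1 + x) 1 t := by
        simpa using (hasDerivAt_id t).const_add 1
      have h6 : HasDerivAt (fun x : ℝ => 6 + x) 1 t := by
        simpa using (hasDerivAt_id t).const_add 6
      have h64 : HasDerivAt (fun x : ℝ => 6 + 4 * x) 4 t := by
        simpa using ((hasDerivAt_id t).const_mul 4).const_add 6
      have h3 := (((hasDerivAt_id t).mul h6).div h64 ht2).sub (h1.log ht1)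
      refine (h3.congr_deriv ?_)
      simp only [id_eq, Pi.mul_apply]
      field_simp
      ring
    · intro t ht
      have := ht.1
      positivity
    · simp
  linarith

/-- polynomial certificate on `[0,1/4]` (Bernstein form) -/
theorem poly1 {r : ℝ} (h0 : 0 ≤ r) (h1 : r ≤ 1 / 4) :
    0 ≤ ((1+r^2/2+r^4/3)*(1+r)^4*(1-r)*((1+r)^2+(13933/50000)*(3*r-1)^2)*(6*((1+r)^2+(13933/50000)*(3*r-1)^2)+4*(4*(13933/50000)*r*(1-2*r))) - 13/5*((1+r)^2+2*(13933/50000)*(1-r^2)+3*(13933/50000)*(1-r)^2)*(((r+r^2/2+r^3/3)*(1-r)+r^4/4)*((1+r)^2+(13933/50000)*(3*r-1)^2)*(6*((1+r)^2+(13933/50000)*(3*r-1)^2)+4*(4*(13933/50000)*r*(1-2*r)))+(1-r)*(4*(13933/50000)*r*(1-2*r))*(6*((1+r)^2+(13933/50000)*(3*r-1)^2)+(4*(13933/50000)*r*(1-2*r))))) := by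
  obtain ⟨x, hx⟩ : ∃ x, x = 4 * r := ⟨_, rfl⟩
  obtain ⟨y, hy⟩ : ∃ y, y = 1 - 4 * r := ⟨_, rfl⟩
  have hx0 : 0 ≤ x := by rw [hx]; linarith
  have hy0 : 0 ≤ y := by rw [hy]; linarith
  have : ((1+r^2/2+r^4/3)*(1+r)^4*(1-r)*((1+r)^2+(13933/50000)*(3*r-1)^2)*(6*((1+r)^2+(13933/50000)*(3*r-1)^2)+4*(4*(13933/50000)*r*(1-2*r))) - 13/5*((1+r)^2+2*(13933/50000)*(1-r^2)+3*(13933/50000)*(1-r)^2)*(((r+r^2/2+r^3/3)*(1-r)+r^4/4)*((1+r)^2+(13933/50000)*(3*r-1)^2)*(6*((1+r)^2+(13933/50000)*(3*r-1)^2)+4*(4*(13933/50000)*r*(1-2*r)))+(1-r)*(4*(13933/50000)*r*(1-2*r))*(6*((1+r)^2+(13933/50000)*(3*r-1)^2)+(4*(13933/50000)*r*(1-2*r))))) = (12262285467/1250000000) * x^0 * y^13 + (5450253657707757/50000000000000) * x^1 * y^12 + (221847174697505451/400000000000000) * x^2 * y^11 + (68313345294893122401/40000000000000000) * x^3 * y^10 + (1133946672953835014971/320000000000000000) * x^4 * y^9 + (5010264714180640360111/960000000000000000) * x^5 * y^8 + (85981442765129440798459/15360000000000000000)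 * x^6 * y^7 + (135595569824455272943757/30720000000000000000) * x^7 * y^6 + (627192322861785248943631/245760000000000000000) * x^8 * y^5 + (17495079018842327632903/16384000000000000000) * x^9 * y^4 + (414016418473185885280001/1310720000000000000000) * x^10 * y^3 + (250888310871830401036673/3932160000000000000000) * x^11 * y^2 + (10859887518521987280647/1310720000000000000000) * x^12 * y^1 + (185621867928555181539/327680000000000000000) * x^13 * y^0 := by
    rw [hx, hy]; ring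
  rw [this]
  positivity

theorem poly2 {r : ℝ} (h0 : 1 / 4 ≤ r) (h1 : r ≤ 1 / 2) :
    0 ≤ ((1+r^2/2+r^4/3)*(1+r)^4*(1-r)*((1+r)^2+(13933/50000)*(3*r-1)^2)*(6*((1+r)^2+(13933/50000)*(3*r-1)^2)+4*(4*(13933/50000)*r*(1-2*r))) - 13/5*((1+r)^2+2*(13933/50000)*(1-r^2)+3*(13933/50000)*(1-r)^2)*(((r+r^2/2+r^3/3)*(1-r)+r^4/4)*((1+r)^2+(13933/50000)*(3*r-1)^2)*(6*((1+r)^2+(13933/50000)*(3*r-1)^2)+4*(4*(13933/50000)*r*(1-2*r)))+(1-r)*(4*(13933/50000)*r*(1-2*r))*(6*((1+r)^2+(13933/50000)*(3*r-1)^2)+(4*(13933/50000)*r*(1-2*r))))) := by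
  obtain ⟨x, hx⟩ : ∃ x, x = 4 * r - 1 := ⟨_, rfl⟩
  obtain ⟨y, hy⟩ : ∃ y, y = 2 - 4 * r := ⟨_, rfl⟩
  have hx0 : 0 ≤ x := by rw [hx]; linarith
  have hy0 : 0 ≤ y := by rw [hy]; linarith
  have : ((1+r^2/2+r^4/3)*(1+r)^4*(1-r)*((1+r)^2+(13933/50000)*(3*r-1)^2)*(6*((1+r)^2+(13933/50000)*(3*r-1)^2)+4*(4*(13933/50000)*r*(1-2*r))) - 13/5*((1+r)^2+2*(13933/50000)*(1-r^2)+3*(13933/50000)*(1-r)^2)*(((r+r^2/2+r^3/3)*(1-r)+r^4/4)*((1+r)^2+(13933/50000)*(3*r-1)^2)*(6*((1+r)^2+(13933/50000)*(3*r-1)^2)+4*(4*(13933/50000)*r*(1-2*r)))+(1-r)*(4*(13933/50000)*r*(1-2*r))*(6*((1+r)^2+(13933/50000)*(3*r-1)^2)+(4*(13933/50000)*r*(1-2*r))))) = (185621867928555181539/327680000000000000000) * x^0 * y^13 + (8444786746047751599409/1310720000000000000000) * x^1 * y^12 + (32788936612551583302421/786432000000000000000) * x^2 * y^11 + (772896674937708305029163/3932160000000000000000) * x^3 * y^10 + (33690327242120702787781/49152000000000000000) * x^4 * y^9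 + (1713063309014756019526019/983040000000000000000) * x^5 * y^8 + (132060310926638085765693/40960000000000000000) * x^6 * y^7 + (178413987113081404096833/40960000000000000000) * x^7 * y^6 + (21987092206433723546127/5120000000000000000) * x^8 * y^5 + (93931774712432420672189/30720000000000000000) * x^9 * y^4 + (4706893855892914146269/3072000000000000000) * x^10 * y^3 + (315080625004862105639/614400000000000000) * x^11 * y^2 + (8234509406946653809/80000000000000000) * x^12 * y^1 + (11989431026956724157/1280000000000000000) * x^13 * y^0 := by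
    rw [hx, hy]; ring
  rw [this]
  positivity

theorem poly3 {r : ℝ} (h0 : 1 / 2 ≤ r) (h1 : r ≤ 1) :
    0 ≤ (((1+r)^4-13/5*r^2*((1+r)^2+2*(13933/50000)*(1-r^2)+3*(13933/50000)*(1-r)^2))*(1+r/2+r^2/3+r^3/4+r^4/5)*(6+4*r)-(6+r)*(1+r)^4) := by
  obtain ⟨x, hx⟩ : ∃ x, x = 2 * r - 1 := ⟨_, rfl⟩
  obtain ⟨y, hy⟩ : ∃ y, y = 2 - 2 * r := ⟨_, rfl⟩
  have hx0 : 0 ≤ x := by rw [hx]; linarith
  have hy0 : 0 ≤ y := by rw [hy]; linarith
  have : (((1+r)^4-13/5*r^2*((1+r)^2+2*(13933/50000)*(1-r^2)+3*(13933/50000)*(1-r)^2))*(1+r/2+r^2/3+r^3/4+r^4/5)*(6+4*r)-(6+r)*(1+r)^4) = (181121193/80000000) * x^0 * y^9 + (23502658579/960000000) * x^1 * y^8 + (115051284199/960000000) * x^2 * y^7 + (33435608737/96000000) * x^3 * y^6 + (1978389611/3000000) * x^4 * y^5 + (50307807167/60000000) * x^5 * y^4 + (42639764413/60000000) * x^6 * y^3 + (11522166119/30000000) * x^7 * y^2 + (29735109/250000) * x^8 * y^1 + (238/15) * x^9 * y^0 := by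
    rw [hx, hy]; ring
  rw [this]
  positivity

end Vale.Agent.P322
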