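import Vale.Agent.P322.SBound
import Vale.Agent.P322.FFun
import Vale.Agent.P322.Edge
import Vale.Agent.P322.PQ

/-! Module E: `Q ≥ 0`. -/

namespace Vale.Agent.P322
open Real

namespace PathAux

noncomputable def gg (s : ℝ) : ℝ := s * Real.log s

noncomputable def jj (C S A : ℝ) : ℝ :=
  (gg (C + 2 * A + S) + gg (C + 2 * A - S)) / 2 - gg (C + 2 * A)

theorem cc_pos : 0 < cc := by
  have h := Real.log_two_gt_d9
  have h2 : 1 / (2 * Real.log 2) < 1 := by
    rw [div_lt_one (by linarith)]; linarith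
  unfold cc; linarith

theorem cc_lt : cc < 1 / 3 := by
  have h := Real.log_two_lt_d9
  have h' := Real.log_two_gt_d9
  have h2 : 2 / 3 < 1 / (2 * Real.log 2) := by
    rw [lt_div_iff₀ (by linarith)]; linarith
  unfold cc; linarith

theorem vv_pos {m : ℝ} (h0 : -1 < m) (h1 : m < 1) : 0 < vv m := by
  unfold vv
  have := cc_pos
  apply mul_pos
  · nlinarith
  · positivity

theorem vb_pos {m d : ℝ} (h0 : -1 < m + d) (h1 : m + d < 1) (h2 : -1 < m - d) (h3 : m - d < 1) :
    0 < vb m d := by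
  unfold vb
  have := vv_pos h0 h1
  have := vv_pos h2 h3
  positivity

theorem vb_eq (m d : ℝ) : vb m d =
    1 + (cc - 1) * (m ^ 2 + d ^ 2) - cc * (m ^ 4 + 6 * m ^ 2 * d ^ 2 + d ^ 4) := by
  unfold vb vv; ring

theorem vb_le_vv (m d : ℝ) : vb m d ≤ vv m := by
  have h1 := cc_pos
  have h2 := cc_lt
  have : vv m - vb m d = d ^ 2 * ((1 - cc) + 6 * cc * m ^ 2 + cc * d ^ 2) := by
    unfold vb vv; ring
  have h3 : 0 ≤ d ^ 2 * ((1 - cc) + 6 * cc * m ^ 2 + cc * d ^ 2) := by
    apply mul_nonneg (sq_nonneg _)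
    have : 0 ≤ 1 - cc := by linarith
    positivity
  linarith

theorem hasDerivAt_vv (m : ℝ) : HasDerivAt vv (2 * (cc - 1) * m - 4 * cc * m ^ 3) m := by
  have h : vv = fun m => 1 + (cc - 1) * m ^ 2 - cc * m ^ 4 := by
    funext m; unfold vv; ring
  rw [h]
  have h1 : HasDerivAt (fun m : ℝ => m ^ 2) (2 * m) m := by simpa using hasDerivAt_pow 2 m
  have h2 : HasDerivAt (fun m : ℝ => m ^ 4) (4 * m ^ 3) m := by simpa using hasDerivAt_pow 4 m
  exact (((h1.const_mul (cc - 1)).const_add 1).sub (h2.const_mul cc)).congr_deriv (by ring)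

/-- the bracket. -/
noncomputable def BB (m : ℝ) : ℝ := (1 - m) ^ 2 * (1 + 2 * cc * m + 3 * cc * m ^ 2)

theorem BB_nonneg {m : ℝ} (h : 0 ≤ m) : 0 ≤ BB m := by
  have := cc_pos
  unfold BB; positivity

/-- derivative of `V ↦ V * vv m` along the path. -/
theorem deriv_y {C Am A : ℝ} (hV : 0 < C + A + Am) :
    HasDerivAt (fun A => (C + A + Am) * vv ((A - Am) / (C + A + Am)))
      (BB ((A - Am) / (C + A + Am))) A := by
  have hV' : C + A + Am ≠ 0 := hV.ne'
  have h1 : HasDerivAt (fun A : ℝ => C + A + Am) 1 A := by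
    simpa using ((hasDerivAt_id A).const_add C).add_const Am
  have h2 : HasDerivAt (fun A : ℝ => A - Am) 1 A := by
    simpa using (hasDerivAt_id A).sub_const Am
  have h3 : HasDerivAt (fun A : ℝ => (A - Am) / (C + A + Am))
      ((1 - (A - Am) / (C + A + Am)) / (C + A + Am)) A :=
    HasDerivAt.congr_deriv (f := fun A : ℝ => (A - Am) / (C + A + Am)) (h2.div h1 hV')
      (by field_simp)
  have h4 := (hasDerivAt_vv ((A - Am) / (C + A + Am))).comp A h3
  have h5 := h1.mul h4
  refine HasDerivAt.congr_deriv (f := fun A => (C + A + Am) * vv ((A - Am) / (C + A + Am))) h5 ?_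
  simp only [Function.comp]
  generalize (A - Am) / (C + A + Am) = m
  unfold BB vv
  field_simp
  ring

theorem deriv_yb {C S Am A : ℝ} (hV : 0 < C + A + Am) :
    HasDerivAt (fun A => (C + A + Am) * vb ((A - Am) / (C + A + Am)) (S / (C + A + Am)))
      (BB ((A - Am) / (C + A + Am)) + (S / (C + A + Am)) ^ 2 *
        ((1 - 3 * cc) + 2 * cc * (1 - 3 * ((A - Am) / (C + A + Am))) ^ 2
          + 3 * cc * (S / (C + A + Am)) ^ 2)) A := by
  have hV' : C + A + Am ≠ 0 := hV.ne'
  have h1 : HasDerivAt (fun A : ℝ => C + A + Am) 1 A := by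
    simpa using ((hasDerivAt_id A).const_add C).add_const Am
  have h2 : HasDerivAt (fun A : ℝ => A - Am) 1 A := by
    simpa using (hasDerivAt_id A).sub_const Am
  have h3 : HasDerivAt (fun A : ℝ => (A - Am) / (C + A + Am))
      ((1 - (A - Am) / (C + A + Am)) / (C + A + Am)) A :=
    HasDerivAt.congr_deriv (f := fun A : ℝ => (A - Am) / (C + A + Am)) (h2.div h1 hV')
      (by field_simp)
  have h3' : HasDerivAt (fun A : ℝ => S / (C + A + Am)) (-(S / (C + A + Am)) / (C + A + Am)) A :=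
    HasDerivAt.congr_deriv (f := fun A : ℝ => S / (C + A + Am))
      ((hasDerivAt_const A S).div h1 hV') (by field_simp; ring)
  have h4a := (hasDerivAt_vv ((A - Am) / (C + A + Am) + S / (C + A + Am))).comp A (h3.add h3')
  have h4b := (hasDerivAt_vv ((A - Am) / (C + A + Am) - S / (C + A + Am))).comp A (h3.sub h3')
  have h5 := h1.mul ((h4a.add h4b).div_const 2)
  refine HasDerivAt.congr_deriv
    (f := fun A => (C + A + Am) * vb ((A - Am) / (C + A + Am)) (S / (C + A + Am))) h5 ?_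
  simp only [Function.comp, Pi.add_apply, Pi.sub_apply]
  generalize (A - Am) / (C + A + Am) = m
  generalize S / (C + A + Am) = d
  unfold BB vv
  field_simp
  ring

theorem hasDerivAt_gg {s : ℝ} (hs : 0 < s) : HasDerivAt gg (Real.log s + 1) s := by
  have := (hasDerivAt_id s).mul (Real.hasDerivAt_log hs.ne')
  refine HasDerivAt.congr_deriv (f := gg) this ?_
  simp only [id]
  field_simp

theorem hasDerivAt_jj {C S A : ℝ} (h1 : 0 < C + 2 * A + S) (h2 : 0 < C + 2 * A - S)
    (h3 : 0 < C + 2 * A) (hCS : C ^ 2 - S ^ 2 = 1) :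
    HasDerivAt (jj C S) (-Real.log ((C + 2 * A) ^ 2 / (1 + 4 * C * A + 4 * A ^ 2))) A := by
  have e1 : HasDerivAt (fun A : ℝ => C + 2 * A + S) 2 A := by
    simpa using (((hasDerivAt_id A).const_mul 2).const_add C).add_const S
  have e2 : HasDerivAt (fun A : ℝ => C + 2 * A - S) 2 A := by
    simpa using (((hasDerivAt_id A).const_mul 2).const_add C).sub_const S
  have e3 : HasDerivAt (fun A : ℝ => C + 2 * A) 2 A := by
    simpa using ((hasDerivAt_id A).const_mul 2).const_add C
  have f1 := (hasDerivAt_gg h1).comp A e1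
  have f2 := (hasDerivAt_gg h2).comp A e2
  have f3 := (hasDerivAt_gg h3).comp A e3
  have f := ((f1.add f2).div_const 2).sub f3
  refine HasDerivAt.congr_deriv (f := jj C S) f ?_
  have hprod : 1 + 4 * C * A + 4 * A ^ 2 = (C + 2 * A + S) * (C + 2 * A - S) := by
    nlinarith [hCS]
  rw [hprod, Real.log_div (by positivity) (by positivity), Real.log_mul h1.ne' h2.ne',
    Real.log_pow]
  push_cast
  ring

theorem two_V_w0 {C S A Am : ℝ} (hV : 0 < C + A + Am) (h1 : 0 < C + 2 * A + S)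
    (h2 : 0 < C + 2 * A - S) (h3 : 0 < C + 2 * Am + S) (h4 : 0 < C + 2 * Am - S)
    (h5 : 0 < C + 2 * A) (h6 : 0 < C + 2 * Am) :
    2 * (C + A + Am) * w0 ((A - Am) / (C + A + Am)) (S / (C + A + Am))
      = jj C S A + jj C S Am := by
  have hV' : C + A + Am ≠ 0 := hV.ne'
  unfold w0 phi jj gg
  have a1 : 1 + ((A - Am) / (C + A + Am) + S / (C + A + Am)) = (C + 2 * A + S) / (C + A + Am) := by
    field_simp; ring
  have a2 : 1 - ((A - Am) / (C + A + Am) + S / (C + A + Am)) = (C + 2 * Am - S) / (C + A + Am) := by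
    field_simp; ring
  have a3 : 1 + ((A - Am) / (C + A + Am) - S / (C + A + Am)) = (C + 2 * A - S) / (C + A + Am) := by
    field_simp; ring
  have a4 : 1 - ((A - Am) / (C + A + Am) - S / (C + A + Am)) = (C + 2 * Am + S) / (C + A + Am) := by
    field_simp; ring
  have a5 : 1 + (A - Am) / (C + A + Am) = (C + 2 * A) / (C + A + Am) := by
    field_simp; ring
  have a6 : 1 - (A - Am) / (C + A + Am) = (C + 2 * Am) / (C + A + Am) := by
    field_simp; ring
  rw [a1, a2, a3, a4, a5, a6, Real.log_div h1.ne' hV', Real.log_div h2.ne' hV',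
    Real.log_div h3.ne' hV', Real.log_div h4.ne' hV', Real.log_div h5.ne' hV',
    Real.log_div h6.ne' hV']
  field_simp
  ring

/-- The key comparison of slopes. -/
theorem slope_le {y yb N : ℝ} (hyb : 0 < yb) (hle : yb ≤ y) (hN : 0 < N) :
    GG (Zi (N / y)) - GG (Zi (N / yb)) ≤ (13 / 20) * Real.log (y / yb) := by
  have hy : 0 < y := lt_of_lt_of_le hyb hle
  have hNy : 0 < N / y := by positivity
  have hNyb : 0 < N / yb := by positivity
  have hle2 : N / y ≤ N / yb := div_le_div_of_nonneg_left hN.le hyb hle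
  have hZ : Zi (N / yb) ≤ Zi (N / y) := Zi_antitoneOn hNy hNyb hle2
  have hlog : 0 ≤ Real.log (y / yb) := by
    apply Real.log_nonneg
    rw [le_div_iff₀ hyb]; linarith
  rcases le_total (N / y) (Real.log 2) with h | h
  · have h1 := GG_sub_le (Zi_nonneg (N / yb)) hZ
    refine h1.trans ?_
    have h2 : om (Zi (N / y)) = N / y := om_Zi hNy h
    have h3 : om (Zi (N / yb)) ≤ N / yb := om_Zi_le hNyb
    have h4 : om (Zi (N / yb)) / om (Zi (N / y)) ≤ y / yb := by
      rw [h2]
      calc om (Zi (N / yb)) / (N / y) ≤ (N / yb) / (N / y) :=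
            div_le_div_of_nonneg_right h3 hNy.le
        _ = y / yb := by field_simp
    have h5 : 0 < om (Zi (N / yb)) / om (Zi (N / y)) := div_pos (om_pos _) (om_pos _)
    have := Real.log_le_log h5 h4
    linarith
  · rw [Zi_of_ge h, Zi_of_ge (h.trans hle2)]
    linarith

/-- the main quantity. -/
noncomputable def qq (C S Am N A : ℝ) : ℝ :=
  (jj C S A + jj C S Am) + FF ((C + A + Am) * vv ((A - Am) / (C + A + Am))) N
    - FF ((C + A + Am) * vb ((A - Am) / (C + A + Am)) (S / (C + A + Am))) N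

theorem bounds {C S A Am : ℝ} (hS : 0 < S) (hC : 0 < C) (hCS : C ^ 2 - S ^ 2 = 1)
    (hAm : 0 < Am) (hA : 0 < A) :
    S < C ∧ -1 < (A - Am) / (C + A + Am) ∧ (A - Am) / (C + A + Am) < 1 ∧
    -1 < (A - Am) / (C + A + Am) + S / (C + A + Am) ∧
    (A - Am) / (C + A + Am) + S / (C + A + Am) < 1 ∧
    -1 < (A - Am) / (C + A + Am) - S / (C + A + Am) ∧
    (A - Am) / (C + A + Am) - S / (C + A + Am) < 1 := by
  have hSC : S < C := by nlinarith
  have hV : 0 < C + A + Am := by linarith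
  refine ⟨hSC, ?_, ?_, ?_, ?_, ?_, ?_⟩
  · rw [lt_div_iff₀ hV]; linarith
  · rw [div_lt_one hV]; linarith
  · rw [← add_div, lt_div_iff₀ hV]; linarith
  · rw [← add_div, div_lt_one hV]; linarith
  · rw [← sub_div, lt_div_iff₀ hV]; linarith
  · rw [← sub_div, div_lt_one hV]; linarith

theorem y_pos {C S A Am : ℝ} (hS : 0 < S) (hC : 0 < C) (hCS : C ^ 2 - S ^ 2 = 1)
    (hAm : 0 < Am) (hA : 0 < A) :
    0 < (C + A + Am) * vv ((A - Am) / (C + A + Am)) := by
  obtain ⟨_, h1, h2, _⟩ := bounds hS hC hCS hAm hA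
  have := vv_pos h1 h2
  positivity

theorem yb_pos {C S A Am : ℝ} (hS : 0 < S) (hC : 0 < C) (hCS : C ^ 2 - S ^ 2 = 1)
    (hAm : 0 < Am) (hA : 0 < A) :
    0 < (C + A + Am) * vb ((A - Am) / (C + A + Am)) (S / (C + A + Am)) := by
  obtain ⟨_, _, _, h1, h2, h3, h4⟩ := bounds hS hC hCS hAm hA
  have := vb_pos h1 h2 h3 h4
  positivity

theorem yb_le_y {C S A Am : ℝ} (hC : 0 < C) (hAm : 0 < Am) (hA : 0 < A) :
    (C + A + Am) * vb ((A - Am) / (C + A + Am)) (S / (C + A + Am)) ≤
      (C + A + Am) * vv ((A - Am) / (C + A + Am)) :=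
  mul_le_mul_of_nonneg_left (vb_le_vv _ _) (by linarith)

theorem qq_antitone {C S Am N : ℝ} (hS : 0 < S) (hC : 0 < C) (hCS : C ^ 2 - S ^ 2 = 1)
    (hAm : 0 < Am) (hN : 0 < N) : AntitoneOn (qq C S Am N) (Set.Ici Am) := by
  have hSC : S < C := by nlinarith
  have key : ∀ A, Am ≤ A → ∃ f', HasDerivAt (qq C S Am N) f' A ∧ f' ≤ 0 := by
    intro A hA
    have hA0 : 0 < A := lt_of_lt_of_le hAm hA
    have hV : 0 < C + A + Am := by linarith
    have hy := y_pos hS hC hCS hAm hA0
    have hyb := yb_pos hS hC hCS hAm hA0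
    have hle := yb_le_y (S := S) hC hAm hA0
    have d1 := hasDerivAt_jj (C := C) (S := S) (A := A) (by linarith) (by linarith)
      (by linarith) hCS
    have d2 := (hasDerivAt_FF hy hN).comp A (deriv_y hV)
    have d3 := (hasDerivAt_FF hyb hN).comp A (deriv_yb (S := S) hV)
    have d := ((d1.add_const (jj C S Am)).add d2).sub d3
    refine ⟨_, d, ?_⟩
    set m := (A - Am) / (C + A + Am) with hm
    set δ := S / (C + A + Am) with hδ
    have hm0 : 0 ≤ m := by rw [hm]; apply div_nonneg <;> linarith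
    have hs := slope_le hyb hle hN
    have hB := BB_nonneg hm0
    have hG : 0 ≤ GG (Zi (N / ((C + A + Am) * vb m δ))) := GG_nonneg (Zi_nonneg _)
    have hpq := pq_ineq hS hC hCS hAm hA
    rw [← hm, ← hδ] at hpq
    have hquot : (C + A + Am) * vv m / ((C + A + Am) * vb m δ) = vv m / vb m δ := by
      rw [mul_div_mul_left _ _ hV.ne']
    rw [hquot] at hs
    have hextra : 0 ≤ δ ^ 2 * ((1 - 3 * cc) + 2 * cc * (1 - 3 * m) ^ 2 + 3 * cc * δ ^ 2) := by
      have h1 := cc_pos
      have h2 := cc_lt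
      have h3 : 0 ≤ 1 - 3 * cc := by linarith
      positivity
    have h1 := mul_le_mul_of_nonneg_right hs hB
    have h2 := mul_nonneg hG hextra
    have h3 : 13 / 20 * Real.log (vv m / vb m δ) * BB m
        = 13 / 20 * ((1 - m) ^ 2 * (1 + 2 * cc * m + 3 * cc * m ^ 2)) * Real.log (vv m / vb m δ) := by
      unfold BB; ring
    nlinarith [h1, h2, h3, hpq]
  apply antitoneOn_of_deriv_nonpos (convex_Ici Am)
  · intro A hA
    obtain ⟨f', h, _⟩ := key A hA
    exact h.continuousAt.continuousWithinAt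
  · intro A hA
    rw [interior_Ici] at hA
    obtain ⟨f', h, _⟩ := key A (le_of_lt hA)
    exact h.differentiableAt.differentiableWithinAt
  · intro A hA
    rw [interior_Ici] at hA
    obtain ⟨f', h, h'⟩ := key A (le_of_lt hA)
    rw [h.deriv]; exact h'

/-- diagonal path. -/
noncomputable def dd (C S N A : ℝ) : ℝ :=
  2 * jj C S A + FF (C + 2 * A) N - FF ((C + 2 * A) * vb 0 (S / (C + 2 * A))) N

theorem dd_eq (C S N A : ℝ) : dd C S N A = qq C S A N A := by
  have h1 : C + A + A = C + 2 * A := by ring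
  have h2 : vv 0 = 1 := by unfold vv; ring
  unfold dd qq
  rw [h1, sub_self, zero_div, h2, mul_one]
  ring

theorem dd_antitone {C S N : ℝ} (hS : 0 < S) (hC : 0 < C) (hCS : C ^ 2 - S ^ 2 = 1)
    (hN : 0 < N) : AntitoneOn (dd C S N) (Set.Ioi 0) := by
  have hSC : S < C := by nlinarith
  have key : ∀ A, 0 < A → ∃ f', HasDerivAt (dd C S N) f' A ∧ f' ≤ 0 := by
    intro A hA
    have hV : 0 < C + 2 * A := by linarith
    have hV' : C + 2 * A ≠ 0 := hV.ne'
    have e3 : HasDerivAt (fun A : ℝ => C + 2 * A) 2 A := by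
      simpa using ((hasDerivAt_id A).const_mul 2).const_add C
    have hyb := yb_pos hS hC hCS hA hA
    have hle := yb_le_y (S := S) hC hA hA
    have hVV : C + A + A = C + 2 * A := by ring
    have h2 : vv 0 = 1 := by unfold vv; ring
    rw [hVV, sub_self, zero_div] at hyb hle
    rw [h2, mul_one] at hle
    have d1 := hasDerivAt_jj (C := C) (S := S) (A := A) (by linarith) (by linarith)
      (by linarith) hCS
    have d2 := (hasDerivAt_FF hV hN).comp A e3
    have e4 : HasDerivAt (fun A : ℝ => (C + 2 * A) * vb 0 (S / (C + 2 * A)))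
        (2 * (1 + (1 - cc) * (S / (C + 2 * A)) ^ 2 + 3 * cc * (S / (C + 2 * A)) ^ 4)) A := by
      have g1 : HasDerivAt (fun A : ℝ => S / (C + 2 * A))
          (-(2 * (S / (C + 2 * A))) / (C + 2 * A)) A :=
        HasDerivAt.congr_deriv (f := fun A : ℝ => S / (C + 2 * A))
          ((hasDerivAt_const A S).div e3 hV') (by field_simp; ring)
      have g2 := (hasDerivAt_vv (S / (C + 2 * A))).comp A g1
      have g3 := e3.mul g2
      have g4 : (fun A : ℝ => (C + 2 * A) * vb 0 (S / (C + 2 * A)))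
          = (fun A : ℝ => C + 2 * A) * (vv ∘ fun A : ℝ => S / (C + 2 * A)) := by
        funext x
        simp only [Pi.mul_apply, Function.comp]
        unfold vb vv; ring
      rw [g4]
      refine HasDerivAt.congr_deriv g3 ?_
      simp only [Function.comp]
      generalize S / (C + 2 * A) = d
      unfold vv
      field_simp
      ring
    have d3 := (hasDerivAt_FF hyb hN).comp A e4
    have d := ((d1.const_mul 2).add d2).sub d3
    refine ⟨_, d, ?_⟩
    set δ := S / (C + 2 * A) with hδ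
    have hs := slope_le hyb hle hN
    have hG : 0 ≤ GG (Zi (N / ((C + 2 * A) * vb 0 δ))) := GG_nonneg (Zi_nonneg _)
    have hpq := pq_ineq hS hC hCS hA le_rfl
    rw [hVV, sub_self, zero_div, ← hδ, h2] at hpq
    have hquot : (C + 2 * A) / ((C + 2 * A) * vb 0 δ) = 1 / vb 0 δ := by
      rw [div_mul_eq_div_div, div_self hV']
    rw [hquot] at hs
    have hpq' : 13 / 20 * Real.log (1 / vb 0 δ)
        ≤ Real.log ((C + 2 * A) ^ 2 / (1 + 4 * C * A + 4 * A ^ 2)) := by
      have : 13 / 20 * ((1 - (0:ℝ)) ^ 2 * (1 + 2 * cc * 0 + 3 * cc * 0 ^ 2))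
        * Real.log (1 / vb 0 δ) = 13 / 20 * Real.log (1 / vb 0 δ) := by ring
      rw [this] at hpq
      exact hpq
    have hextra : 0 ≤ (1 - cc) * δ ^ 2 + 3 * cc * δ ^ 4 := by
      have h1 := cc_pos
      have h2 := cc_lt
      have h3 : 0 ≤ 1 - cc := by linarith
      positivity
    have h2 := mul_nonneg hG hextra
    nlinarith [h2, hs, hpq']
  apply antitoneOn_of_deriv_nonpos (convex_Ioi 0)
  · intro A hA
    obtain ⟨f', h, _⟩ := key A hA
    exact h.continuousAt.continuousWithinAt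
  · intro A hA
    rw [interior_Ioi] at hA
    obtain ⟨f', h, _⟩ := key A hA
    exact h.differentiableAt.differentiableWithinAt
  · intro A hA
    rw [interior_Ioi] at hA
    obtain ⟨f', h, h'⟩ := key A hA
    rw [h.deriv]; exact h'

theorem qq_eq {C S Am N A : ℝ} (hS : 0 < S) (hC : 0 < C) (hCS : C ^ 2 - S ^ 2 = 1)
    (hAm : 0 < Am) (hA : 0 < A) :
    2 * (C + A + Am) * w0 ((A - Am) / (C + A + Am)) (S / (C + A + Am))
      + FF ((C + A + Am) * vv ((A - Am) / (C + A + Am))) N
      - FF ((C + A + Am) * vb ((A - Am) / (C + A + Am)) (S / (C + A + Am))) N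
      = qq C S Am N A := by
  have hSC : S < C := by nlinarith
  unfold qq
  rw [two_V_w0] <;> linarith

/-- starting point. -/
theorem qq_start {E D : ℝ} (hE : 0 < E) (hD : 0 ≤ D) :
    qq (Real.cosh E) (Real.sinh E) (Real.exp (-D) / 2) (WW E D) (Real.exp D / 2)
      ≤ E * Real.sinh E / 2 := by
  have hS : 0 < Real.sinh E := Real.sinh_pos_iff.mpr hE
  have hC : 0 < Real.cosh E := Real.cosh_pos E
  have hCS : Real.cosh E ^ 2 - Real.sinh E ^ 2 = 1 := Real.cosh_sq_sub_sinh_sq E
  have hN : 0 < WW E D := WW_pos hE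
  have hAm : 0 < Real.exp (-D) / 2 := by positivity
  have hA : 0 < Real.exp D / 2 := by positivity
  rw [← qq_eq hS hC hCS hAm hA]
  have hV : Real.cosh E + Real.exp D / 2 + Real.exp (-D) / 2 = Real.cosh E + Real.cosh D := by
    rw [Real.cosh_eq D]; ring
  have hm : Real.exp D / 2 - Real.exp (-D) / 2 = Real.sinh D := by
    rw [Real.sinh_eq D]; ring
  have hy := y_pos hS hC hCS hAm hA
  have hyb := yb_pos hS hC hCS hAm hA
  rw [hV, hm] at *
  have h1 := FF_nonneg hyb hN
  have h2 := edge (z := Zi (WW E D / ((Real.cosh E + Real.cosh D) *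
    vv (Real.sinh D / (Real.cosh E + Real.cosh D))))) hE hD (Zi_nonneg _)
  have h3 : FF ((Real.cosh E + Real.cosh D) * vv (Real.sinh D / (Real.cosh E + Real.cosh D))) (WW E D)
    = (Real.cosh E + Real.cosh D) * vv (Real.sinh D / (Real.cosh E + Real.cosh D)) *
      GG (Zi (WW E D / ((Real.cosh E + Real.cosh D) * vv (Real.sinh D / (Real.cosh E + Real.cosh D)))))
      - mu (Zi (WW E D / ((Real.cosh E + Real.cosh D) *
        vv (Real.sinh D / (Real.cosh E + Real.cosh D))))) * WW E D := rfl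
  rw [h3]
  linarith

end PathAux

open PathAux

/-- Region I: `Am ≤ 1/2`, `D = -log (2 Am) ≥ 0`, `Ap ≥ 1/(4 Am)`. -/
theorem Q_region1 {E D Ap : ℝ} (hE : 0 < E) (hD : 0 ≤ D) (hAp : Real.exp D / 2 ≤ Ap) :
    let V := Real.cosh E + Ap + Real.exp (-D) / 2
    let m := (Ap - Real.exp (-D) / 2) / V
    let δ := Real.sinh E / V
    2 * V * w0 m δ + FF (V * vv m) (WW E D) - FF (V * vb m δ) (WW E D)
      ≤ E * Real.sinh E / 2 := by
  intro V m δ
  have hS : 0 < Real.sinh E := Real.sinh_pos_iff.mpr hE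
  have hC : 0 < Real.cosh E := Real.cosh_pos E
  have hCS : Real.cosh E ^ 2 - Real.sinh E ^ 2 = 1 := Real.cosh_sq_sub_sinh_sq E
  have hN : 0 < WW E D := WW_pos hE
  have hAm : 0 < Real.exp (-D) / 2 := by positivity
  have hA : 0 < Real.exp D / 2 := by positivity
  have hle : Real.exp (-D) / 2 ≤ Real.exp D / 2 := by
    have : Real.exp (-D) ≤ Real.exp D := Real.exp_le_exp.mpr (by linarith)
    linarith
  have h1 := qq_antitone hS hC hCS hAm hN (show Real.exp D / 2 ∈ Set.Ici (Real.exp (-D) / 2) from hle)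
    (show Ap ∈ Set.Ici (Real.exp (-D) / 2) from hle.trans hAp) hAp
  have h2 := qq_start hE hD
  have h3 := qq_eq (N := WW E D) hS hC hCS hAm (lt_of_lt_of_le hA hAp)
  calc _ = qq (Real.cosh E) (Real.sinh E) (Real.exp (-D) / 2) (WW E D) Ap := h3
    _ ≤ _ := h1
    _ ≤ _ := h2

/-- Region II: `1/2 ≤ Am ≤ Ap`, `N = WW E 0`. -/
theorem Q_region2 {E Ap Am : ℝ} (hE : 0 < E) (hAm : 1 / 2 ≤ Am) (hA : Am ≤ Ap) :
    let V := Real.cosh E + Ap + Am
    let m := (Ap - Am) / V
    let δ := Real.sinh E / V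
    2 * V * w0 m δ + FF (V * vv m) (WW E 0) - FF (V * vb m δ) (WW E 0)
      ≤ E * Real.sinh E / 2 := by
  intro V m δ
  have hS : 0 < Real.sinh E := Real.sinh_pos_iff.mpr hE
  have hC : 0 < Real.cosh E := Real.cosh_pos E
  have hCS : Real.cosh E ^ 2 - Real.sinh E ^ 2 = 1 := Real.cosh_sq_sub_sinh_sq E
  have hN : 0 < WW E 0 := WW_pos hE
  have hAm0 : 0 < Am := by linarith
  have h0 := qq_start hE le_rfl
  rw [neg_zero, Real.exp_zero] at h0
  rw [← dd_eq] at h0
  have h1 := dd_antitone hS hC hCS hN (show (1 / 2 : ℝ) ∈ Set.Ioi 0 by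
    simp) (show Am ∈ Set.Ioi 0 from hAm0) hAm
  have h2 := qq_antitone hS hC hCS hAm0 hN (show Am ∈ Set.Ici Am from Set.self_mem_Ici)
    (show Ap ∈ Set.Ici Am from hA) hA
  have h3 := qq_eq (N := WW E 0) hS hC hCS hAm0 (lt_of_lt_of_le hAm0 hA)
  rw [dd_eq _ _ _ Am] at h1
  calc _ = qq (Real.cosh E) (Real.sinh E) Am (WW E 0) Ap := h3
    _ ≤ _ := h2
    _ ≤ _ := h1
    _ ≤ _ := h0

end Vale.Agent.P322
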