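import Vale.Agent.P322.OneVar

/-! Module S: the key one-variable bound. -/

namespace Vale.Agent.P322
open Real

namespace SB

theorem nonneg_of_deriv {b : ℝ} {f f' : ℝ → ℝ} (hf : ∀ x, HasDerivAt f (f' x) x)
    (h0 : 0 ≤ f 0) (h' : ∀ x, 0 < x → x < b → 0 ≤ f' x) {x : ℝ} (hx0 : 0 ≤ x) (hxb : x ≤ b) :
    0 ≤ f x := by
  have hmono : MonotoneOn f (Set.Icc 0 b) := by
    refine monotoneOn_of_deriv_nonneg (convex_Icc 0 b)
      (fun y _ => (hf y).continuousAt.continuousWithinAt)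
      (fun y _ => (hf y).differentiableAt.differentiableWithinAt) ?_
    intro y hy
    rw [interior_Icc] at hy
    rw [(hf y).deriv]
    exact h' y hy.1 hy.2
  exact h0.trans (hmono ⟨le_refl 0, hx0.trans hxb⟩ ⟨hx0, hxb⟩ hx0)

theorem cosh_two : Real.cosh 2 ≤ 377 / 100 := by
  rw [Real.cosh_eq]
  have h1 : Real.exp 2 ≤ 7.3891 := by
    have : Real.exp 2 = Real.exp 1 * Real.exp 1 := by rw [← Real.exp_add]; norm_num
    rw [this]
    have := Real.exp_one_lt_d9
    have h0 := Real.exp_pos 1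
    nlinarith
  have h2 : Real.exp (-2) ≤ 0.14 := by
    rw [Real.exp_neg, inv_le_comm₀ (Real.exp_pos 2) (by norm_num)]
    have : Real.exp 2 = Real.exp 1 * Real.exp 1 := by rw [← Real.exp_add]; norm_num
    rw [this]
    have := Real.exp_one_gt_d9
    nlinarith
  linarith

theorem cosh_le {u : ℝ} (h0 : 0 ≤ u) (h2 : u ≤ 2) : Real.cosh u ≤ 377 / 100 := by
  refine le_trans ?_ cosh_two
  rw [Real.cosh_le_cosh, abs_of_nonneg h0, abs_of_nonneg (by norm_num)]
  exact h2

theorem s1 {u : ℝ} (h0 : 0 ≤ u) (h2 : u ≤ 2) : Real.sinh u ≤ 377 / 100 * u := by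
  have := nonneg_of_deriv (b := 2) (f := fun u => 377 / 100 * u - Real.sinh u)
    (f' := fun u => 377 / 100 - Real.cosh u) (fun x => by
      have := ((hasDerivAt_id x).const_mul (377 / 100)).sub (Real.hasDerivAt_sinh x)
      refine this.congr_deriv ?_
      simp) (by simp) (fun x hx hx2 => by
      have := cosh_le hx.le hx2.le
      linarith) h0 h2
  linarith

theorem c2 {u : ℝ} (h0 : 0 ≤ u) (h2 : u ≤ 2) : Real.cosh u ≤ 1 + 377 / 200 * u ^ 2 := by
  have := nonneg_of_deriv (b := 2) (f := fun u => 1 + 377 / 200 * u ^ 2 - Real.cosh u)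
    (f' := fun u => 377 / 100 * u - Real.sinh u) (fun x => by
      have := ((((hasDerivAt_pow 2 x).const_mul (377 / 200)).const_add 1)).sub
        (Real.hasDerivAt_cosh x)
      refine this.congr_deriv ?_
      simp; ring) (by simp) (fun x hx hx2 => by
      have := s1 hx.le hx2.le
      linarith) h0 h2
  linarith

theorem s3 {u : ℝ} (h0 : 0 ≤ u) (h2 : u ≤ 2) : Real.sinh u ≤ u + 377 / 600 * u ^ 3 := by
  have := nonneg_of_deriv (b := 2) (f := fun u => u + 377 / 600 * u ^ 3 - Real.sinh u)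
    (f' := fun u => 1 + 377 / 200 * u ^ 2 - Real.cosh u) (fun x => by
      have := ((hasDerivAt_id x).add ((hasDerivAt_pow 3 x).const_mul (377 / 600))).sub
        (Real.hasDerivAt_sinh x)
      refine this.congr_deriv ?_
      simp; ring) (by simp) (fun x hx hx2 => by
      have := c2 hx.le hx2.le
      linarith) h0 h2
  linarith

theorem c4 {u : ℝ} (h0 : 0 ≤ u) (h2 : u ≤ 2) :
    Real.cosh u ≤ 1 + u ^ 2 / 2 + 377 / 2400 * u ^ 4 := by
  have := nonneg_of_deriv (b := 2)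
    (f := fun u => 1 + 1 / 2 * u ^ 2 + 377 / 2400 * u ^ 4 - Real.cosh u)
    (f' := fun u => u + 377 / 600 * u ^ 3 - Real.sinh u) (fun x => by
      have := ((((hasDerivAt_pow 2 x).const_mul (1 / 2)).const_add 1).add
        ((hasDerivAt_pow 4 x).const_mul (377 / 2400))).sub (Real.hasDerivAt_cosh x)
      refine this.congr_deriv ?_
      simp; ring) (by simp) (fun x hx hx2 => by
      have := s3 hx.le hx2.le
      linarith) h0 h2
  linarith

theorem s5 {u : ℝ} (h0 : 0 ≤ u) (h2 : u ≤ 2) :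
    Real.sinh u ≤ u + u ^ 3 / 6 + 377 / 12000 * u ^ 5 := by
  have := nonneg_of_deriv (b := 2)
    (f := fun u => u + 1 / 6 * u ^ 3 + 377 / 12000 * u ^ 5 - Real.sinh u)
    (f' := fun u => 1 + u ^ 2 / 2 + 377 / 2400 * u ^ 4 - Real.cosh u) (fun x => by
      have := (((hasDerivAt_id x).add ((hasDerivAt_pow 3 x).const_mul (1 / 6))).add
        ((hasDerivAt_pow 5 x).const_mul (377 / 12000))).sub (Real.hasDerivAt_sinh x)
      refine this.congr_deriv ?_
      simp; ring) (by simp) (fun x hx hx2 => by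
      have := c4 hx.le hx2.le
      linarith) h0 h2
  linarith

theorem c6 {u : ℝ} (h0 : 0 ≤ u) (h2 : u ≤ 2) :
    Real.cosh u ≤ 1 + u ^ 2 / 2 + u ^ 4 / 24 + 377 / 72000 * u ^ 6 := by
  have := nonneg_of_deriv (b := 2)
    (f := fun u => 1 + 1 / 2 * u ^ 2 + 1 / 24 * u ^ 4 + 377 / 72000 * u ^ 6 - Real.cosh u)
    (f' := fun u => u + u ^ 3 / 6 + 377 / 12000 * u ^ 5 - Real.sinh u) (fun x => by
      have := (((((hasDerivAt_pow 2 x).const_mul (1 / 2)).const_add 1).add
        ((hasDerivAt_pow 4 x).const_mul (1 / 24))).add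
        ((hasDerivAt_pow 6 x).const_mul (377 / 72000))).sub (Real.hasDerivAt_cosh x)
      refine this.congr_deriv ?_
      simp; ring) (by simp) (fun x hx hx2 => by
      have := s5 hx.le hx2.le
      linarith) h0 h2
  linarith

theorem s7 {u : ℝ} (h0 : 0 ≤ u) (h2 : u ≤ 2) :
    Real.sinh u ≤ u + u ^ 3 / 6 + u ^ 5 / 120 + 377 / 504000 * u ^ 7 := by
  have := nonneg_of_deriv (b := 2)
    (f := fun u => u + 1 / 6 * u ^ 3 + 1 / 120 * u ^ 5 + 377 / 504000 * u ^ 7 - Real.sinh u)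
    (f' := fun u => 1 + u ^ 2 / 2 + u ^ 4 / 24 + 377 / 72000 * u ^ 6 - Real.cosh u) (fun x => by
      have := ((((hasDerivAt_id x).add ((hasDerivAt_pow 3 x).const_mul (1 / 6))).add
        ((hasDerivAt_pow 5 x).const_mul (1 / 120))).add
        ((hasDerivAt_pow 7 x).const_mul (377 / 504000))).sub (Real.hasDerivAt_sinh x)
      refine this.congr_deriv ?_
      simp; ring) (by simp) (fun x hx hx2 => by
      have := c6 hx.le hx2.le
      linarith) h0 h2
  linarith

/-- upper bound for `u cosh u - sinh u`. -/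
theorem ucosh {u : ℝ} (h0 : 0 ≤ u) (h2 : u ≤ 2) :
    u * Real.cosh u - Real.sinh u ≤
      u ^ 3 / 3 + u ^ 5 / 30 + u ^ 7 / 840 + 377 / 4536000 * u ^ 9 := by
  have := nonneg_of_deriv (b := 2)
    (f := fun u => 1 / 3 * u ^ 3 + 1 / 30 * u ^ 5 + 1 / 840 * u ^ 7 + 377 / 4536000 * u ^ 9 -
      (u * Real.cosh u - Real.sinh u))
    (f' := fun u => u * (u + u ^ 3 / 6 + u ^ 5 / 120 + 377 / 504000 * u ^ 7 - Real.sinh u))
    (fun x => by
      have := (((((hasDerivAt_pow 3 x).const_mul (1 / 3)).add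
        ((hasDerivAt_pow 5 x).const_mul (1 / 30))).add
        ((hasDerivAt_pow 7 x).const_mul (1 / 840))).add
        ((hasDerivAt_pow 9 x).const_mul (377 / 4536000))).sub
        (((hasDerivAt_id x).mul (Real.hasDerivAt_cosh x)).sub (Real.hasDerivAt_sinh x))
      refine this.congr_deriv ?_
      simp; ring) (by simp) (fun x hx hx2 => by
      have := s7 hx.le hx2.le
      exact mul_nonneg hx.le (by linarith)) h0 h2
  linarith

/-- `h z = cosh z * om z`. -/
noncomputable def hh (z : ℝ) : ℝ := Real.cosh z * Real.log (2 * Real.cosh z) - z * Real.sinh z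

noncomputable def hh' (z : ℝ) : ℝ := Real.sinh z * Real.log (2 * Real.cosh z) - z * Real.cosh z

theorem hh_eq (z : ℝ) : hh z = Real.cosh z * om z := by
  have h := (Real.cosh_pos z).ne'
  unfold hh om
  rw [Real.tanh_eq_sinh_div_cosh]
  field_simp

theorem hasDerivAt_log2cosh (z : ℝ) :
    HasDerivAt (fun z => Real.log (2 * Real.cosh z)) (Real.sinh z / Real.cosh z) z := by
  have h := (Real.cosh_pos z).ne'
  have h1 := ((Real.hasDerivAt_cosh z).const_mul 2).log (by positivity)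
  refine h1.congr_deriv ?_
  field_simp

theorem hasDerivAt_hh (z : ℝ) : HasDerivAt hh (hh' z) z := by
  have h := (Real.cosh_pos z).ne'
  have h1 := ((Real.hasDerivAt_cosh z).mul (hasDerivAt_log2cosh z)).sub
    ((hasDerivAt_id z).mul (Real.hasDerivAt_sinh z))
  refine h1.congr_deriv ?_
  unfold hh'
  simp only [id]
  field_simp
  ring

theorem hasDerivAt_hh' (z : ℝ) : HasDerivAt hh' (hh z - 1 / Real.cosh z) z := by
  have h := (Real.cosh_pos z).ne'
  have h1 := ((Real.hasDerivAt_sinh z).mul (hasDerivAt_log2cosh z)).sub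
    ((hasDerivAt_id z).mul (Real.hasDerivAt_cosh z))
  refine h1.congr_deriv ?_
  unfold hh
  simp only [id]
  field_simp
  nlinarith [Real.cosh_sq z]

/-- Upper bound for `hh`. -/
theorem hh_le {z : ℝ} (h0 : 0 ≤ z) (h1 : z ≤ 1) :
    hh z ≤ Real.log 2 - (1 - Real.log 2) / 2 * z ^ 2 + Real.log 2 / 24 * z ^ 4 := by
  set l := Real.log 2 with hl
  have hl1 : l < 0.6931471808 := Real.log_two_lt_d9
  have hl0 : 0.6931471803 < l := Real.log_two_gt_d9
  let D : ℝ → ℝ := fun z => l - (1 - l) / 2 * z ^ 2 + l / 24 * z ^ 4 - hh z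
  let D' : ℝ → ℝ := fun z => -(1 - l) * z + l / 6 * z ^ 3 - hh' z
  let D'' : ℝ → ℝ := fun z => -(1 - l) + l / 2 * z ^ 2 - (hh z - 1 / Real.cosh z)
  have hD : ∀ z, HasDerivAt D (D' z) z := by
    intro z
    have := ((((hasDerivAt_pow 2 z).const_mul ((1 - l) / 2)).const_sub l).add
      ((hasDerivAt_pow 4 z).const_mul (l / 24))).sub (hasDerivAt_hh z)
    refine this.congr_deriv ?_
    simp only [D']
    simp; ring
  have hD' : ∀ z, HasDerivAt D' (D'' z) z := by
    intro z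
    have := (((hasDerivAt_id z).const_mul (-(1 - l))).add
      ((hasDerivAt_pow 3 z).const_mul (l / 6))).sub (hasDerivAt_hh' z)
    refine this.congr_deriv ?_
    simp only [D'']
    simp; ring
  have hDD : ∀ z, 0 ≤ z → z ≤ 1 → D z ≤ D'' z := by
    intro z hz0 hz1
    have hc := Real.cosh_pos z
    have h4 := c4 hz0 (by linarith : z ≤ 2)
    have h5 : 1 - z ^ 2 / 2 + l / 24 * z ^ 4 ≤ 1 / Real.cosh z := by
      rw [le_div_iff₀ hc]
      have h6 : 0 ≤ 1 - z ^ 2 / 2 + l / 24 * z ^ 4 := by nlinarith [sq_nonneg z, sq_nonneg (z^2)]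
      have h7 := mul_le_mul_of_nonneg_left h4 h6
      refine h7.trans ?_
      have hs0 : 0 ≤ z ^ 2 := sq_nonneg z
      have hs1 : z ^ 2 ≤ 1 := by nlinarith
      have h8 : z ^ 4 = z ^ 2 * z ^ 2 := by ring
      rw [h8]
      set s := z ^ 2 with hs
      have h9 : (1 - s / 2 + l / 24 * (s * s)) * (1 + s / 2 + 377 / 2400 * (s * s)) ≤
          (1 - s / 2 + 7 / 240 * (s * s)) * (1 + s / 2 + 377 / 2400 * (s * s)) := by
        apply mul_le_mul_of_nonneg_right _ (by positivity)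
        have : l / 24 ≤ 7 / 240 := by linarith
        nlinarith [mul_nonneg hs0 hs0]
      refine h9.trans ?_
      have hs2 : 0 ≤ s ^ 2 := sq_nonneg s
      have hs3 : s ^ 3 ≤ s ^ 2 := by nlinarith
      have hs3' : 0 ≤ s ^ 3 := by positivity
      have hs4 : s ^ 4 ≤ s ^ 2 := by nlinarith
      nlinarith
    simp only [D, D'']
    linarith [h5, (by ring : (1 - l) / 2 * z ^ 2 = z ^ 2 / 2 - l / 2 * z ^ 2)]
  have hD0 : D 0 = 0 := by simp [D, hh, hl]
  have hD'0 : D' 0 = 0 := by simp [D', hh']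
  -- step 1
  have e1 : ∀ z, 0 ≤ z → z ≤ 1 → 0 ≤ D' z + D z := by
    intro z hz0 hz1
    have := nonneg_of_deriv (b := 1) (f := fun z => Real.exp (-z) * (D' z + D z))
      (f' := fun z => Real.exp (-z) * (D'' z - D z)) (fun x => by
        have := ((hasDerivAt_neg x).exp).mul ((hD' x).add (hD x))
        refine this.congr_deriv ?_
        simp only [Pi.add_apply]
        ring) (by simp [hD0, hD'0]) (fun x hx hx1 =>
          mul_nonneg (Real.exp_pos _).le (by linarith [hDD x hx.le hx1.le])) hz0 hz1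
    exact nonneg_of_mul_nonneg_right this (Real.exp_pos _)
  have e2 : 0 ≤ D z := by
    have := nonneg_of_deriv (b := 1) (f := fun z => Real.exp z * D z)
      (f' := fun z => Real.exp z * (D' z + D z)) (fun x => by
        have := (Real.hasDerivAt_exp x).mul (hD x)
        refine this.congr_deriv ?_
        ring) (by simp [hD0]) (fun x hx hx1 =>
          mul_nonneg (Real.exp_pos _).le (e1 x hx.le hx1.le)) h0 h1
    exact nonneg_of_mul_nonneg_right this (Real.exp_pos _)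
  simp only [D] at e2
  linarith

theorem small {z : ℝ} (h0 : 0 < z) (h1 : z ≤ 1) :
    (2 * z * Real.cosh (2 * z) - Real.sinh (2 * z)) * Real.cosh z ^ 2 * om z ^ 2
      ≤ (13 / 10) * z ^ 3 := by
  have hA := ucosh (u := 2 * z) (by linarith) (by linarith)
  have hH := hh_le h0.le h1
  have hl1 : Real.log 2 < 0.6931471808 := Real.log_two_lt_d9
  set s := z ^ 2 with hs
  have hs0 : 0 < s := by positivity
  have hs1 : s ≤ 1 := by nlinarith
  have hH2 : hh z ≤ 69315 / 100000 + (69315 / 200000 - 1 / 2) * s + 69315 / 2400000 * s ^ 2 := by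
    refine hH.trans ?_
    have : z ^ 4 = s ^ 2 := by rw [hs]; ring
    rw [this]
    nlinarith [sq_nonneg s]
  have hH0 : 0 ≤ hh z := by
    rw [hh_eq]
    exact mul_nonneg (Real.cosh_pos z).le (om_pos z).le
  have e1 : (2 * z * Real.cosh (2 * z) - Real.sinh (2 * z)) * Real.cosh z ^ 2 * om z ^ 2 =
      (2 * z * Real.cosh (2 * z) - Real.sinh (2 * z)) * hh z ^ 2 := by
    rw [hh_eq]; ring
  rw [e1]
  have hA2 : 2 * z * Real.cosh (2 * z) - Real.sinh (2 * z) ≤
      z ^ 3 * (8 / 3 + 16 / 15 * s + 16 / 105 * s ^ 2 + 377 * 512 / 4536000 * s ^ 3) := by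
    refine hA.trans (le_of_eq ?_)
    rw [hs]; ring
  have hsq : hh z ^ 2 ≤
      (69315 / 100000 + (69315 / 200000 - 1 / 2) * s + 69315 / 2400000 * s ^ 2) ^ 2 := by
    gcongr
  have h3 : (2 * z * Real.cosh (2 * z) - Real.sinh (2 * z)) * hh z ^ 2 ≤
      (z ^ 3 * (8 / 3 + 16 / 15 * s + 16 / 105 * s ^ 2 + 377 * 512 / 4536000 * s ^ 3)) *
      (69315 / 100000 + (69315 / 200000 - 1 / 2) * s + 69315 / 2400000 * s ^ 2) ^ 2 := by
    apply mul_le_mul hA2 hsq (sq_nonneg _) (by positivity)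
  refine h3.trans ?_
  have hz3 : 0 < z ^ 3 := by positivity
  have h4 : (8 / 3 + 16 / 15 * s + 16 / 105 * s ^ 2 + 377 * 512 / 4536000 * s ^ 3) *
      (69315 / 100000 + (69315 / 200000 - 1 / 2) * s + 69315 / 2400000 * s ^ 2) ^ 2 ≤ 13 / 10 := by
    have p2 : s ^ 2 ≤ s := by nlinarith
    have p2' : 0 ≤ s ^ 2 := by positivity
    have p3 : s ^ 3 ≤ s := by nlinarith
    have p3' : 0 ≤ s ^ 3 := by positivity
    have p4 : s ^ 4 ≤ s := by nlinarith
    have p4' : 0 ≤ s ^ 4 := by positivity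
    have p5 : s ^ 5 ≤ s := by nlinarith
    have p5' : 0 ≤ s ^ 5 := by positivity
    have p6 : s ^ 6 ≤ s := by nlinarith
    have p6' : 0 ≤ s ^ 6 := by positivity
    have p7 : s ^ 7 ≤ s := by nlinarith
    nlinarith
  calc _ = z ^ 3 * ((8 / 3 + 16 / 15 * s + 16 / 105 * s ^ 2 + 377 * 512 / 4536000 * s ^ 3) *
      (69315 / 100000 + (69315 / 200000 - 1 / 2) * s + 69315 / 2400000 * s ^ 2) ^ 2) := by ring
    _ ≤ z ^ 3 * (13 / 10) := by gcongr
    _ = _ := by ring

theorem log_one_add_le {q : ℝ} (hq : 0 ≤ q) (hq1 : q ≤ 1) :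
    Real.log (1 + q) ≤ q - q ^ 2 / 2 + q ^ 3 / 2 := by
  rw [Real.log_le_iff_le_exp (by linarith)]
  have hx : 0 ≤ q - q ^ 2 / 2 + q ^ 3 / 2 := by nlinarith [sq_nonneg q, pow_nonneg hq 3]
  refine le_trans ?_ (Real.quadratic_le_exp_of_nonneg hx)
  have h1 : q - q ^ 2 / 2 ≤ q - q ^ 2 / 2 + q ^ 3 / 2 := by
    have := pow_nonneg hq 3
    linarith
  have h2 : 0 ≤ q - q ^ 2 / 2 := by nlinarith
  have h3 : (q - q ^ 2 / 2) ^ 2 ≤ (q - q ^ 2 / 2 + q ^ 3 / 2) ^ 2 := by gcongr
  nlinarith [sq_nonneg (q ^ 2)]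

theorem poly_large {L : ℝ} (hL : 2 ≤ L) :
    (L - 1 + (L + 1) * (0.1354) ^ 2) * (L + 1 + 51 / 100 * 0.1354) ^ 2 ≤ 13 / 10 * L ^ 3 := by
  obtain ⟨y, hy, rfl⟩ : ∃ y, 0 ≤ y ∧ L = y + 2 := ⟨L - 2, by linarith, by ring⟩
  have h1 : 13 / 10 * (y + 2) ^ 3 -
      ((y + 2) - 1 + ((y + 2) + 1) * (0.1354) ^ 2) * ((y + 2) + 1 + 51 / 100 * 0.1354) ^ 2 ≥
      0.28 * y ^ 3 + (0.49 * y ^ 2 - 0.4685 * y + 0.46) := by
    ring_nf
    nlinarith [pow_nonneg hy 3, pow_nonneg hy 2]
  have h2 : 0 ≤ 0.49 * y ^ 2 - 0.4685 * y + 0.46 := by nlinarith [sq_nonneg (y - 0.478)]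
  have h3 := pow_nonneg hy 3
  linarith

theorem large {z : ℝ} (h1 : 1 ≤ z) :
    (2 * z * Real.cosh (2 * z) - Real.sinh (2 * z)) * Real.cosh z ^ 2 * om z ^ 2
      ≤ (13 / 10) * z ^ 3 := by
  set q := Real.exp (-(2 * z)) with hq
  have hq0 : 0 < q := Real.exp_pos _
  have hq1 : q ≤ 0.1354 := by
    have h2 : q ≤ Real.exp (-2) := Real.exp_le_exp.2 (by linarith)
    refine h2.trans ?_
    rw [Real.exp_neg, inv_le_comm₀ (Real.exp_pos 2) (by norm_num)]
    have : Real.exp 2 = Real.exp 1 * Real.exp 1 := by rw [← Real.exp_add]; norm_num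
    rw [this]
    have := Real.exp_one_gt_d9
    nlinarith
  have hqi : Real.exp (2 * z) = q⁻¹ := by rw [hq, Real.exp_neg, inv_inv]
  have hc2 : Real.cosh (2 * z) = (q⁻¹ + q) / 2 := by rw [Real.cosh_eq, hqi]
  have hs2 : Real.sinh (2 * z) = (q⁻¹ - q) / 2 := by rw [Real.sinh_eq, hqi]
  have hcz2 : Real.cosh z ^ 2 = (1 + q) ^ 2 / (4 * q) := by
    have : Real.cosh (2 * z) = 2 * Real.cosh z ^ 2 - 1 := by
      rw [Real.cosh_two_mul, Real.sinh_sq]; ring
    have h3 : Real.cosh z ^ 2 = ((q⁻¹ + q) / 2 + 1) / 2 := by rw [← hc2]; linarith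
    rw [h3]
    field_simp
    ring
  have hom : om z = Real.log (1 + q) + 2 * z * q / (1 + q) := by
    have h3 : 2 * Real.cosh z = Real.exp z * (1 + q) := by
      rw [Real.cosh_eq, hq, mul_add, ← Real.exp_add]
      ring_nf
    have h4 : Real.tanh z = (1 - q) / (1 + q) := by
      rw [Real.tanh_eq_sinh_div_cosh, Real.sinh_eq, Real.cosh_eq]
      have h5 : Real.exp (-z) = Real.exp z * q := by
        rw [hq, ← Real.exp_add]; ring_nf
      rw [h5]
      have := (Real.exp_pos z).ne'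
      field_simp
    unfold om
    rw [h3, h4, Real.log_mul (Real.exp_pos z).ne' (by positivity), Real.log_exp]
    field_simp
    ring
  have hlog := log_one_add_le hq0.le (by linarith)
  set L := 2 * z with hL
  have hL2 : 2 ≤ L := by linarith
  have homb : (1 + q) * om z ≤ q * (L + 1 + 51 / 100 * q) := by
    have h3 : (1 + q) * om z = (1 + q) * Real.log (1 + q) + L * q := by
      rw [hom]; field_simp
    rw [h3]
    have h4 : (1 + q) * Real.log (1 + q) ≤ (1 + q) * (q - q ^ 2 / 2 + q ^ 3 / 2) := by gcongr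
    have h5 : (1 + q) * (q - q ^ 2 / 2 + q ^ 3 / 2) = q * (1 + q / 2 + q ^ 3 / 2) := by ring
    have h6 : q ^ 3 / 2 ≤ q / 100 := by
      have : q ^ 2 ≤ 0.02 := by nlinarith
      have : q ^ 3 = q * q ^ 2 := by ring
      rw [this]
      nlinarith
    have h7 : q * (1 + q / 2 + q ^ 3 / 2) ≤ q * (1 + q / 2 + q / 100) := by gcongr
    nlinarith
  have hom0 := om_pos z
  have e1 : (L * Real.cosh L - Real.sinh L) * Real.cosh z ^ 2 * om z ^ 2 =
      (L * (1 + q ^ 2) - (1 - q ^ 2)) / (8 * q ^ 2) * ((1 + q) * om z) ^ 2 := by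
    rw [hc2, hs2, hcz2]
    field_simp
    ring
  have e2 : (13 / 10) * z ^ 3 = 13 / 80 * L ^ 3 := by rw [hL]; ring
  rw [e1, e2]
  have hpos : 0 ≤ (L * (1 + q ^ 2) - (1 - q ^ 2)) / (8 * q ^ 2) := by
    apply div_nonneg _ (by positivity)
    nlinarith [sq_nonneg q]
  have h3 : ((1 + q) * om z) ^ 2 ≤ (q * (L + 1 + 51 / 100 * q)) ^ 2 := by gcongr
  refine (mul_le_mul_of_nonneg_left h3 hpos).trans ?_
  have e3 : (L * (1 + q ^ 2) - (1 - q ^ 2)) / (8 * q ^ 2) * (q * (L + 1 + 51 / 100 * q)) ^ 2 =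
      (L * (1 + q ^ 2) - (1 - q ^ 2)) * (L + 1 + 51 / 100 * q) ^ 2 / 8 := by
    field_simp
  rw [e3]
  have h4 : L * (1 + q ^ 2) - (1 - q ^ 2) ≤ L - 1 + (L + 1) * (0.1354) ^ 2 := by
    have : q ^ 2 ≤ 0.1354 ^ 2 := by gcongr
    nlinarith
  have h5 : (L + 1 + 51 / 100 * q) ^ 2 ≤ (L + 1 + 51 / 100 * 0.1354) ^ 2 := by gcongr
  have h6 : (L * (1 + q ^ 2) - (1 - q ^ 2)) * (L + 1 + 51 / 100 * q) ^ 2 ≤
      (L - 1 + (L + 1) * (0.1354) ^ 2) * (L + 1 + 51 / 100 * 0.1354) ^ 2 := by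
    apply mul_le_mul h4 h5 (sq_nonneg _)
    nlinarith
  have h7 : (L - 1 + (L + 1) * (0.1354) ^ 2) * (L + 1 + 51 / 100 * 0.1354) ^ 2 ≤
      13 / 10 * L ^ 3 := by
    exact poly_large hL2
  linarith

end SB

/-- Numerically the ratio LHS/(2 z^3) decreases from (4/3) log(2)^2 = 0.640604 at z = 0+ to 1/2. -/
theorem SBound {z : ℝ} (hz : 0 < z) :
    (2 * z * Real.cosh (2 * z) - Real.sinh (2 * z)) * Real.cosh z ^ 2 * om z ^ 2
      ≤ (13 / 10) * z ^ 3 := by
  rcases le_total z 1 with h | h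
  · exact SB.small hz h
  · exact SB.large h

/-- Consequence (derivative of `GG + 0.65 log om` is `≤ 0`). -/
theorem GG_sub_le {z z' : ℝ} (hz' : 0 ≤ z') (h : z' ≤ z) :
    GG z - GG z' ≤ (13 / 20) * Real.log (om z' / om z) := by
  have hanti : AntitoneOn (fun z => GG z + 13 / 20 * Real.log (om z)) (Set.Ici 0) := by
    have hder : ∀ x, 0 < x → HasDerivAt (fun z => GG z + 13 / 20 * Real.log (om z))
        ((2 * x * Real.cosh (2 * x) - Real.sinh (2 * x)) / (2 * x ^ 2) * om x +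
          13 / 20 * (-(x / Real.cosh x ^ 2) / om x)) x := fun x hx =>
      (hasDerivAt_GG hx).add (((hasDerivAt_om x).log (om_pos x).ne').const_mul _)
    refine antitoneOn_of_deriv_nonpos (convex_Ici 0) ?_ ?_ ?_
    · exact GG_continuousOn.add (continuousOn_const.mul
        (om_continuous.continuousOn.log fun x _ => (om_pos x).ne'))
    · intro x hx
      rw [interior_Ici] at hx
      exact (hder x hx).differentiableAt.differentiableWithinAt
    · intro x hx
      rw [interior_Ici] at hx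
      have hx' : 0 < x := hx
      rw [(hder x hx).deriv]
      have h1 := SBound hx'
      have h2 := om_pos x
      have h3 := Real.cosh_pos x
      have h4 : (2 * x * Real.cosh (2 * x) - Real.sinh (2 * x)) / (2 * x ^ 2) * om x +
          13 / 20 * (-(x / Real.cosh x ^ 2) / om x) =
          ((2 * x * Real.cosh (2 * x) - Real.sinh (2 * x)) * Real.cosh x ^ 2 * om x ^ 2 -
            13 / 10 * x ^ 3) / (2 * x ^ 2 * Real.cosh x ^ 2 * om x) := by
        field_simp
        ring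
      rw [h4]
      apply div_nonpos_of_nonpos_of_nonneg (by linarith) (by positivity)
  have h1 := hanti (Set.mem_Ici.2 hz') (Set.mem_Ici.2 (hz'.trans h)) h
  simp only at h1
  rw [Real.log_div (om_pos z').ne' (om_pos z).ne']
  linarith

end Vale.Agent.P322
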